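import Vale.Agent.P178.H270.Surf

/-!
The order along a regular parameter `x` of a two-dimensional regular local ring: the largest `e`
with `a ∈ (x) + m ^ e`.
-/

universe u

namespace Vale.Agent.P178.Surf

open IsLocalRing

section general

variable {A : Type u} [CommRing A] [IsLocalRing A]

/-- The elements of order at least `e` along `x`. -/
def J (x : A) (e : ℕ) : Ideal A := Ideal.span {x} ⊔ maximalIdeal A ^ e

theorem x_mem_J (x : A) (e : ℕ) : x ∈ J x e :=
  Submodule.mem_sup_left (Ideal.mem_span_singleton_self x)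

theorem dvd_mem_J {x a : A} (e : ℕ) (h : x ∣ a) : a ∈ J x e :=
  Submodule.mem_sup_left (Ideal.mem_span_singleton.mpr h)

theorem pow_mem_J {x a : A} {e : ℕ} (h : a ∈ maximalIdeal A ^ e) : a ∈ J x e :=
  Submodule.mem_sup_right h

theorem J_anti {x : A} {e e' : ℕ} (h : e ≤ e') : J x e' ≤ J x e :=
  sup_le_sup_left (Ideal.pow_le_pow_right h) _

theorem mem_J {x y : A} (h : maximalIdeal A = Ideal.span {x, y}) {e : ℕ} {a : A} :
    a ∈ J x e ↔ ∃ d w, a = d * y ^ e + x * w := by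
  have hy : y ∈ maximalIdeal A := by rw [h]; exact Ideal.subset_span (by simp)
  constructor
  · intro ha
    obtain ⟨s, hs, t, ht, rfl⟩ := Submodule.mem_sup.mp ha
    obtain ⟨w, rfl⟩ := Ideal.mem_span_singleton.mp hs
    cases e with
    | zero => exact ⟨t, w, by ring⟩
    | succ n =>
      obtain ⟨g, _, c, rfl⟩ := mem_pow_succ h n t ht
      exact ⟨c, w + g, by ring⟩
  · rintro ⟨d, w, rfl⟩
    exact add_mem (pow_mem_J (Ideal.mul_mem_left _ _ (Ideal.pow_mem_pow hy e)))
      (dvd_mem_J e (dvd_mul_right x w))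

theorem mul_mem_J {x a b : A} {e : ℕ} (ha : a ∈ J x e) (hb : b ∈ maximalIdeal A) :
    a * b ∈ J x (e + 1) := by
  obtain ⟨s, hs, t, ht, rfl⟩ := Submodule.mem_sup.mp ha
  rw [add_mul]
  refine add_mem (dvd_mem_J _ (Dvd.dvd.mul_right (Ideal.mem_span_singleton.mp hs) b)) ?_
  apply pow_mem_J
  rw [pow_succ]
  exact Ideal.mul_mem_mul ht hb

theorem J_le {x : A} (hx : x ∈ maximalIdeal A) {e : ℕ} (he : e ≠ 0) : J x e ≤ maximalIdeal A :=
  sup_le ((Ideal.span_singleton_le_iff_mem _).mpr hx) (Ideal.pow_le_self he)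

theorem unit_notMem_J {x a : A} (hx : x ∈ maximalIdeal A) {e : ℕ} (he : e ≠ 0) (ha : IsUnit a) :
    a ∉ J x e := fun h => (mem_maximalIdeal a).mp (J_le hx he h) ha

theorem isUnit_of_notMem_J {x a : A} (ha : a ∉ J x 1) : IsUnit a := by
  by_contra h
  apply ha
  apply pow_mem_J
  rw [pow_one]
  exact (mem_maximalIdeal a).mpr h

/-- The leading term is a unit. -/
theorem exists_lead {x y : A} (h : maximalIdeal A = Ideal.span {x, y}) {e : ℕ} {p : A}
    (h1 : p ∈ J x e) (h2 : p ∉ J x (e + 1)) : ∃ c w, IsUnit c ∧ p = c * y ^ e + x * w := by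
  obtain ⟨c, w, hp⟩ := (mem_J h).mp h1
  refine ⟨c, w, ?_, hp⟩
  by_contra hc
  apply h2
  have hcm := (mem_maximalIdeal c).mpr hc
  rw [h, Ideal.mem_span_pair] at hcm
  obtain ⟨s, t, rfl⟩ := hcm
  exact (mem_J h).mpr ⟨t, s * y ^ e + w, by rw [hp]; ring⟩

theorem exists_quot {x y : A} (h : maximalIdeal A = Ideal.span {x, y}) {e : ℕ} {p : A}
    (h1 : p ∈ J x e) (h2 : p ∉ J x (e + 1)) {f : A} (hf : f ∈ J x e) :
    ∃ g b, f = x * g + p * b := by
  obtain ⟨c, w, hc, hp⟩ := exists_lead h h1 h2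
  obtain ⟨c', hc'⟩ := hc.exists_right_inv
  obtain ⟨d, v, rfl⟩ := (mem_J h).mp hf
  exact ⟨v - d * c' * w, d * c', by
    linear_combination (-(d * c')) * hp - d * y ^ e * hc'⟩

/-- Every element prime to `p` is congruent to `x ^ r * f` with `f` outside the ideal. -/
theorem exists_reduction' [IsNoetherianRing A] {p x : A} {I : Ideal A} (hp : ¬ IsUnit p)
    (hred : ∀ f ∈ I, ∃ g b, f = x * g + p * b)
    (hx : x ∈ maximalIdeal A) {a : A} (ha : ¬ p ∣ a) :
    ∃ (r : ℕ) (f b : A), f ∉ I ∧ a = x ^ r * f + p * b := by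
  obtain ⟨N, hN⟩ := exists_notMem_pow hp ha
  clear ha
  induction N generalizing a with
  | zero => exact absurd (by simp : a - p * 0 ∈ maximalIdeal A ^ 0) (hN 0)
  | succ N ih =>
    by_cases hae : a ∈ I
    · obtain ⟨g, b, hb⟩ := hred a hae
      obtain ⟨r, f, b', hf, hgf⟩ := ih (a := g) (by
        intro b' hb'
        apply hN (b + x * b')
        have : a - p * (b + x * b') = x * (g - p * b') := by rw [hb]; ring
        rw [this, pow_succ']
        exact Ideal.mul_mem_mul hx hb')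
      exact ⟨r + 1, f, x * b' + b, hf, by rw [hb, hgf]; ring⟩
    · exact ⟨0, a, 0, hae, by ring⟩

/-- The order along `x` exists. -/
theorem exists_J_order [IsNoetherianRing A] {x a : A} (hx : ¬ IsUnit x) (ha : ¬ x ∣ a) :
    ∃ e, a ∉ J x e := by
  obtain ⟨N, hN⟩ := exists_notMem_pow hx ha
  refine ⟨N, fun h => ?_⟩
  obtain ⟨s, hs, t, ht, hst⟩ := Submodule.mem_sup.mp h
  obtain ⟨w, rfl⟩ := Ideal.mem_span_singleton.mp hs
  apply hN w
  rw [← hst, add_sub_cancel_left]
  exact ht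

end general

end Vale.Agent.P178.Surf
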