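import Vale.Agent.P178.H270.Residue
import Vale.Agent.P178.H270.Wst
import Mathlib.Algebra.DirectSum.Basic

/-!
The Milnor part of the Gersten complex of a two-dimensional regular local ring.
-/

universe u

noncomputable section

namespace Vale.Agent.P178M

open Vale.Agent.P178.Gersten IsLocalRing
open scoped DirectSum

section

variable {A : Type u} [CommRing A]

theorem kappa_unit (P : PrimeSpectrum A) (x : kappa P) : x = 0 ∨ IsUnit x := field_unit x

/-- The unit of the residue field given by an element outside the prime. -/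
def ku (P : PrimeSpectrum A) {a : A} (ha : a ∉ P.asIdeal) : (kappa P)ˣ :=
  ru (toKappa P) (toKappa_ne_zero P ha)

theorem ku_val (P : PrimeSpectrum A) {a : A} (ha : a ∉ P.asIdeal) :
    (ku P ha : kappa P) = toKappa P a := rfl

theorem cls_toKappa (P : PrimeSpectrum A) {a : A} (ha : a ∉ P.asIdeal) :
    cls (toKappa P a) = sym (ku P ha) := cls_ru _ _

theorem res_units {P : PrimeSpectrum A} {D : KM (FractionRing A) →+ KM (kappa P)}
    (hD : IsResidue P D) (l : List A) (hl : ∀ a ∈ l, a ∉ P.asIdeal) :
    D (symb (algebraMap A _) l) = 0 := hD.1 l hl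

theorem res_gen {P : PrimeSpectrum A} {D : KM (FractionRing A) →+ KM (kappa P)}
    (hD : IsResidue P D) (g : A) (l : List A) (hg : P.asIdeal = Ideal.span {g})
    (hl : ∀ a ∈ l, a ∉ P.asIdeal) :
    D (symb (algebraMap A _) (g :: l)) = symb (toKappa P) l := hD.2 g l hg hl

/-- The sum of the groups `K^M_*(κ(P))` over the primes of height one. -/
abbrev Tot (A : Type u) [CommRing A] : Type u := ⨁ P : Pt A 1, KM (kappa P.P)

/-- The boundaries: the elements of the sum of the `K^M_*(κ(P))` whose component at every `P` is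
the residue `d P z` of one element `z` of `K^M_*(Frac A)`. -/
def boundaries (d : (P : Pt A 1) → KM (FractionRing A) →+ KM (kappa P.P)) :
    AddSubgroup (Tot A) where
  carrier := {t | ∃ z, ∀ P, t P = d P z}
  zero_mem' := ⟨0, fun P => by rw [map_zero]; rfl⟩
  add_mem' := by
    rintro a b ⟨z, hz⟩ ⟨w, hw⟩
    exact ⟨z + w, fun P => by rw [map_add, ← hz, ← hw]; rfl⟩
  neg_mem' := by
    rintro a ⟨z, hz⟩
    exact ⟨-z, fun P => by rw [map_neg, ← hz]; rfl⟩

open Classical in
/-- The inclusion of the summand at `P`. -/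
def inj (P : Pt A 1) : KM (kappa P.P) →+ Tot A :=
  DirectSum.of (fun P : Pt A 1 => KM (kappa P.P)) P

theorem inj_same (P : Pt A 1) (z : KM (kappa P.P)) : inj P z P = z := by
  classical
  exact DirectSum.of_eq_same (β := fun P : Pt A 1 => KM (kappa P.P)) P z

theorem inj_ne {P P' : Pt A 1} (h : P ≠ P') (z : KM (kappa P.P)) : inj P z P' = 0 := by
  classical
  exact DirectSum.of_eq_of_ne (β := fun P : Pt A 1 => KM (kappa P.P)) P P' z h.symm

theorem tot_ext {s t : Tot A} (h : ∀ P, s P = t P) : s = t := DFinsupp.ext h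

theorem mem_of_support {Q : Type*} [AddCommGroup Q] (f : Tot A →+ Q) (N : AddSubgroup Q)
    (t : Tot A) (h : ∀ P, t P ≠ 0 → ∀ w, f (inj P w) ∈ N) : f t ∈ N := by
  classical
  have h1 := DirectSum.sum_support_of (β := fun P : Pt A 1 => KM (kappa P.P)) t
  rw [← h1, map_sum]
  refine sum_mem fun P hP => ?_
  have := h P (DFinsupp.mem_support_iff.mp hP) (t P)
  unfold inj at this
  convert this

/-- Left multiplication by a unit of `A`. -/
def lm (v : Aˣ) : Tot A →+ Tot A :=
  DirectSum.map fun P => AddMonoidHom.mulLeft (cls (toKappa P.P (v : A)))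

theorem lm_apply (v : Aˣ) (t : Tot A) (P : Pt A 1) :
    lm v t P = cls (toKappa P.P (v : A)) * t P := rfl

theorem lm_inj (v : Aˣ) (P : Pt A 1) (z : KM (kappa P.P)) :
    lm v (inj P z) = inj P (cls (toKappa P.P (v : A)) * z) := by
  apply tot_ext
  intro P'
  rw [lm_apply]
  by_cases h : P = P'
  · subst h
    rw [inj_same, inj_same]
  · rw [inj_ne h, inj_ne h, mul_zero]

theorem unit_notMem (P : PrimeSpectrum A) (v : Aˣ) : (v : A) ∉ P.asIdeal := fun h =>
  P.isPrime.ne_top (P.asIdeal.eq_top_of_isUnit_mem h v.isUnit)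

theorem cls_mul' (P : PrimeSpectrum A) {a b : A} (ha : a ∉ P.asIdeal) (hb : b ∉ P.asIdeal) :
    cls (toKappa P (a * b)) = cls (toKappa P a) + cls (toKappa P b) := by
  have hab : a * b ∉ P.asIdeal := fun h => (P.isPrime.mem_or_mem h).elim ha hb
  rw [cls_toKappa P ha, cls_toKappa P hb, cls_toKappa P hab, ← sym_mul]
  congr 1
  ext
  rw [Units.val_mul, ku_val, ku_val, ku_val, map_mul]

theorem lm_mul (v w : Aˣ) (t : Tot A) : lm (v * w) t = lm v t + lm w t := by
  apply tot_ext
  intro P
  have : (lm v t + lm w t) P = lm v t P + lm w t P := rfl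
  rw [this, lm_apply, lm_apply, lm_apply, Units.val_mul,
    cls_mul' P.P (unit_notMem _ v) (unit_notMem _ w), add_mul]

theorem lm_comm (v w : Aˣ) (t : Tot A) : lm v (lm w t) = - lm w (lm v t) := by
  apply tot_ext
  intro P
  have : (- lm w (lm v t)) P = - (lm w (lm v t) P) := rfl
  rw [this, lm_apply, lm_apply, lm_apply, lm_apply, ← mul_assoc, ← mul_assoc,
    cls_toKappa _ (unit_notMem _ v), cls_toKappa _ (unit_notMem _ w),
    sym_anticomm (kappa_unit P.P), neg_mul]

theorem lm_steinberg (v w : Aˣ) (h : (v : A) + w = 1) (t : Tot A) : lm v (lm w t) = 0 := by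
  apply tot_ext
  intro P
  have : (0 : Tot A) P = 0 := rfl
  rw [this, lm_apply, lm_apply, ← mul_assoc,
    cls_toKappa _ (unit_notMem _ v), cls_toKappa _ (unit_notMem _ w), sym_mul_sym, zero_mul]
  rw [ku_val, ku_val, ← map_add, h, map_one]

end

section surface

variable {A : Type u} [CommRing A] [IsRegularLocalRing A] [IsDomain A]

omit [IsRegularLocalRing A] [IsDomain A] in
theorem pt_ext {P P' : Pt A 1} (h : P.P.asIdeal = P'.P.asIdeal) : P = P' := by
  cases P; cases P'
  congr
  exact PrimeSpectrum.ext h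

/-- The point given by a prime element. -/
def pt {x : A} (hx : Prime x) : Pt A 1 :=
  ⟨⟨Ideal.span {x}, (Ideal.span_singleton_prime hx.ne_zero).mpr hx⟩, P178.Surf.height_span_prime hx⟩

theorem pt_ideal {x : A} (hx : Prime x) : (pt hx).P.asIdeal = Ideal.span {x} := rfl

omit [IsRegularLocalRing A] in
/-- A point of height one containing a generator of another one is equal to it. -/
theorem eq_of_mem {x : A} {P P' : Pt A 1} (hx : Prime x) (hP : P.P.asIdeal = Ideal.span {x})
    (h : x ∈ P'.P.asIdeal) : P = P' := by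
  apply pt_ext
  rw [hP]
  have := P'.P.isPrime
  exact (Ideal.eq_span_singleton_of_height_eq_one P'.height h hx).symm

omit [IsDomain A] in
theorem exists_gen (hdim : ringKrullDim A = 2) (P : Pt A 1) :
    ∃ g, Prime g ∧ P.P.asIdeal = Ideal.span {g} :=
  have := P.P.isPrime
  P178.Surf.exists_prime_generator hdim P.P.asIdeal P.height

omit [IsRegularLocalRing A] in
theorem finite_points [IsNoetherianRing A] {a : A} (ha : a ≠ 0) :
    {P : Pt A 1 | a ∈ P.P.asIdeal}.Finite := by
  have hfin := Ideal.finite_minimalPrimes_of_isNoetherianRing A (Ideal.span {a})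
  refine Set.Finite.of_injOn (f := fun P : Pt A 1 => P.P.asIdeal) ?_ ?_ hfin
  · intro P hP
    have hPp := P.P.isPrime
    refine ⟨⟨hPp, (Ideal.span_singleton_le_iff_mem _).mpr hP⟩, ?_⟩
    rintro Q ⟨hQ, haQ⟩ hQP
    by_contra hne
    have hlt : Q < P.P.asIdeal := lt_of_le_not_ge hQP hne
    have h1 := Ideal.height_add_one_le_of_lt_of_isPrime hlt
    rw [P.height] at h1
    have h2 : Q.height = 0 := by
      have h3 : Q.height + 1 ≤ 0 + 1 := by simpa using h1
      have h4 : Q.height ≤ 0 := (ENat.add_le_add_iff_right ENat.one_ne_top).mp h3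
      exact nonpos_iff_eq_zero.mp h4
    rw [Ideal.height_eq_zero_iff_eq_bot] at h2
    rw [h2, Ideal.span_singleton_le_iff_mem, Ideal.mem_bot] at haQ
    exact ha haQ
  · intro P _ P' _ h
    cases P; cases P'
    congr
    exact PrimeSpectrum.ext h

variable {d : (P : Pt A 1) → KM (FractionRing A) →+ KM (kappa P.P)}

/-- The residue homomorphisms exist. -/
theorem exists_residues (hdim : ringKrullDim A = 2) :
    ∃ d : (P : Pt A 1) → KM (FractionRing A) →+ KM (kappa P.P),
      ∀ (P : Pt A 1) (D : KM (FractionRing A) →+ KM (kappa P.P)),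
        IsResidue P.P D ↔ D = d P := by
  choose g hg hP using exists_gen hdim
  refine ⟨fun P => rsd (hg P) (kappa_iff (hP P)), fun P D => ⟨fun h => ?_, ?_⟩⟩
  · exact residue_unique (hg P) (hP P) h (isResidue_rsd (hg P) (hP P))
  · rintro rfl
    exact isResidue_rsd (hg P) (hP P)

/-- Residue of a product with an element outside `P`. -/
theorem d_unit (hdim : ringKrullDim A = 2) {P : Pt A 1}
    {D : KM (FractionRing A) →+ KM (kappa P.P)} (hD : IsResidue P.P D) {a : A}
    (ha : a ∉ P.P.asIdeal) (z : KM (FractionRing A)) :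
    D (cls (algebraMap A _ a) * z) = - (cls (toKappa P.P a) * D z) := by
  obtain ⟨g, hg, hP⟩ := exists_gen hdim P
  rw [residue_unique hg hP hD (isResidue_rsd hg hP)]
  exact rsd_unit hg (kappa_iff hP) (toKappa_ne_zero P.P ha) z

theorem closure_fu : Subgroup.closure {f : (FractionRing A)ˣ | ∃ (a : A) (ha0 : a ≠ 0),
    f = fu ha0} = ⊤ := by
  rw [eq_top_iff]
  intro f _
  obtain ⟨⟨r, s⟩, h⟩ := IsLocalization.surj (nonZeroDivisors A) (f : FractionRing A)
  simp only at h
  have hs0 : (s : A) ≠ 0 := nonZeroDivisors.ne_zero s.2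
  have hr0 : r ≠ 0 := by
    rintro rfl
    rw [map_zero] at h
    have h2 : IsUnit ((f : FractionRing A) * algebraMap A (FractionRing A) s) :=
      f.isUnit.mul (algebraMap_isUnit hs0)
    rw [h] at h2
    exact not_isUnit_zero h2
  have h3 : f * fu hs0 = fu hr0 := by
    ext
    rw [Units.val_mul, fu_val, fu_val]
    exact h
  rw [← eq_mul_inv_iff_mul_eq] at h3
  rw [h3]
  exact mul_mem (Subgroup.subset_closure ⟨r, hr0, rfl⟩)
    (inv_mem (Subgroup.subset_closure ⟨s, hs0, rfl⟩))

/-- Every element of the Milnor ring has only finitely many non-zero residues. -/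
theorem finite_residues (hdim : ringKrullDim A = 2) (hd : ∀ P : Pt A 1, IsResidue P.P (d P))
    (z : KM (FractionRing A)) : {P | d P z ≠ 0}.Finite := by
  refine induction (p := fun z => {P | d P z ≠ 0}.Finite) closure_fu ?_ ?_ ?_ ?_ z
  · intro x y hx hy
    refine (hx.union hy).subset fun P hP => ?_
    by_contra h
    simp only [Set.mem_union, Set.mem_ofPred_eq, not_or, not_not] at h
    exact hP (by rw [map_add, h.1, h.2, add_zero])
  · intro x hx
    refine hx.subset fun P hP h => hP ?_
    rw [map_neg, h, neg_zero]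
  · refine Set.finite_empty.subset fun P hP => hP ?_
    exact res_units (hd P) [] (by simp)
  · rintro _ ⟨a, ha0, rfl⟩ z hz
    refine ((finite_points ha0).union hz).subset fun P hP => ?_
    by_cases ha : a ∈ P.P.asIdeal
    · exact Or.inl ha
    · refine Or.inr fun h => hP ?_
      rw [← cls_algebraMap ha0, d_unit hdim (hd P) ha, h, mul_zero, neg_zero]

/-- The boundary as an element of the direct sum. -/
theorem exists_tot (hdim : ringKrullDim A = 2) (hd : ∀ P : Pt A 1, IsResidue P.P (d P))
    (z : KM (FractionRing A)) : ∃ t : Tot A, ∀ P, t P = d P z := by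
  classical
  refine ⟨DirectSum.mk (fun P : Pt A 1 => KM (kappa P.P)) (finite_residues hdim hd z).toFinset
    (fun P => d P.1 z), fun P => ?_⟩
  by_cases hP : P ∈ (finite_residues hdim hd z).toFinset
  · exact DirectSum.mk_apply_of_mem hP
  · rw [DirectSum.mk_apply_of_notMem hP]
    rw [Set.Finite.mem_toFinset] at hP
    exact (not_not.mp hP).symm

/-- The class modulo boundaries. -/
def cl (d : (P : Pt A 1) → KM (FractionRing A) →+ KM (kappa P.P)) :
    Tot A →+ Tot A ⧸ boundaries d := QuotientAddGroup.mk' (boundaries d)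

omit [IsRegularLocalRing A] [IsDomain A] in
theorem cl_eq_zero {t : Tot A} (ht : t ∈ boundaries d) : cl d t = 0 :=
  (QuotientAddGroup.eq_zero_iff t).mpr ht

omit [IsRegularLocalRing A] [IsDomain A] in
theorem cl_surjective : Function.Surjective (cl d) := QuotientAddGroup.mk'_surjective _

/-- A symbol `{a₁, …, aᵣ}` of `κ(P)` is, modulo boundaries, a sum of elements supported at the
primes generated by divisors of the `aᵢ`. -/
theorem symb_mem (hdim : ringKrullDim A = 2) (hd : ∀ P : Pt A 1, IsResidue P.P (d P)) {P : Pt A 1} {g : A}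
    (hg : Prime g) (hP : P.P.asIdeal = Ideal.span {g}) (l : List A)
    (hl : ∀ a ∈ l, a ∉ P.P.asIdeal) (N : AddSubgroup (Tot A ⧸ boundaries d))
    (hN : ∀ P' : Pt A 1, (∃ a ∈ l, a ∈ P'.P.asIdeal) → ∀ w, cl d (inj P' w) ∈ N) :
    cl d (inj P (symb (toKappa P.P) l)) ∈ N := by
  obtain ⟨t, ht⟩ := exists_tot hdim hd (symb (algebraMap A _) (g :: l))
  have h0 : cl d t = 0 := cl_eq_zero ⟨_, ht⟩
  have h1 : t P = symb (toKappa P.P) l := by rw [ht P, res_gen (hd P) g l hP hl]
  have h2 : cl d (t - inj P (t P)) ∈ N := by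
    apply mem_of_support
    intro P' hP'
    by_cases hPP : P = P'
    · subst hPP
      exfalso
      apply hP'
      have : (t - inj P (t P)) P = t P - inj P (t P) P := rfl
      rw [this, inj_same, sub_self]
    · have : (t - inj P (t P)) P' = t P' - inj P (t P) P' := rfl
      rw [this, inj_ne hPP, sub_zero, ht P'] at hP'
      apply hN P'
      by_contra! hcon
      apply hP'
      apply res_units (hd P')
      intro a ha
      rcases List.mem_cons.mp ha with rfl | ha
      · exact fun h => hPP (eq_of_mem hg hP h)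
      · exact hcon a ha
  rw [map_sub, h0, zero_sub, h1] at h2
  simpa using neg_mem h2

theorem unit_symb (hdim : ringKrullDim A = 2) (hd : ∀ P : Pt A 1, IsResidue P.P (d P)) (P : Pt A 1)
    (l : List A) (hl : ∀ a ∈ l, IsUnit a) : cl d (inj P (symb (toKappa P.P) l)) = 0 := by
  obtain ⟨g, hg, hP⟩ := exists_gen hdim P
  have hu : ∀ (P' : Pt A 1) a, a ∈ l → a ∉ P'.P.asIdeal := fun P' a ha h =>
    P'.P.isPrime.ne_top (P'.P.asIdeal.eq_top_of_isUnit_mem h (hl a ha))
  rw [← AddSubgroup.mem_bot]
  refine symb_mem hdim hd hg hP l (hu P) ⊥ ?_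
  rintro P' ⟨a, ha, haP⟩
  exact absurd haP (hu P' a ha)

omit [IsDomain A] in
theorem mem_left {x y : A} (h : maximalIdeal A = Ideal.span {x, y}) : x ∈ maximalIdeal A := by
  rw [h]; exact Ideal.subset_span (by simp)

omit [IsDomain A] in
theorem mem_right {x y : A} (h : maximalIdeal A = Ideal.span {x, y}) : y ∈ maximalIdeal A := by
  rw [h]; exact Ideal.subset_span (by simp)

theorem class_swap (hdim : ringKrullDim A = 2) (hd : ∀ P : Pt A 1, IsResidue P.P (d P)) {x y : A}
    (h : maximalIdeal A = Ideal.span {x, y}) (hx : Prime x) (hy : Prime y) :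
    cl d (inj (pt hx) (cls (toKappa (pt hx).P y))) =
      cl d (inj (pt hy) (cls (toKappa (pt hy).P x))) := by
  have h' : maximalIdeal A = Ideal.span {y, x} := by rw [h, Set.pair_comm]
  obtain ⟨_, hxy, _⟩ := P178.Surf.quotient_facts hdim h
  obtain ⟨_, hyx, _⟩ := P178.Surf.quotient_facts hdim h'
  have hyP : y ∉ (pt hx).P.asIdeal := by rwa [pt_ideal, Ideal.mem_span_singleton]
  have hxP : x ∉ (pt hy).P.asIdeal := by rwa [pt_ideal, Ideal.mem_span_singleton]
  have hne : pt hx ≠ pt hy := by
    intro he
    apply hxP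
    rw [← he, pt_ideal]
    exact Ideal.mem_span_singleton_self x
  rw [← sub_eq_zero, ← map_sub]
  apply cl_eq_zero
  refine ⟨symb (algebraMap A _) [x, y], fun P => ?_⟩
  have e : ∀ s t : Tot A, (s - t) P = s P - t P := fun _ _ => rfl
  rw [e]
  by_cases h1 : pt hx = P
  · subst h1
    rw [inj_same, inj_ne hne.symm, sub_zero, res_gen (hd _) x [y] rfl (by simpa using hyP),
      symb_singleton]
  · by_cases h2 : pt hy = P
    · subst h2
      rw [inj_ne hne, inj_same, zero_sub, symb_cons, d_unit hdim (hd _) hxP,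
        res_gen (hd _) y [] rfl (by simp), symb_nil, mul_one]
    · rw [inj_ne h1, inj_ne h2, sub_zero, res_units (hd P)]
      intro a ha
      rcases List.mem_cons.mp ha with rfl | ha
      · exact fun h3 => h1 (eq_of_mem hx (pt_ideal hx) h3)
      · rw [List.mem_singleton] at ha
        subst ha
        exact fun h3 => h2 (eq_of_mem hy (pt_ideal hy) h3)

theorem class_change (hdim : ringKrullDim A = 2) (hd : ∀ P : Pt A 1, IsResidue P.P (d P)) {x y y' : A}
    (h : maximalIdeal A = Ideal.span {x, y}) (h' : maximalIdeal A = Ideal.span {x, y'})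
    (hx : Prime x) :
    cl d (inj (pt hx) (cls (toKappa (pt hx).P y'))) =
      cl d (inj (pt hx) (cls (toKappa (pt hx).P y))) := by
  obtain ⟨_, hxy, _⟩ := P178.Surf.quotient_facts hdim h
  obtain ⟨_, hxy', _⟩ := P178.Surf.quotient_facts hdim h'
  have hyP : y ∉ (pt hx).P.asIdeal := by rwa [pt_ideal, Ideal.mem_span_singleton]
  have hy' := mem_right h'
  rw [h, Ideal.mem_span_pair] at hy'
  obtain ⟨a, v, hv⟩ := hy'
  have hyy := mem_right h
  rw [h', Ideal.mem_span_pair] at hyy
  obtain ⟨b, w, hw⟩ := hyy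
  have hvu : IsUnit v := by
    have h1 : x ∣ y * (w * v - 1) := ⟨-b - w * a, by linear_combination w * hv + hw⟩
    have h2 : x ∣ w * v - 1 := (‹Prime x›.dvd_or_dvd h1).resolve_left hxy
    have h3 : w * v - 1 ∈ maximalIdeal A := by
      obtain ⟨s, hs⟩ := h2
      rw [hs]
      exact Ideal.mul_mem_right _ _ (mem_left h)
    by_contra h4
    have h5 : (1 : A) ∈ maximalIdeal A := by
      have := sub_mem (Ideal.mul_mem_left _ w ((mem_maximalIdeal v).mpr h4)) h3
      rwa [sub_sub_cancel] at this
    exact (mem_maximalIdeal _).mp h5 isUnit_one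
  have hvP : v ∉ (pt hx).P.asIdeal := fun h =>
    (pt hx).P.isPrime.ne_top ((pt hx).P.asIdeal.eq_top_of_isUnit_mem h hvu)
  have hx0 : toKappa (pt hx).P x = 0 :=
    (toKappa_eq_zero_iff _ _).mpr (Ideal.mem_span_singleton_self x)
  have h6 : toKappa (pt hx).P y' = toKappa (pt hx).P (v * y) := by
    rw [← hv, map_add, map_mul, hx0, mul_zero, zero_add]
  rw [h6, cls_mul' _ hvP hyP, map_add, map_add, ← symb_singleton (toKappa (pt hx).P) v,
    unit_symb hdim hd _ [v] (by simpa using hvu), zero_add]

/-- The class is the same for all pairs of regular parameters. -/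
theorem class_eq (hdim : ringKrullDim A = 2)
    (hd : ∀ P : Pt A 1, IsResidue P.P (d P)) {x y x' y' : A}
    (h : maximalIdeal A = Ideal.span {x, y}) (h' : maximalIdeal A = Ideal.span {x', y'})
    (hx : Prime x) (hx' : Prime x') :
    cl d (inj (pt hx) (cls (toKappa (pt hx).P y))) =
      cl d (inj (pt hx') (cls (toKappa (pt hx').P y'))) := by
  obtain ⟨w, p1, p2⟩ : ∃ w, maximalIdeal A = Ideal.span {x, w} ∧
      maximalIdeal A = Ideal.span {x', w} := by
    have hx'm := mem_left h'
    rw [h, Ideal.mem_span_pair] at hx'm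
    obtain ⟨a, b, hab⟩ := hx'm
    by_cases hb : IsUnit b
    · obtain ⟨b', hb'⟩ := hb.exists_right_inv
      refine ⟨x + x', ?_, ?_⟩
      · rw [h]
        apply le_antisymm
        · rw [Ideal.span_le]
          rintro z (rfl | rfl)
          · exact Ideal.subset_span (by simp)
          · exact Ideal.mem_span_pair.mpr ⟨-b' * (1 + a), b', by
              rw [← hab]; linear_combination z * hb'⟩
        · rw [Ideal.span_le]
          rintro z (rfl | rfl)
          · exact Ideal.subset_span (by simp)
          · exact Ideal.mem_span_pair.mpr ⟨1 + a, b, by rw [← hab]; ring⟩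
      · rw [h]
        apply le_antisymm
        · rw [Ideal.span_le]
          rintro z (rfl | rfl)
          · exact Ideal.mem_span_pair.mpr ⟨-1, 1, by ring⟩
          · exact Ideal.mem_span_pair.mpr ⟨b' * (1 + a), -a * b', by
              rw [← hab]; linear_combination z * hb'⟩
        · rw [Ideal.span_le]
          rintro z (rfl | rfl)
          · exact Ideal.mem_span_pair.mpr ⟨a, b, by rw [← hab]⟩
          · exact Ideal.mem_span_pair.mpr ⟨1 + a, b, by rw [← hab]; ring⟩
    · have ha : IsUnit a := by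
        by_contra ha
        have h1 : maximalIdeal A = Ideal.span {y', x'} := by rw [h', Set.pair_comm]
        obtain ⟨hy, hyx, _⟩ := P178.Surf.quotient_facts hdim h1
        have h2 := P178.Surf.notMem_pow_succ h1 hy hyx (n := 1) (c := 1) (w := 0) isUnit_one
        apply h2
        have h3 : (1 : A) * x' ^ 1 + y' * 0 = a * x + b * y := by rw [hab]; ring
        rw [h3, pow_succ, pow_one]
        exact add_mem (Ideal.mul_mem_mul ((mem_maximalIdeal a).mpr ha) (mem_left h))
          (Ideal.mul_mem_mul ((mem_maximalIdeal b).mpr hb) (mem_right h))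
      obtain ⟨a', ha'⟩ := ha.exists_right_inv
      refine ⟨y, h, ?_⟩
      rw [h]
      apply le_antisymm
      · rw [Ideal.span_le]
        rintro z (rfl | rfl)
        · exact Ideal.mem_span_pair.mpr ⟨a', -a' * b, by
            rw [← hab]; linear_combination z * ha'⟩
        · exact Ideal.subset_span (by simp)
      · rw [Ideal.span_le]
        rintro z (rfl | rfl)
        · exact Ideal.mem_span_pair.mpr ⟨a, b, by rw [← hab]⟩
        · exact Ideal.subset_span (by simp)
  have hws : maximalIdeal A = Ideal.span {w, x} := by rw [p1, Set.pair_comm]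
  obtain ⟨hw, _, _⟩ := P178.Surf.quotient_facts hdim hws
  have p2' : maximalIdeal A = Ideal.span {w, x'} := by rw [p2, Set.pair_comm]
  rw [class_change hdim hd p1 h hx, class_swap hdim hd p1 hx hw,
    class_change hdim hd p2' hws hw, ← class_swap hdim hd p2 hx' hw,
    class_change hdim hd h' p2 hx']

end surface

end Vale.Agent.P178M
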