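import Vale.Agent.P178.Residues
import Mathlib.LinearAlgebra.TensorAlgebra.Basic
import Mathlib.Algebra.RingQuot

/-!
The Milnor ring of a commutative ring, and the residue homomorphisms.
-/

universe u

noncomputable section

namespace Vale.Agent.P178M

open Vale.Agent.P178.Gersten IsLocalRing

/-- The relations `[a] ⊗ [b] = 0` for units `a`, `b` with `a + b = 1`. -/
inductive SteinbergRel (R : Type u) [CommRing R] :
    TensorAlgebra ℤ (Additive Rˣ) → TensorAlgebra ℤ (Additive Rˣ) → Prop
  | mk (a b : Rˣ) (h : (a : R) + b = 1) :
      SteinbergRel R (TensorAlgebra.ι ℤ (Additive.ofMul a) *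
        TensorAlgebra.ι ℤ (Additive.ofMul b)) 0

/-- The Milnor ring `K^M_*(R)`: the tensor algebra of the abelian group `Rˣ` modulo the
two-sided ideal generated by the `a ⊗ b` with `a + b = 1`. -/
def KM (R : Type u) [CommRing R] : Type u := RingQuot (SteinbergRel R)

/-- The ring structure of the quotient. -/
def ringKM (R : Type u) [CommRing R] : Ring (KM R) := RingQuot.instRing (SteinbergRel R)

instance instRingKM (R : Type u) [CommRing R] : Ring (KM R) := ringKM R

/-- The quotient map. -/
def proj (R : Type u) [CommRing R] : TensorAlgebra ℤ (Additive Rˣ) →+* KM R :=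
  RingQuot.mkRingHom (SteinbergRel R)

/-- The class in `K^M_1(R)` of a unit. -/
def sym {R : Type u} [CommRing R] (a : Rˣ) : KM R :=
  proj R (TensorAlgebra.ι ℤ (Additive.ofMul a))

open Classical in
/-- The class in `K^M_1(R)` of an element of `R` (and `0` if it is not a unit). -/
def cls {R : Type u} [CommRing R] (x : R) : KM R := if h : IsUnit x then sym h.unit else 0

/-- The symbol `{f a₁, …, f aₙ}` of a list of elements of `A`. -/
def symb {A R : Type u} [CommRing A] [CommRing R] (f : A →+* R) (l : List A) : KM R :=
  (l.map fun a => cls (f a)).prod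

section

variable {A : Type u} [CommRing A]

/-- The Milnor ring of the fraction field of `A`. -/
def KF (A : Type u) [CommRing A] : Type u := KM (FractionRing A)

instance instRingKF (A : Type u) [CommRing A] : Ring (KF A) := instRingKM (FractionRing A)

/-- The Milnor ring of the residue field at the prime `P`. -/
def KP (P : PrimeSpectrum A) : Type u := KM (kappa P)

instance instRingKP (P : PrimeSpectrum A) : Ring (KP P) := instRingKM (kappa P)

/-- The Milnor ring of the residue field of the local ring `A`. -/
def KR (A : Type u) [CommRing A] [IsLocalRing A] : Type u := KM (ResidueField A)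

instance instRingKR (A : Type u) [CommRing A] [IsLocalRing A] : Ring (KR A) :=
  instRingKM (ResidueField A)

/-- The symbol `{a₁, …, aₙ}` of the fraction field. -/
def symF (l : List A) : KF A := symb (algebraMap A (FractionRing A)) l

/-- The symbol `{ā₁, …, āₙ}` of the residue field at `P`. -/
def symP (P : PrimeSpectrum A) (l : List A) : KP P := symb (toKappa P) l

/-- The symbol `{ā₁, …, āₙ}` of the residue field of the local ring `A`. -/
def symR [IsLocalRing A] (l : List A) : KR A := symb (residue A) l

/-- A homomorphism `D : K^M_*(Frac A) → K^M_*(κ(P))` is the residue (tame symbol) at the prime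
`P` if `D {a₁, …, aᵣ} = 0` and `D {π, a₁, …, aᵣ} = {ā₁, …, āᵣ}` for all
`a₁, …, aᵣ ∈ A` outside `P` and every generator `π` of `P`. -/
def IsResidue (P : PrimeSpectrum A) (D : KF A →+ KP P) : Prop :=
  (∀ l : List A, (∀ a ∈ l, a ∉ P.asIdeal) → D (symF l) = 0) ∧
  ∀ (g : A) (l : List A), P.asIdeal = Ideal.span {g} → (∀ a ∈ l, a ∉ P.asIdeal) →
    D (symF (g :: l)) = symP P l

end

end Vale.Agent.P178M
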