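import Vale.Agent.P178.H270.Final
import Mathlib.Algebra.Polynomial.Basic
import Mathlib.Algebra.Polynomial.Coeff

/-!
The grading of the Milnor ring, and the elements of degree two and three with trivial residues.
-/

universe u

noncomputable section

namespace Vale.Agent.P178M

open Vale.Agent.P178.Gersten IsLocalRing P178.Surf
open Polynomial (C X)

section grading

variable {R : Type u} [CommRing R]

/-- The grading of the Milnor ring. -/
def gr (R : Type u) [CommRing R] : KM R →+* Polynomial (KM R) :=
  lift (fun a => C (sym a) * X) (fun a b => by rw [sym_mul, map_add, add_mul])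
    (fun a b h => by
      rw [mul_assoc, ← mul_assoc X, Polynomial.X_mul, mul_assoc, ← mul_assoc, ← map_mul,
        sym_mul_sym a b h, map_zero, zero_mul])

theorem gr_sym (a : Rˣ) : gr R (sym a) = C (sym a) * X := lift_sym _ _ _ _

/-- The component of degree `n`. -/
def pr (n : ℕ) : KM R →+ KM R :=
  AddMonoidHom.mk' (fun z => (gr R z).coeff n) fun a b => by rw [map_add, Polynomial.coeff_add]

theorem pr_apply (n : ℕ) (z : KM R) : pr n z = (gr R z).coeff n := rfl

theorem pr_mul (n : ℕ) (a b : KM R) :
    pr n (a * b) = ∑ i ∈ Finset.antidiagonal n, pr i.1 a * pr i.2 b := by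
  rw [pr_apply, map_mul, Polynomial.coeff_mul]
  rfl

theorem pr_sym_mul_succ (n : ℕ) (a : Rˣ) (z : KM R) :
    pr (n + 1) (sym a * z) = sym a * pr n z := by
  rw [pr_apply, map_mul, gr_sym, mul_assoc, Polynomial.coeff_C_mul, Polynomial.coeff_X_mul]
  rfl

theorem pr_sym_mul_zero (a : Rˣ) (z : KM R) : pr 0 (sym a * z) = 0 := by
  rw [pr_apply, map_mul, gr_sym, mul_assoc, Polynomial.coeff_C_mul,
    Polynomial.mul_coeff_zero, Polynomial.coeff_X_zero, zero_mul, mul_zero]

theorem cls_cases (x : R) : cls x = 0 ∨ ∃ a : Rˣ, cls x = sym a := by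
  by_cases h : IsUnit x
  · exact Or.inr ⟨h.unit, cls_of_isUnit h⟩
  · exact Or.inl (dif_neg h)

theorem pr_cls_mul_succ (n : ℕ) (x : R) (z : KM R) :
    pr (n + 1) (cls x * z) = cls x * pr n z := by
  rcases cls_cases x with h | ⟨a, h⟩
  · rw [h, zero_mul, zero_mul, map_zero]
  · rw [h, pr_sym_mul_succ]

theorem pr_cls_mul_zero (x : R) (z : KM R) : pr 0 (cls x * z) = 0 := by
  rcases cls_cases x with h | ⟨a, h⟩
  · rw [h, zero_mul, map_zero]
  · rw [h, pr_sym_mul_zero]

theorem pr_one (n : ℕ) : pr n (1 : KM R) = if n = 0 then 1 else 0 := by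
  rw [pr_apply, map_one, Polynomial.coeff_one]

theorem pr_symb {A : Type u} [CommRing A] (f : A →+* R) (n : ℕ) (l : List A) :
    pr n (symb f l) = if n = l.length then symb f l else 0 := by
  induction l generalizing n with
  | nil => rw [symb_nil, pr_one, List.length_nil]
  | cons a l ih =>
    rw [symb_cons, List.length_cons]
    cases n with
    | zero => rw [pr_cls_mul_zero, if_neg (by omega)]
    | succ n =>
      rw [pr_cls_mul_succ, ih]
      by_cases h : n = l.length
      · rw [if_pos h, if_pos (by omega)]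
      · rw [if_neg h, if_neg (by omega), mul_zero]

/-- Homomorphisms which respect the symbols of degree one respect the grading. -/
theorem pr_hom {S : Type u} [CommRing S] (φ : KM R →+* KM S)
    (h : ∀ a : Rˣ, ∃ b : Sˣ, φ (sym a) = sym b) (n : ℕ) (z : KM R) :
    pr n (φ z) = φ (pr n z) := by
  refine induction (S := Set.univ) (p := fun z => ∀ n, pr n (φ z) = φ (pr n z)) (by simp)
    ?_ ?_ ?_ ?_ z n
  · intro x y hx hy n
    rw [map_add, map_add, map_add, map_add, hx, hy]
  · intro x hx n
    rw [map_neg, map_neg, map_neg, map_neg, hx]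
  · intro n
    rw [map_one, pr_one, pr_one]
    split_ifs
    · rw [map_one]
    · rw [map_zero]
  · intro a _ z hz n
    obtain ⟨b, hb⟩ := h a
    rw [map_mul, hb]
    cases n with
    | zero => rw [pr_sym_mul_zero, pr_sym_mul_zero, map_zero]
    | succ n => rw [pr_sym_mul_succ, pr_sym_mul_succ, map_mul, hb, hz]

/-- The class in degree one is faithful. -/
theorem sym_eq_zero {a : Rˣ} (h : sym a = 0) : a = 1 := by
  let f : Rˣ → AddMonoid.End (ℤ × Additive Rˣ) := fun a =>
    AddMonoidHom.mk' (fun q => (0, q.1 • Additive.ofMul a)) fun p q => by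
      refine Prod.ext ?_ ?_
      · simp
      · change (p.1 + q.1) • Additive.ofMul a = p.1 • Additive.ofMul a + q.1 • Additive.ofMul a
        exact add_zsmul _ _ _
  let φ : KM R →+* AddMonoid.End (ℤ × Additive Rˣ) :=
    lift f (fun a b => by
      refine AddMonoidHom.ext fun q => ?_
      refine Prod.ext ?_ ?_
      · change (0 : ℤ) = 0 + 0
        simp
      · change q.1 • Additive.ofMul (a * b) = q.1 • Additive.ofMul a + q.1 • Additive.ofMul b
        rw [ofMul_mul]
        exact zsmul_add _ _ _)
      (fun a b _ => by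
        refine AddMonoidHom.ext fun q => ?_
        change ((0 : ℤ), (0 : ℤ) • Additive.ofMul a) = 0
        rw [zero_smul]
        rfl)
  have h1 : φ (sym a) = f a := lift_sym _ _ _ _
  rw [h, map_zero] at h1
  have h2 := DFunLike.congr_fun h1 ((1 : ℤ), (0 : Additive Rˣ))
  have h3 : (0 : Additive Rˣ) = (1 : ℤ) • Additive.ofMul a := congrArg Prod.snd h2
  rw [one_smul] at h3
  exact h3.symm

/-- The integers are faithful in degree zero. -/
theorem int_eq_zero {m : ℤ} (h : (m : KM R) = 0) : m = 0 := by
  let φ : KM R →+* ℤ := lift (fun _ => 0) (fun _ _ => by simp) (fun _ _ _ => by simp)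
  have h1 := congrArg φ h
  rw [map_zero, map_intCast] at h1
  exact_mod_cast h1

end grading

section words

variable {A : Type u} [CommRing A] [IsDomain A]

/-- The words of length `n` in the units of `A`. -/
def UW (A : Type u) [CommRing A] [IsDomain A] (n : ℕ) : AddSubgroup (KM (FractionRing A)) :=
  AddSubgroup.closure {z | ∃ l : List A, l.length = n ∧ (∀ a ∈ l, IsUnit a) ∧
    z = symb (algebraMap A (FractionRing A)) l}

theorem UW_mem {l : List A} (hl : ∀ a ∈ l, IsUnit a) :
    symb (algebraMap A (FractionRing A)) l ∈ UW A l.length :=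
  AddSubgroup.subset_closure ⟨l, rfl, hl, rfl⟩

theorem UW_mul {m n : ℕ} {a b : KM (FractionRing A)} (ha : a ∈ UW A m) (hb : b ∈ UW A n) :
    a * b ∈ UW A (m + n) := by
  induction ha using AddSubgroup.closure_induction with
  | mem a ha =>
    obtain ⟨l, rfl, hl, rfl⟩ := ha
    induction hb using AddSubgroup.closure_induction with
    | mem b hb =>
      obtain ⟨l', rfl, hl', rfl⟩ := hb
      rw [← symb_append, ← List.length_append]
      apply UW_mem
      intro a ha
      rcases List.mem_append.mp ha with h | h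
      · exact hl a h
      · exact hl' a h
    | zero => rw [mul_zero]; exact zero_mem _
    | add x y _ _ hx hy => rw [mul_add]; exact add_mem hx hy
    | neg x _ hx => rw [mul_neg]; exact neg_mem hx
  | zero => rw [zero_mul]; exact zero_mem _
  | add x y _ _ hx hy => rw [add_mul]; exact add_mem hx hy
  | neg x _ hx => rw [neg_mul]; exact neg_mem hx

theorem UF_pr {z : KM (FractionRing A)} (hz : z ∈ UF A) (n : ℕ) : pr n z ∈ UW A n := by
  induction hz using Subring.closure_induction generalizing n with
  | mem z hz =>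
    obtain ⟨u, rfl⟩ := hz
    have h1 : c (u : A) = symb (algebraMap A (FractionRing A)) [(u : A)] :=
      (symb_singleton _ _).symm
    rw [h1, pr_symb]
    split_ifs with h
    · rw [h]
      apply UW_mem
      intro a ha
      rw [List.mem_singleton] at ha
      rw [ha]
      exact u.isUnit
    · exact zero_mem _
  | zero => rw [map_zero]; exact zero_mem _
  | one =>
    rw [← symb_nil (algebraMap A (FractionRing A)), pr_symb]
    split_ifs with h
    · rw [h]
      exact UW_mem (by simp)
    · exact zero_mem _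
  | add x y _ _ hx hy => rw [map_add]; exact add_mem (hx n) (hy n)
  | neg x _ hx => rw [map_neg]; exact neg_mem (hx n)
  | mul x y _ _ hx hy =>
    rw [pr_mul]
    refine sum_mem fun i hi => ?_
    rw [← Finset.mem_antidiagonal.mp hi]
    exact UW_mul (hx i.1) (hy i.2)

theorem UW_le_UF (n : ℕ) {z : KM (FractionRing A)} (hz : z ∈ UW A n) : z ∈ UF A := by
  induction hz using AddSubgroup.closure_induction with
  | mem z hz =>
    obtain ⟨l, hn, hl, rfl⟩ := hz
    clear hn
    induction l with
    | nil => exact one_mem _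
    | cons a l ih =>
      rw [symb_cons]
      obtain ⟨u, hu⟩ := hl a List.mem_cons_self
      refine mul_mem ?_ (ih fun b hb => hl b (List.mem_cons_of_mem _ hb))
      rw [← hu]
      exact UF_c u
  | zero => exact zero_mem _
  | add x y _ _ hx hy => exact add_mem hx hy
  | neg x _ hx => exact neg_mem hx

theorem UW_zero {z : KM (FractionRing A)} (hz : z ∈ UW A 0) : ∃ m : ℤ, z = m := by
  induction hz using AddSubgroup.closure_induction with
  | mem z hz =>
    obtain ⟨l, hl, _, rfl⟩ := hz
    rw [List.length_eq_zero_iff] at hl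
    rw [hl]
    exact ⟨1, by rw [symb_nil]; simp⟩
  | zero => exact ⟨0, by simp⟩
  | add x y _ _ hx hy =>
    obtain ⟨m, rfl⟩ := hx
    obtain ⟨n, rfl⟩ := hy
    exact ⟨m + n, by push_cast; rfl⟩
  | neg x _ hx =>
    obtain ⟨m, rfl⟩ := hx
    exact ⟨-m, by push_cast; rfl⟩

theorem c_units_mul (u v : Aˣ) : c ((u * v : Aˣ) : A) = c (u : A) + c (v : A) := by
  rw [Units.val_mul, c_mul u.ne_zero v.ne_zero]

theorem c_units_inv (u : Aˣ) : c ((u⁻¹ : Aˣ) : A) = - c (u : A) := by
  have h := c_units_mul u⁻¹ u
  rw [inv_mul_cancel, Units.val_one, c_one] at h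
  exact eq_neg_of_add_eq_zero_left h.symm

theorem c_units_zpow (u : Aˣ) (m : ℤ) : c ((u ^ m : Aˣ) : A) = m * c (u : A) := by
  induction m with
  | zero => rw [zpow_zero, Units.val_one, c_one]; simp
  | succ n ih => rw [zpow_add_one, c_units_mul, ih]; push_cast; rw [add_mul, one_mul]
  | pred n ih =>
    rw [zpow_sub_one, c_units_mul, c_units_inv, ih]
    push_cast
    rw [sub_mul, one_mul, sub_eq_add_neg]

theorem UW_one {z : KM (FractionRing A)} (hz : z ∈ UW A 1) : ∃ u : Aˣ, z = c (u : A) := by
  induction hz using AddSubgroup.closure_induction with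
  | mem z hz =>
    obtain ⟨l, hl, hu, rfl⟩ := hz
    obtain ⟨a, rfl⟩ := List.length_eq_one_iff.mp hl
    obtain ⟨u, rfl⟩ := hu a (by simp)
    exact ⟨u, symb_singleton _ _⟩
  | zero => exact ⟨1, by rw [Units.val_one, c_one]⟩
  | add x y _ _ hx hy =>
    obtain ⟨u, rfl⟩ := hx
    obtain ⟨v, rfl⟩ := hy
    exact ⟨u * v, (c_units_mul u v).symm⟩
  | neg x _ hx =>
    obtain ⟨u, rfl⟩ := hx
    exact ⟨u⁻¹, (c_units_inv u).symm⟩

end words

end Vale.Agent.P178M
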