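import Vale.Agent.P178.H270.Key

/-!
Elements of the Milnor ring with residues only at `(x)`.
-/

universe u

noncomputable section

namespace Vale.Agent.P178M

open Vale.Agent.P178.Gersten IsLocalRing P178.Surf

section

variable {A : Type u} [CommRing A] [IsDomain A] [IsLocalRing A] {x : A}

/-- The subgroup generated by `Lam x n` and the products `z * c p` with `p` a prime of order
`n`. -/
def WW (x : A) (n : ℕ) : AddSubgroup (KM (FractionRing A)) :=
  AddSubgroup.closure {z | z ∈ Lam x n ∨ ∃ w ∈ Lam x n, ∃ p : A, Prime p ∧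
    p ∈ J x n ∧ p ∉ J x (n + 1) ∧ z = w * c p}

theorem WW_of_Lam {n : ℕ} {z : KM (FractionRing A)} (hz : z ∈ Lam x n) : z ∈ WW x n :=
  AddSubgroup.subset_closure (Or.inl hz)

theorem WW_of_mul {n : ℕ} {w : KM (FractionRing A)} (hw : w ∈ Lam x n) {p : A} (hp : Prime p)
    (h1 : p ∈ J x n) (h2 : p ∉ J x (n + 1)) : w * c p ∈ WW x n :=
  AddSubgroup.subset_closure (Or.inr ⟨w, hw, p, hp, h1, h2, rfl⟩)

theorem WW_mul {n : ℕ} {w z : KM (FractionRing A)} (hw : w ∈ Lam x n) (hz : z ∈ WW x n) :
    w * z ∈ WW x n := by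
  induction hz using AddSubgroup.closure_induction with
  | mem z hz =>
    rcases hz with hz | ⟨v, hv, p, hp, h1, h2, rfl⟩
    · exact WW_of_Lam (mul_mem hw hz)
    · rw [← mul_assoc]
      exact WW_of_mul (mul_mem hw hv) hp h1 h2
  | zero => rw [mul_zero]; exact zero_mem _
  | add x y _ _ hx hy => rw [mul_add]; exact add_mem hx hy
  | neg x _ hx => rw [mul_neg]; exact neg_mem hx

end

section surface

variable {A : Type u} [CommRing A] [IsRegularLocalRing A] [IsDomain A]
  (hdim : ringKrullDim A = 2) {x y : A} (h : maximalIdeal A = Ideal.span {x, y})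

include hdim h in
theorem exists_trick {e : ℕ} (he : e ≠ 0) {p : A} (hp : Prime p) (h1 : p ∈ J x e)
    (h2 : p ∉ J x (e + 1)) : Trick e p x := by
  obtain ⟨hx, hxy, _⟩ := quotient_facts hdim h
  refine ⟨he, hp, h1, mem_left h, hx.ne_zero, ?_, fun a ha => ?_⟩
  · intro h3
    exact h2 (dvd_mem_J _ (hp.associated_of_dvd hx h3).symm.dvd)
  · exact exists_reduction' hp.not_isUnit (fun f hf => exists_quot h h1 h2 hf) (mem_left h) ha

include hdim h in
theorem prod_mem {e : ℕ} (he : e ≠ 0) {p q : A} (hp : Prime p) (hq : Prime q)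
    (p1 : p ∈ J x e) (p2 : p ∉ J x (e + 1)) (q1 : q ∈ J x e) (q2 : q ∉ J x (e + 1)) :
    c p * c q ∈ WW x e := by
  have hp0 := hp.ne_zero
  have hq0 := hq.ne_zero
  have hxm := mem_left h
  have hneg : c (-1 : A) ∈ Lam x e := c_mem (small_unit hxm isUnit_one.neg he)
  by_cases hpq : p ∣ q
  · obtain ⟨u, rfl⟩ := hpq
    have hu : IsUnit u :=
      (hq.irreducible.isUnit_or_isUnit rfl).resolve_left hp.not_isUnit
    have hu0 := hu.ne_zero
    rw [c_mul hp0 hu0, mul_add, c_sq hp0, c_anticomm hp0 hu0]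
    exact add_mem (WW_of_mul hneg hp p1 p2)
      (neg_mem (WW_of_mul (c_mem (small_unit hxm hu he)) hp p1 p2))
  · have T := exists_trick hdim h he hp p1 p2
    obtain ⟨r, f, s, hf, hqf⟩ := T.red q hpq
    have hs : IsUnit s := by
      by_contra hcon
      have hsm := (mem_maximalIdeal s).mpr hcon
      rcases Nat.eq_zero_or_pos r with rfl | hr
      · apply hf
        have h3 : f = q - p * s := by rw [hqf]; ring
        rw [h3]
        exact sub_mem q1 (Ideal.mul_mem_right _ _ p1)
      · apply q2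
        rw [hqf]
        refine add_mem (dvd_mem_J _ ?_) (mul_mem_J p1 hsm)
        exact Dvd.dvd.mul_right (dvd_pow_self x hr.ne') f
    have hf0 := ne_zero_of_notMem hf
    have hX0 : x ^ r * f ≠ 0 := SM_ne_zero (T.mem_SM r hf)
    have hX : c (x ^ r * f) ∈ Lam x e := SM_c (T.mem_SM r hf)
    have hY : c s ∈ Lam x e := c_mem (small_unit hxm hs he)
    have h1 := c_steinberg' hX0 hp0 hs.ne_zero hq0 hqf.symm
    set X := c (x ^ r * f) with hXdef
    set Y := c s with hYdef
    have h2 : c q * Y = - (Y * c q) := c_anticomm hq0 hs.ne_zero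
    have h3 : c p * c q = - (X * c p + (X - c q) * (Y - c q)) := by
      rw [c_anticomm hp0 hq0, neg_inj]
      rw [sub_mul] at h1
      have h4 : c q * c p = X * c p - (-((X - c q) * (Y - c q))) := by
        rw [← h1]; abel
      rw [h4, sub_neg_eq_add]
    have h5 : (X - c q) * (Y - c q) = X * Y - X * c q + Y * c q + c (-1) * c q := by
      rw [sub_mul, mul_sub, mul_sub, h2, c_sq hq0]
      abel
    rw [h3, h5]
    refine neg_mem (add_mem (WW_of_mul hX hp p1 p2) (add_mem (add_mem (sub_mem ?_ ?_) ?_) ?_))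
    · exact WW_of_Lam (mul_mem hX hY)
    · exact WW_of_mul hX hq q1 q2
    · exact WW_of_mul hY hq q1 q2
    · exact WW_of_mul hneg hq q1 q2

include hdim h in
theorem Lam_le_WW {e : ℕ} (he : e ≠ 0) {z : KM (FractionRing A)}
    (hz : z ∈ Lam x (e + 1)) : z ∈ WW x e := by
  have hu := isUFD hdim
  obtain ⟨hx, hxy, _⟩ := quotient_facts hdim h
  have hxm := mem_left h
  have hprime : ∀ p : A, Prime p → p ∉ J x (e + 1) → ∀ w ∈ WW x e,
      c p * w ∈ WW x e := by
    intro p hp p2 w hw
    by_cases p1 : p ∈ J x e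
    · induction hw using AddSubgroup.closure_induction with
      | mem w hw =>
        rcases hw with hw | ⟨v, hv, q, hq, q1, q2, rfl⟩
        · obtain ⟨w', hw', _, h1⟩ := Lam_comm hp.ne_zero hw
          rw [h1]
          exact WW_of_mul hw' hp p1 p2
        · obtain ⟨v', hv', _, h1⟩ := Lam_comm hp.ne_zero hv
          rw [← mul_assoc, h1, mul_assoc]
          exact WW_mul hv' (prod_mem hdim h he hp hq p1 p2 q1 q2)
      | zero => rw [mul_zero]; exact zero_mem _
      | add x y _ _ hx hy => rw [mul_add]; exact add_mem hx hy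
      | neg x _ hx => rw [mul_neg]; exact neg_mem hx
    · exact WW_mul (c_mem (small_of p1)) hw
  have hall : ∀ a : A, a ∉ J x (e + 1) → ∀ w ∈ WW x e, c a * w ∈ WW x e := by
    intro a
    refine UniqueFactorizationMonoid.induction_on_prime a ?_ ?_ ?_
    · intro h; exact absurd (Ideal.zero_mem _) h
    · intro v hv _ w hw
      exact WW_mul (c_mem (small_unit hxm hv he)) hw
    · intro b p hb0 hp ihb hpb w hw
      have h1 : p ∉ J x (e + 1) := fun h => hpb (Ideal.mul_mem_right _ _ h)
      have h2 : b ∉ J x (e + 1) := fun h => hpb (Ideal.mul_mem_left _ _ h)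
      rw [c_mul hp.ne_zero hb0, add_mul]
      exact add_mem (hprime p hp h1 w hw) (ihb h2 w hw)
  have hmul : ∀ z ∈ Lam x (e + 1), ∀ w ∈ WW x e, z * w ∈ WW x e := by
    intro z hz
    induction hz using Subring.closure_induction with
    | mem z hz =>
      obtain ⟨a, ⟨ha0, ha | ha⟩, rfl⟩ := hz
      · exact hall a ha
      · intro w hw
        exact WW_mul (c_mem ⟨ha0, Or.inr ha⟩) hw
    | zero => intro w _; rw [zero_mul]; exact zero_mem _
    | one => intro w hw; rwa [one_mul]
    | add x y _ _ hx hy => intro w hw; rw [add_mul]; exact add_mem (hx w hw) (hy w hw)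
    | neg x _ hx => intro w hw; rw [neg_mul]; exact neg_mem (hx w hw)
    | mul x y _ _ hx hy => intro w hw; rw [mul_assoc]; exact hx _ (hy w hw)
  have := hmul z hz 1 (WW_of_Lam (one_mem _))
  rwa [mul_one] at this

variable {g : Pt A 1 → A} (hg : ∀ P, Prime (g P)) (hgP : ∀ P, P.P.asIdeal = Ideal.span {g P})

include hgP in
omit [IsRegularLocalRing A] in
theorem WW_nf [IsNoetherianRing A] [IsLocalRing A] (hxm : x ∈ maximalIdeal A) {n : ℕ}
    (hn : n ≠ 0) {z : KM (FractionRing A)} (hz : z ∈ WW x n) :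
    ∃ w ∈ Lam x n, ∃ f : Pt A 1 →₀ KM (FractionRing A), (∀ P, f P ∈ Lam x n) ∧
      (∀ P, f P ≠ 0 → g P ∈ J x n ∧ g P ∉ J x (n + 1)) ∧
      z = w + f.sum (fun P v => v * c (g P)) := by
  classical
  induction hz using AddSubgroup.closure_induction with
  | mem z hz =>
    rcases hz with hz | ⟨v, hv, p, hp, p1, p2, rfl⟩
    · exact ⟨z, hz, 0, fun P => zero_mem _, fun P h => absurd rfl h, by simp⟩
    · have hht : (Ideal.span {p}).height = 1 :=
        Ideal.height_span_singleton_eq_one_of_mem_nonZeroDivisors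
          (mem_nonZeroDivisors_of_ne_zero hp.ne_zero) hp.not_isUnit
      set P : Pt A 1 := ⟨⟨Ideal.span {p}, (Ideal.span_singleton_prime hp.ne_zero).mpr hp⟩, hht⟩
        with hPdef
      have hass : Associated (g P) p := by
        rw [← Ideal.span_singleton_eq_span_singleton, ← hgP P]
      obtain ⟨u, hu⟩ := hass
      have hgP0 : g P ≠ 0 := by
        intro h0
        rw [h0, zero_mul] at hu
        exact hp.ne_zero hu.symm
      have hmem : ∀ I : Ideal A, g P ∈ I ↔ p ∈ I := by
        intro m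
        constructor
        · intro h; rw [← hu]; exact Ideal.mul_mem_right _ _ h
        · intro h
          have h1 : g P = p * ((u⁻¹ : Aˣ) : A) := by
            rw [← hu, mul_assoc, Units.mul_inv, mul_one]
          rw [h1]; exact Ideal.mul_mem_right _ _ h
      refine ⟨v * c (u : A), mul_mem hv (c_mem (small_unit hxm u.isUnit hn)),
        Finsupp.single P v, ?_, ?_, ?_⟩
      · intro P'
        rw [Finsupp.single_apply]
        split_ifs
        · exact hv
        · exact zero_mem _
      · intro P' hP'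
        have : P = P' := by
          by_contra hne
          rw [Finsupp.single_eq_of_ne (Ne.symm hne)] at hP'
          exact hP' rfl
        rw [← this, hmem, hmem]
        exact ⟨p1, p2⟩
      · rw [Finsupp.sum_single_index (zero_mul _)]
        have h1 : c p = c (g P) + c (u : A) := by
          rw [← c_mul hgP0 u.ne_zero, hu]
        rw [h1, mul_add, add_comm]
  | zero => exact ⟨0, zero_mem _, 0, fun P => zero_mem _, fun P h => absurd rfl h, by simp⟩
  | add x y _ _ hx hy =>
    obtain ⟨w, hw, f, hf, hf', hx'⟩ := hx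
    obtain ⟨w', hw', k, hk, hk', hy'⟩ := hy
    refine ⟨w + w', add_mem hw hw', f + k, fun P => add_mem (hf P) (hk P), ?_, ?_⟩
    · intro P hP
      by_cases h1 : f P = 0
      · refine hk' P fun h2 => hP ?_
        rw [Finsupp.add_apply, h1, h2, add_zero]
      · exact hf' P h1
    · rw [Finsupp.sum_add_index' (fun _ => zero_mul _) (fun _ _ _ => add_mul _ _ _), hx', hy']
      abel
  | neg x _ hx =>
    obtain ⟨w, hw, f, hf, hf', hx'⟩ := hx
    refine ⟨-w, neg_mem hw, -f, fun P => neg_mem (hf P), ?_, ?_⟩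
    · intro P hP
      exact hf' P fun h1 => hP (by rw [Finsupp.neg_apply, h1, neg_zero])
    · rw [Finsupp.sum_neg_index (fun _ => zero_mul _), hx']
      have : (f.sum fun P v => -v * c (g P)) = - f.sum (fun P v => v * c (g P)) := by
        rw [Finsupp.sum, Finsupp.sum, ← Finset.sum_neg_distrib]
        exact Finset.sum_congr rfl fun P _ => neg_mul _ _
      rw [this, neg_add]

include hdim h hg hgP in
/-- The descent step. -/
theorem descend {e : ℕ} (he : e ≠ 0) {z : KM (FractionRing A)}
    (hz : z ∈ Lam x (e + 1))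
    (hres : ∀ P, ¬ x ∣ g P → rsd (hg P) (kappa_iff (hgP P)) z = 0) :
    z ∈ Lam x e := by
  obtain ⟨hx, hxy, _⟩ := quotient_facts hdim h
  obtain ⟨w, hw, f, hf, hf', rfl⟩ := WW_nf hgP (mem_left h) he (Lam_le_WW hdim h he hz)
  have hne : ∀ P P' : Pt A 1, P' ≠ P → toKappa P.P (g P') ≠ 0 := by
    intro P P' hne h
    exact hne (eq_of_mem (hg P') (hgP P') ((toKappa_eq_zero_iff P.P _).mp h))
  have key : ∀ P, f P ≠ 0 → f P * c (g P) ∈ Lam x e := by
    intro P hP
    obtain ⟨g1, g2⟩ := hf' P hP
    have T := exists_trick hdim h he (hg P) g1 g2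
    apply key_fact T (hgP P) (hf P)
    have h1 := hres P fun h3 => g2 (dvd_mem_J _ h3)
    rw [map_add] at h1
    have h2 : rsd (hg P) (kappa_iff (hgP P)) w = 0 := by
      have := rsd_Lam (hg P) (kappa_iff (hgP P)) g1 T.ndx hw 1
      rw [mul_one, rsd_one, mul_zero] at this
      exact this
    rw [h2, zero_add, Finsupp.sum, map_sum, Finset.sum_eq_single P] at h1
    · rw [rsd_Lam (hg P) (kappa_iff (hgP P)) g1 T.ndx (hf P)] at h1
      have h3 : rsd (hg P) (kappa_iff (hgP P)) (c (g P)) = 1 := by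
        have := rsd_gen (hg P) (kappa_iff (hgP P)) (Associated.refl _) 1 (rsd_one _ _)
        rw [mul_one, map_one] at this
        exact this
      rw [h3, mul_one] at h1
      have h4 := congrArg (sgn (kappa P.P)) h1
      rwa [sgn_sgn, map_zero] at h4
    · intro P' _ hPP'
      rw [rsd_Lam (hg P) (kappa_iff (hgP P)) g1 T.ndx (hf P')]
      have h3 : rsd (hg P) (kappa_iff (hgP P)) (c (g P')) = 0 := by
        have := rsd_unit (hg P) (kappa_iff (hgP P)) (hne P P' hPP') 1
        rw [mul_one, rsd_one, mul_zero, neg_zero] at this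
        exact this
      rw [h3, mul_zero]
    · intro h3
      exact absurd (Finsupp.notMem_support_iff.mp h3) hP
  refine add_mem hw (sum_mem fun P hP => ?_)
  exact key P (Finsupp.mem_support_iff.mp hP)

include hdim h hg hgP in
/-- An element with residues only at `(x)` is a sum of symbols whose entries are units and `x`. -/
theorem mem_Lam_one {z : KM (FractionRing A)}
    (hres : ∀ P, ¬ x ∣ g P → rsd (hg P) (kappa_iff (hgP P)) z = 0) :
    z ∈ Lam x 1 := by
  obtain ⟨hx, hxy, _⟩ := quotient_facts hdim h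
  have h1 : ∃ N, z ∈ Lam x N := by
    refine induction (p := fun z => ∃ N, z ∈ Lam x N) closure_fu ?_ ?_ ?_ ?_ z
    · rintro x y ⟨N, hx⟩ ⟨M, hy⟩
      exact ⟨max N M, add_mem (Lam_mono (le_max_left _ _) hx) (Lam_mono (le_max_right _ _) hy)⟩
    · rintro x ⟨N, hx⟩
      exact ⟨N, neg_mem hx⟩
    · exact ⟨0, one_mem _⟩
    · rintro _ ⟨a, ha0, rfl⟩ z ⟨N, hz⟩
      obtain ⟨r, b, hb, rfl⟩ := WfDvdMonoid.max_power_factor ha0 hx.irreducible
      obtain ⟨M, hM⟩ := exists_J_order hx.not_isUnit hb
      have hb0 : b ≠ 0 := fun h0 => hb (h0 ▸ dvd_zero x)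
      refine ⟨max N M, mul_mem ?_ (Lam_mono (le_max_left _ _) hz)⟩
      rw [← cls_algebraMap ha0]
      refine Lam_mono (le_max_right _ _) ?_
      change c (x ^ r * b) ∈ Lam x M
      rw [c_mul (pow_ne_zero r hx.ne_zero) hb0, c_pow hx.ne_zero]
      exact add_mem (mul_mem (natCast_mem _ r) (c_mem ⟨hx.ne_zero, Or.inr rfl⟩))
        (c_mem (small_of hM))
  obtain ⟨N, hN⟩ := h1
  have h2 : ∀ N, z ∈ Lam x (N + 1) → z ∈ Lam x 1 := by
    intro N
    induction N with
    | zero => exact id
    | succ N ih =>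
      intro h3
      exact ih (descend hdim h hg hgP (Nat.succ_ne_zero N) h3 hres)
  exact h2 N (Lam_mono (Nat.le_succ N) hN)

end surface

end Vale.Agent.P178M
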