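import Vale.Agent.P178.H270.Main

/-!
The filtration of the Milnor ring of the fraction field of a two-dimensional regular local ring
by the order of the entries of the symbols along a regular parameter `x`.
-/

universe u

noncomputable section

namespace Vale.Agent.P178M

open Vale.Agent.P178.Gersten IsLocalRing P178.Surf

section basic

variable {A : Type u} [CommRing A] [IsDomain A]

/-- The class of an element of `A` in the Milnor ring of the fraction field. -/
def c (a : A) : KM (FractionRing A) := cls (algebraMap A (FractionRing A) a)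

theorem c_mul {a b : A} (ha : a ≠ 0) (hb : b ≠ 0) : c (a * b) = c a + c b := cls_mulF ha hb

theorem c_one : c (1 : A) = 0 := by
  have h := c_mul (one_ne_zero (α := A)) (one_ne_zero (α := A))
  rw [mul_one] at h
  exact left_eq_add.mp h

theorem c_pow {a : A} (ha : a ≠ 0) (n : ℕ) : c (a ^ n) = n * c a := by
  induction n with
  | zero => rw [pow_zero, c_one]; simp
  | succ n ih =>
    rw [pow_succ, c_mul (pow_ne_zero n ha) ha, ih]
    push_cast
    rw [add_mul, one_mul]

theorem c_anticomm {a b : A} (ha : a ≠ 0) (hb : b ≠ 0) : c a * c b = - (c b * c a) := by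
  unfold c
  rw [cls_algebraMap ha, cls_algebraMap hb, sym_anticomm fraction_unit]

theorem c_sq {a : A} (ha : a ≠ 0) : c a * c a = c (-1) * c a := by
  unfold c
  have h1 : cls (algebraMap A (FractionRing A) (-1)) = sym (-1) := by
    rw [← cls_unit]; congr 1; simp
  rw [h1, cls_algebraMap ha, sym_sq fraction_unit]

/-- The Steinberg relation for `f + g = h`. -/
theorem c_steinberg {f g h : A} (hf : f ≠ 0) (hg : g ≠ 0) (hh : h ≠ 0) (e : f + g = h) :
    (c f - c h) * (c g - c h) = 0 := by
  unfold c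
  rw [cls_algebraMap hf, cls_algebraMap hg, cls_algebraMap hh, sub_eq_add_neg,
    sub_eq_add_neg, ← sym_inv, ← sym_mul, ← sym_mul]
  apply sym_mul_sym
  apply (fu hh).isUnit.mul_right_cancel
  rw [add_mul, ← Units.val_mul, ← Units.val_mul, inv_mul_cancel_right, inv_mul_cancel_right,
    fu_val, fu_val, fu_val, one_mul, ← map_add, e]

/-- The form of the Steinberg relation which is used: `f + p * s = h`. -/
theorem c_steinberg' {f p s h : A} (hf : f ≠ 0) (hp : p ≠ 0) (hs : s ≠ 0) (hh : h ≠ 0)
    (e : f + p * s = h) : (c f - c h) * c p = - ((c f - c h) * (c s - c h)) := by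
  have h1 := c_steinberg hf (mul_ne_zero hp hs) hh e
  rw [c_mul hp hs, add_sub_assoc, mul_add] at h1
  exact eq_neg_of_add_eq_zero_left h1

end basic

section loc

variable {A : Type u} [CommRing A] [IsDomain A] [IsLocalRing A] {x : A}

/-- The elements of order less than `e` along `x`, and `x`. -/
def Small (x : A) (e : ℕ) (a : A) : Prop := a ≠ 0 ∧ (a ∉ J x e ∨ a = x)

/-- The subring generated by the small elements. -/
def Lam (x : A) (e : ℕ) : Subring (KM (FractionRing A)) :=
  Subring.closure {z | ∃ a : A, Small x e a ∧ z = c a}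

theorem c_mem {e : ℕ} {a : A} (ha : Small x e a) : c a ∈ Lam x e :=
  Subring.subset_closure ⟨a, ha, rfl⟩

theorem ne_zero_of_notMem {I : Ideal A} {a : A} (ha : a ∉ I) : a ≠ 0 := by
  rintro rfl
  exact ha I.zero_mem

theorem small_of {e : ℕ} {a : A} (ha : a ∉ J x e) : Small x e a :=
  ⟨ne_zero_of_notMem ha, Or.inl ha⟩

theorem small_unit {e : ℕ} {a : A} (hx : x ∈ maximalIdeal A) (ha : IsUnit a) (he : e ≠ 0) :
    Small x e a := small_of (unit_notMem_J hx he ha)

theorem Lam_mono {e e' : ℕ} (h : e ≤ e') : Lam x e ≤ Lam x e' := by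
  apply Subring.closure_mono
  rintro z ⟨a, ⟨ha0, ha⟩, rfl⟩
  exact ⟨a, ⟨ha0, ha.imp_left fun h1 h' => h1 (J_anti h h')⟩, rfl⟩

theorem Lam_comm {e : ℕ} {p : A} (hp : p ≠ 0) {z : KM (FractionRing A)} (hz : z ∈ Lam x e) :
    ∃ z' ∈ Lam x e, z * c p = c p * z' ∧ c p * z = z' * c p := by
  induction hz using Subring.closure_induction with
  | mem z hz =>
    obtain ⟨a, ha, rfl⟩ := hz
    refine ⟨- c a, neg_mem (c_mem ha), ?_, ?_⟩
    · rw [c_anticomm ha.1 hp, mul_neg]
    · rw [c_anticomm hp ha.1, neg_mul]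
  | zero => exact ⟨0, zero_mem _, by simp, by simp⟩
  | one => exact ⟨1, one_mem _, by simp, by simp⟩
  | add x y _ _ hx hy =>
    obtain ⟨x', hx', h1, h2⟩ := hx
    obtain ⟨y', hy', h3, h4⟩ := hy
    exact ⟨x' + y', add_mem hx' hy', by rw [add_mul, mul_add, h1, h3],
      by rw [add_mul, mul_add, h2, h4]⟩
  | neg x _ hx =>
    obtain ⟨x', hx', h1, h2⟩ := hx
    exact ⟨-x', neg_mem hx', by rw [neg_mul, mul_neg, h1], by rw [neg_mul, mul_neg, h2]⟩
  | mul x y _ _ hx hy =>
    obtain ⟨x', hx', h1, h2⟩ := hx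
    obtain ⟨y', hy', h3, h4⟩ := hy
    exact ⟨x' * y', mul_mem hx' hy', by rw [mul_assoc, h3, ← mul_assoc, h1, mul_assoc],
      by rw [← mul_assoc, h2, mul_assoc, h4, mul_assoc]⟩

end loc

section prime

variable {A : Type u} [CommRing A] [IsDomain A] [IsLocalRing A] [IsNoetherianRing A]
  {e : ℕ} {p x : A}

/-- Changing a small element by a multiple of `p`. -/
theorem change_small (hx : x ∈ maximalIdeal A) (he : e ≠ 0) (hp : p ∈ J x e) (hp0 : p ≠ 0)
    {f : A} (hf : f ∉ J x e) (s : A) :
    f + p * s ∉ J x e ∧ (c (f + p * s) - c f) * c p ∈ Lam x e := by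
  have hnot : ∀ {f : A} (s : A), f ∉ J x e → f + p * s ∉ J x e := by
    intro f s hf h
    apply hf
    have := sub_mem h (Ideal.mul_mem_right s _ hp)
    rwa [add_sub_cancel_right] at this
  have key : ∀ {f : A} (s : A), f ∉ J x e → s ∉ J x e →
      (c (f + p * s) - c f) * c p ∈ Lam x e := by
    intro f s hf hs
    have h1 := hnot s hf
    have h2 := c_steinberg' (ne_zero_of_notMem hf) hp0 (ne_zero_of_notMem hs)
      (ne_zero_of_notMem h1) rfl
    have h3 : (c (f + p * s) - c f) * c p = (c f - c (f + p * s)) * (c s - c (f + p * s)) := by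
      rw [← neg_sub (c f), neg_mul, h2, neg_neg]
    rw [h3]
    exact mul_mem (sub_mem (c_mem (small_of hf)) (c_mem (small_of h1)))
      (sub_mem (c_mem (small_of hs)) (c_mem (small_of h1)))
  refine ⟨hnot s hf, ?_⟩
  by_cases hs : s ∈ J x e
  · have h1 := hnot 1 hf
    have hs1 : IsUnit (s - 1) := by
      by_contra hcon
      have h2 := sub_mem (J_le hx he hs) ((mem_maximalIdeal _).mpr hcon)
      rw [sub_sub_cancel] at h2
      exact (mem_maximalIdeal _).mp h2 isUnit_one
    have h2 := key (s - 1) h1 (unit_notMem_J hx he hs1)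
    have h3 := key 1 hf (unit_notMem_J hx he isUnit_one)
    have h4 : f + p * 1 + p * (s - 1) = f + p * s := by ring
    rw [h4] at h2
    have h5 := add_mem h2 h3
    rwa [← add_mul, sub_add_sub_cancel] at h5
  · exact key s hf hs

/-- The products of small elements. -/
def SM (x : A) (e : ℕ) : Submonoid A :=
  Submonoid.closure {a | Small x e a}

omit [IsNoetherianRing A] in
theorem SM_ne_zero {a : A} (ha : a ∈ SM x e) : a ≠ 0 := by
  induction ha using Submonoid.closure_induction with
  | mem a ha => exact ha.1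
  | one => exact one_ne_zero
  | mul a b _ _ ha hb => exact mul_ne_zero ha hb

omit [IsNoetherianRing A] in
theorem SM_c {a : A} (ha : a ∈ SM x e) : c a ∈ Lam x e := by
  induction ha using Submonoid.closure_induction with
  | mem a ha => exact c_mem ha
  | one => rw [c_one]; exact zero_mem _
  | mul a b ha' hb' ha hb =>
    rw [c_mul (SM_ne_zero ha') (SM_ne_zero hb')]; exact add_mem ha hb

omit [IsNoetherianRing A] in
theorem small_mem {a : A} (ha : a ∉ J x e) : a ∈ SM x e :=
  Submonoid.subset_closure (small_of ha)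

/-- The data of a prime of order `e` with the order trick. -/
structure Trick (e : ℕ) (p x : A) : Prop where
  he : e ≠ 0
  prime : Prime p
  mem : p ∈ J x e
  xm : x ∈ maximalIdeal A
  x_ne_zero : x ≠ 0
  ndx : ¬ p ∣ x
  red : ∀ a, ¬ p ∣ a → ∃ (r : ℕ) (f b : A), f ∉ J x e ∧ a = x ^ r * f + p * b

omit [IsNoetherianRing A] in
theorem Trick.not_dvd (T : Trick e p x) {f : A} (hf : f ∉ J x e) : ¬ p ∣ f := by
  rintro ⟨s, rfl⟩
  exact hf (Ideal.mul_mem_right _ _ T.mem)

omit [IsNoetherianRing A] in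
theorem Trick.xSM (T : Trick e p x) : x ∈ SM x e :=
  Submonoid.subset_closure ⟨T.x_ne_zero, Or.inr rfl⟩

omit [IsNoetherianRing A] in
theorem Trick.mem_SM (T : Trick e p x) (r : ℕ) {f : A} (hf : f ∉ J x e) :
    x ^ r * f ∈ SM x e :=
  mul_mem (pow_mem T.xSM r) (small_mem hf)

theorem Trick.mul_red (T : Trick e p x) {f f' f'' h : A} {t : ℕ}
    (hf : f ∉ J x e) (hf' : f' ∉ J x e)
    (hf'' : f'' ∉ J x e) (hh : f * f' = x ^ t * f'' + p * h) :
    (c (f * f') - c (x ^ t * f'')) * c p ∈ Lam x e := by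
  have key : ∀ {f h : A}, f ∉ J x e → h ∉ J x e →
      f * f' = x ^ t * f'' + p * h → (c (f * f') - c (x ^ t * f'')) * c p ∈ Lam x e := by
    intro f h hf hh0 hh
    have n1 := SM_ne_zero (T.mem_SM t hf'')
    have n2 : f * f' ∈ SM x e := mul_mem (small_mem hf) (small_mem hf')
    have h1 := c_steinberg' n1 T.prime.ne_zero (ne_zero_of_notMem hh0) (SM_ne_zero n2) hh.symm
    rw [← neg_sub, neg_mul, h1, neg_neg]
    exact mul_mem (sub_mem (SM_c (T.mem_SM t hf'')) (SM_c n2))
      (sub_mem (c_mem (small_of hh0)) (SM_c n2))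
  by_cases hh0 : h ∈ J x e
  · obtain ⟨h1, h2⟩ := change_small T.xm T.he T.mem T.prime.ne_zero hf 1
    have h3 : h + f' ∉ J x e := by
      intro h4
      have := sub_mem h4 hh0
      rw [add_sub_cancel_left] at this
      exact hf' this
    have h4 := key h1 h3 (by rw [mul_one, add_mul, hh]; ring)
    have e1 := c_mul (ne_zero_of_notMem h1) (ne_zero_of_notMem hf')
    have e2 := c_mul (ne_zero_of_notMem hf) (ne_zero_of_notMem hf')
    rw [e1] at h4
    rw [e2]
    have h5 := sub_mem h4 h2
    rw [← sub_mul] at h5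
    convert h5 using 2
    abel
  · exact key hf hh0 hh

/-- Every product of small elements is equivalent to some `x ^ t * f`. -/
theorem Trick.SM_red (T : Trick e p x) {a : A} (ha : a ∈ SM x e) :
    ∃ (t : ℕ) (f : A), f ∉ J x e ∧ p ∣ a - x ^ t * f ∧
      (c a - c (x ^ t * f)) * c p ∈ Lam x e := by
  have h1J : (1 : A) ∉ J x e := unit_notMem_J T.xm T.he isUnit_one
  induction ha using Submonoid.closure_induction with
  | mem a ha =>
    obtain ⟨ha0, ha | ha⟩ := ha
    · exact ⟨0, a, ha, by simp, by simp⟩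
    · exact ⟨1, 1, h1J, by simp [ha], by simp [ha]⟩
  | one => exact ⟨0, 1, h1J, by simp, by simp⟩
  | mul a b ha' hb' ha hb =>
    obtain ⟨t, f, hf, h1, h2⟩ := ha
    obtain ⟨t', f', hf', h1', h2'⟩ := hb
    have hnd : ¬ p ∣ f * f' := fun h =>
      (T.prime.dvd_or_dvd h).elim (T.not_dvd hf) (T.not_dvd hf')
    obtain ⟨s, f'', h, hf'', hh⟩ := T.red _ hnd
    have h3 := T.mul_red hf hf' hf'' hh
    refine ⟨t + t' + s, f'', hf'', ?_, ?_⟩
    · obtain ⟨u, hu⟩ := h1
      obtain ⟨v, hv⟩ := h1'
      refine ⟨u * b + x ^ t * f * v + x ^ t * x ^ t' * h, ?_⟩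
      linear_combination b * hu + x ^ t * f * hv + x ^ t * x ^ t' * hh
    · have n1 := SM_ne_zero ha'
      have n2 := SM_ne_zero hb'
      have nx := T.x_ne_zero
      have nf := ne_zero_of_notMem hf
      have nf' := ne_zero_of_notMem hf'
      have nf'' := ne_zero_of_notMem hf''
      rw [c_mul n1 n2, c_mul (pow_ne_zero _ nx) nf'', c_pow nx]
      rw [c_mul (pow_ne_zero _ nx) nf, c_pow nx] at h2
      rw [c_mul (pow_ne_zero _ nx) nf', c_pow nx] at h2'
      rw [c_mul nf nf', c_mul (pow_ne_zero _ nx) nf'', c_pow nx] at h3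
      have h4 := add_mem (add_mem h2 h2') h3
      rw [← add_mul, ← add_mul] at h4
      convert h4 using 2
      push_cast
      rw [add_mul, add_mul]
      abel

theorem Trick.pow_red (T : Trick e p x) {f f' : A} {t t' : ℕ}
    (hf : f ∉ J x e) (hf' : f' ∉ J x e)
    (h : p ∣ x ^ t * f - x ^ t' * f') :
    (c (x ^ t * f) - c (x ^ t' * f')) * c p ∈ Lam x e := by
  have nx := T.x_ne_zero
  have key : ∀ {f f' : A} (k t' : ℕ), f ∉ J x e → f' ∉ J x e →
      p ∣ x ^ (t' + k) * f - x ^ t' * f' →
      (c (x ^ (t' + k) * f) - c (x ^ t' * f')) * c p ∈ Lam x e := by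
    intro f f' k t' hf hf' h
    have h1 : x ^ (t' + k) * f - x ^ t' * f' = x ^ t' * (x ^ k * f - f') := by ring
    rw [h1] at h
    have h2 : p ∣ x ^ k * f - f' := by
      rcases T.prime.dvd_or_dvd h with h2 | h2
      · exact absurd (T.prime.dvd_of_dvd_pow h2) T.ndx
      · exact h2
    obtain ⟨s, hs⟩ := h2
    have h3 := (change_small T.xm T.he T.mem T.prime.ne_zero hf' s).2
    have h4 : f' + p * s = x ^ k * f := by rw [← hs]; ring
    rw [h4] at h3
    have nf := ne_zero_of_notMem hf
    have nf' := ne_zero_of_notMem hf'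
    rw [c_mul (pow_ne_zero _ nx) nf, c_pow nx] at h3 ⊢
    rw [c_mul (pow_ne_zero _ nx) nf', c_pow nx]
    convert h3 using 2
    push_cast
    rw [add_mul]
    abel
  rcases le_total t' t with htt | htt
  · obtain ⟨k, rfl⟩ := Nat.exists_eq_add_of_le htt
    exact key k t' hf hf' h
  · obtain ⟨k, rfl⟩ := Nat.exists_eq_add_of_le htt
    have h1 := key k t hf' hf (by rw [← neg_sub]; exact (dvd_neg).mpr h)
    have h2 := neg_mem h1
    rwa [← neg_mul, neg_sub] at h2

/-- Congruent products of small elements are equivalent. -/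
theorem Trick.congr (T : Trick e p x) {a b : A} (ha : a ∈ SM x e) (hb : b ∈ SM x e)
    (h : p ∣ a - b) : (c a - c b) * c p ∈ Lam x e := by
  obtain ⟨t, f, hf, h1, h2⟩ := T.SM_red ha
  obtain ⟨t', f', hf', h1', h2'⟩ := T.SM_red hb
  have h3 : p ∣ x ^ t * f - x ^ t' * f' := by
    have := dvd_sub (dvd_add h h1') h1
    convert this using 1
    ring
  have h4 := T.pow_red hf hf' h3
  have h5 := sub_mem (add_mem h2 h4) h2'
  rw [← add_mul, ← sub_mul] at h5
  convert h5 using 2
  abel

/-- The ideal of the elements which multiply the class of `p` into the subring. -/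
def JJ (T : Trick e p x) : Ideal (Lam x e) where
  carrier := {z | (z : KM (FractionRing A)) * c p ∈ Lam x e}
  add_mem' := by
    intro a b ha hb
    change ((a + b : Lam x e) : KM (FractionRing A)) * c p ∈ Lam x e
    rw [Subring.coe_add, add_mul]
    exact add_mem ha hb
  zero_mem' := by
    change ((0 : Lam x e) : KM (FractionRing A)) * c p ∈ Lam x e
    rw [Subring.coe_zero, zero_mul]
    exact zero_mem _
  smul_mem' := by
    intro a b hb
    change ((a * b : Lam x e) : KM (FractionRing A)) * c p ∈ Lam x e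
    rw [Subring.coe_mul, mul_assoc]
    exact mul_mem a.2 hb

theorem mem_JJ (T : Trick e p x) (z : Lam x e) :
    z ∈ JJ T ↔ (z : KM (FractionRing A)) * c p ∈ Lam x e := Iff.rfl

instance instTwoSided (T : Trick e p x) : (JJ T).IsTwoSided := ⟨by
  intro a b ha
  rw [mem_JJ] at ha ⊢
  obtain ⟨z', hz', h1, _⟩ := Lam_comm T.prime.ne_zero b.2
  rw [Subring.coe_mul, mul_assoc, h1, ← mul_assoc]
  exact mul_mem ha hz'⟩

end prime

end Vale.Agent.P178M
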