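import Vale.Agent.P178.H270.Recip

/-!
Exactness of the Milnor part of the Gersten complex of a two-dimensional regular local ring at
its last two terms.
-/

universe u

noncomputable section

namespace Vale.Agent.P178M

open Vale.Agent.P178.Gersten IsLocalRing P178.Surf
open scoped DirectSum

section

variable {A : Type u} [CommRing A] [IsRegularLocalRing A] [IsDomain A]
  (hdim : ringKrullDim A = 2)
  {d : (P : Pt A 1) → KM (FractionRing A) →+ KM (kappa P.P)}
  (hd : ∀ P : Pt A 1, IsResidue P.P (d P))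

/-- The homomorphism from the Milnor ring of the residue field to the cokernel. -/
def phi (q : Quo d) : KM (ResidueField A) →+ Quo d :=
  AddMonoidHom.mk' (fun z => phiEnd hdim hd z q) (fun a b => by rw [map_add]; rfl)

theorem phi_apply (q : Quo d) (z : KM (ResidueField A)) :
    phi hdim hd q z = phiEnd hdim hd z q := rfl

theorem phi_surjective {x₀ y₀ : A}
    (h₀ : maximalIdeal A = Ideal.span {x₀, y₀}) (hx₀ : Prime x₀) :
    Function.Surjective
      (phi hdim hd (cl d (inj (pt hx₀) (cls (toKappa (pt hx₀).P y₀))))) := by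
  intro q
  have hq : q ∈ gen hdim hd (cl d (inj (pt hx₀) (cls (toKappa (pt hx₀).P y₀)))) := by
    rw [gen_eq_top hdim hd h₀ hx₀]; trivial
  induction hq using AddSubgroup.closure_induction with
  | mem z hz =>
    obtain ⟨l, rfl⟩ := hz
    induction l with
    | nil =>
      refine ⟨1, ?_⟩
      rw [phi_apply, map_one]; rfl
    | cons v l ih =>
      obtain ⟨z, hz⟩ := ih
      have hv : IsUnit (residue A (v : A)) := v.isUnit.map _
      refine ⟨sym hv.unit * z, ?_⟩
      rw [phi_apply] at hz ⊢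
      rw [map_mul]
      change phiEnd hdim hd (sym hv.unit) (phiEnd hdim hd z _) = _
      rw [hz, phiEnd_sym hdim hd hv.unit v hv.unit_spec.symm, wd_cons]
  | zero => exact ⟨0, map_zero _⟩
  | add a b _ _ ha hb =>
    obtain ⟨z, hz⟩ := ha
    obtain ⟨w, hw⟩ := hb
    exact ⟨z + w, by rw [map_add, hz, hw]⟩
  | neg a _ ha =>
    obtain ⟨z, hz⟩ := ha
    exact ⟨-z, by rw [map_neg, hz]⟩

theorem phi_zeta
    (ρ : (P : Pt A 1) → KM (kappa P.P) →+ KM (ResidueField A))
    (h2 : ∀ (P : Pt A 1) (v : Aˣ) (z : KM (kappa P.P)),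
      ρ P (cls (toKappa P.P (v : A)) * z) = - (cls (residue A (v : A)) * ρ P z))
    (h3 : ∀ (P : Pt A 1) (y' : A), maximalIdeal A = P.P.asIdeal ⊔ Ideal.span {y'} →
        ρ P (cls (toKappa P.P y')) = 1)
    {x₀ y₀ : A} (h₀ : maximalIdeal A = Ideal.span {x₀, y₀}) (hx₀ : Prime x₀)
    (z : KM (ResidueField A)) : ∃ ζ : KM (kappa (pt hx₀).P),
      phi hdim hd (cl d (inj (pt hx₀) (cls (toKappa (pt hx₀).P y₀)))) z =
        cl d (inj (pt hx₀) ζ) ∧ ρ (pt hx₀) ζ = sgn (ResidueField A) z := by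
  refine induction (S := Set.univ) (p := fun z => ∃ ζ : KM (kappa (pt hx₀).P),
      phi hdim hd (cl d (inj (pt hx₀) (cls (toKappa (pt hx₀).P y₀)))) z =
        cl d (inj (pt hx₀) ζ) ∧ ρ (pt hx₀) ζ = sgn (ResidueField A) z) (by simp) ?_ ?_ ?_ ?_ z
  · rintro x y ⟨ζ, h1, h2⟩ ⟨ζ', h1', h2'⟩
    exact ⟨ζ + ζ', by rw [map_add, h1, h1', map_add, map_add], by rw [map_add, h2, h2', map_add]⟩
  · rintro x ⟨ζ, h1, h2⟩
    exact ⟨-ζ, by rw [map_neg, h1, map_neg, map_neg], by rw [map_neg, h2, map_neg]⟩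
  · refine ⟨cls (toKappa (pt hx₀).P y₀), ?_, ?_⟩
    · rw [phi_apply, map_one]; rfl
    · rw [h3 _ _ (span_pair_sup h₀ (pt_ideal hx₀)), map_one]
  · rintro a - z ⟨ζ, hz1, hz2⟩
    obtain ⟨v, hv⟩ := exists_lift a
    refine ⟨cls (toKappa (pt hx₀).P (v : A)) * ζ, ?_, ?_⟩
    · rw [phi_apply] at hz1 ⊢
      rw [map_mul]
      change phiEnd hdim hd (sym a) (phiEnd hdim hd z _) = _
      rw [hz1, phiEnd_sym hdim hd a v hv, lq_cl, lm_inj]
    · rw [h2, hz2, hv, cls_unit, map_mul, sgn_sym, neg_mul]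

include hdim in
theorem phi_injective {x₀ y₀ : A}
    (h₀ : maximalIdeal A = Ideal.span {x₀, y₀}) (hx₀ : Prime x₀) :
    Function.Injective
      (phi hdim hd (cl d (inj (pt hx₀) (cls (toKappa (pt hx₀).P y₀))))) := by
  rw [injective_iff_map_eq_zero]
  intro z hz
  choose ρ h1 h2 h3 using exists_rho (A := A) hdim
  obtain ⟨ζ, hζ1, hζ2⟩ := phi_zeta hdim hd ρ h2 h3 h₀ hx₀ z
  rw [hz] at hζ1
  obtain ⟨Z, hZ⟩ : inj (pt hx₀) ζ ∈ boundaries d := (QuotientAddGroup.eq_zero_iff _).mp hζ1.symm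
  choose g hg hgP using exists_gen (A := A) hdim
  have hdr : ∀ P, d P = rsd (hg P) (kappa_iff (hgP P)) := fun P =>
    residue_unique (hg P) (hgP P) (hd P) (isResidue_rsd (hg P) (hgP P))
  have hZx : rsd hx₀ (kappa_iff (pt_ideal hx₀)) Z = ζ := by
    have h4 := residue_unique hx₀ (pt_ideal hx₀) (hd (pt hx₀))
      (isResidue_rsd hx₀ (pt_ideal hx₀))
    have h5 := hZ (pt hx₀)
    rw [inj_same, h4] at h5
    exact h5.symm
  have hLam : Z ∈ Lam x₀ 1 := by
    apply mem_Lam_one hdim h₀ hg hgP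
    intro P hP
    rw [← hdr P, ← hZ P]
    apply inj_ne
    rintro rfl
    apply hP
    have h4 : g (pt hx₀) ∈ (pt hx₀).P.asIdeal := by
      rw [hgP]
      exact Ideal.mem_span_singleton_self _
    rwa [pt_ideal, Ideal.mem_span_singleton] at h4
  obtain ⟨z₀, m0, z₁, m1, rfl⟩ := Lam_one_nf hLam
  rw [rsd_nf hx₀ (kappa_iff (pt_ideal hx₀)) m0 m1] at hZx
  have h4 : ρ (pt hx₀) ζ = 0 := by
    rw [← hZx]
    exact rho_UP (ρ (pt hx₀)) (h1 _) (h2 _) (spz_UF hx₀ (pt_ideal hx₀) m1)
  rw [hζ2] at h4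
  have h6 := congrArg (sgn (ResidueField A)) h4
  rwa [sgn_sgn, map_zero] at h6

theorem phi_symb {x₀ y₀ : A}
    (h₀ : maximalIdeal A = Ideal.span {x₀, y₀}) (hx₀ : Prime x₀) {P : Pt A 1} {x y : A}
    {l : List A} (h : maximalIdeal A = Ideal.span {x, y}) (hP : P.P.asIdeal = Ideal.span {x})
    (hl : ∀ a ∈ l, IsUnit a) :
    phi hdim hd (cl d (inj (pt hx₀) (cls (toKappa (pt hx₀).P y₀)))) (symb (residue A) l) =
      cl d (inj P (symb (toKappa P.P) (l ++ [y]))) := by
  obtain ⟨hx, _, _⟩ := P178.Surf.quotient_facts hdim h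
  obtain rfl : pt hx = P := pt_ext hP.symm
  rw [phi_apply, ← class_eq hdim hd h h₀ hx hx₀, phiEnd_symb hdim hd l hl, symb_append,
    symb_singleton]

omit [IsRegularLocalRing A] [IsDomain A] in
theorem sumHom_eq {M : Type u} [AddCommGroup M] (ρ : (P : Pt A 1) → KM (kappa P.P) →+ M)
    (t : Tot A) : sumHom ρ t = ∑ᶠ P, ρ P (t P) := by
  classical
  have h1 := DirectSum.sum_support_of (β := fun P : Pt A 1 => KM (kappa P.P)) t
  have h2 : sumHom ρ t = ∑ P ∈ DFinsupp.support t, ρ P (t P) := by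
    conv_lhs => rw [← h1]
    rw [map_sum]
    refine Finset.sum_congr rfl fun P _ => ?_
    rw [← sumHom_inj ρ P (t P)]
    unfold inj
    congr 1
  rw [h2]
  symm
  apply finsum_eq_sum_of_support_subset
  intro P hP
  rw [Finset.mem_coe, DFinsupp.mem_support_iff]
  intro h
  apply hP
  change ρ P (t P) = 0
  rw [h, map_zero]

/-- Words in units span the Milnor ring of the residue field. -/
theorem span_words {A : Type u} [CommRing A] [IsLocalRing A] (z : KM (ResidueField A)) :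
    z ∈ AddSubgroup.closure
    {z | ∃ l : List A, (∀ a ∈ l, IsUnit a) ∧ z = symb (residue A) l} := by
  refine induction (S := Set.univ) (p := fun z => z ∈ AddSubgroup.closure
    {z | ∃ l : List A, (∀ a ∈ l, IsUnit a) ∧ z = symb (residue A) l}) (by simp) ?_ ?_ ?_ ?_ z
  · intro x y hx hy; exact add_mem hx hy
  · intro x hx; exact neg_mem hx
  · exact AddSubgroup.subset_closure ⟨[], by simp, rfl⟩
  · rintro a - z hz
    obtain ⟨v, hv⟩ := exists_lift a
    induction hz using AddSubgroup.closure_induction with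
    | mem z hz =>
      obtain ⟨l, hl, rfl⟩ := hz
      refine AddSubgroup.subset_closure ⟨(v : A) :: l, ?_, ?_⟩
      · intro b hb
        rcases List.mem_cons.mp hb with rfl | hb
        · exact v.isUnit
        · exact hl b hb
      · rw [symb_cons, hv, cls_unit]
    | zero => rw [mul_zero]; exact zero_mem _
    | add x y _ _ hx hy => rw [mul_add]; exact add_mem hx hy
    | neg x _ hx => rw [mul_neg]; exact neg_mem hx

include hdim hd in
theorem exact_main :
    ∃ δ : (P : Pt A 1) → KM (kappa P.P) →+ KM (ResidueField A),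
      (∀ (P : Pt A 1) (x y : A) (l : List A), maximalIdeal A = Ideal.span {x, y} →
        P.P.asIdeal = Ideal.span {x} → (∀ a ∈ l, IsUnit a) →
        δ P (symb (toKappa P.P) (l ++ [y])) = symb (residue A) l ∧
          δ P (symb (toKappa P.P) l) = 0) ∧
      (∀ z, ∑ᶠ P, δ P (d P z) = 0) ∧
      (∀ t : (P : Pt A 1) → KM (kappa P.P), {P | t P ≠ 0}.Finite →
        ∑ᶠ P, δ P (t P) = 0 → ∃ z, ∀ P, d P z = t P) ∧
      (∀ δ' : (P : Pt A 1) → KM (kappa P.P) →+ KM (ResidueField A),
        (∀ (P : Pt A 1) (x y : A) (l : List A), maximalIdeal A = Ideal.span {x, y} →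
          P.P.asIdeal = Ideal.span {x} → (∀ a ∈ l, IsUnit a) →
          δ' P (symb (toKappa P.P) (l ++ [y])) = symb (residue A) l) →
        (∀ z, ∑ᶠ P, δ' P (d P z) = 0) → δ' = δ) := by
  classical
  obtain ⟨x₀, y₀, h₀⟩ := P178.Surf.exists_par hdim
  obtain ⟨hx₀, _, _⟩ := P178.Surf.quotient_facts hdim h₀
  set Φ := phi hdim hd (cl d (inj (pt hx₀) (cls (toKappa (pt hx₀).P y₀)))) with hΦ
  have hbij : Function.Bijective Φ :=
    ⟨phi_injective hdim hd h₀ hx₀, phi_surjective hdim hd h₀ hx₀⟩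
  let Ψ : Quo d →+ KM (ResidueField A) := (AddEquiv.ofBijective Φ hbij).symm.toAddMonoidHom
  have hΨ : ∀ z, Ψ (Φ z) = z := fun z => (AddEquiv.ofBijective Φ hbij).symm_apply_apply z
  have hΨ' : ∀ q, Φ (Ψ q) = q := fun q => (AddEquiv.ofBijective Φ hbij).apply_symm_apply q
  set δ : (P : Pt A 1) → KM (kappa P.P) →+ KM (ResidueField A) := fun P =>
    Ψ.comp ((cl d).comp (inj P)) with hδ
  have hsum : sumHom δ = Ψ.comp (cl d) := by
    apply hom_ext
    intro P z
    rw [sumHom_inj]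
    rfl
  have hdT : ∀ z, ∀ ρ : (P : Pt A 1) → KM (kappa P.P) →+ KM (ResidueField A),
      ∑ᶠ P, ρ P (d P z) = sumHom ρ (dTot hdim hd z) := by
    intro z ρ
    rw [sumHom_eq]
    exact finsum_congr fun P => by rw [dTot_apply]
  have hbd : ∀ z, dTot hdim hd z ∈ boundaries d := fun z => ⟨z, dTot_apply hdim hd z⟩
  refine ⟨δ, ?_, ?_, ?_, ?_⟩
  · intro P x y l h hP hl
    constructor
    · change Ψ (cl d (inj P (symb (toKappa P.P) (l ++ [y])))) = _
      rw [← phi_symb hdim hd h₀ hx₀ h hP hl]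
      exact hΨ _
    · change Ψ (cl d (inj P (symb (toKappa P.P) l))) = _
      rw [unit_symb hdim hd P l hl, map_zero]
  · intro z
    rw [hdT, hsum]
    change Ψ (cl d (dTot hdim hd z)) = 0
    rw [cl_eq_zero (hbd z), map_zero]
  · intro t ht h
    set T : Tot A := DirectSum.mk (fun P : Pt A 1 => KM (kappa P.P)) ht.toFinset
      (fun P => t P.1) with hT
    have hTP : ∀ P, T P = t P := by
      intro P
      by_cases hP : P ∈ ht.toFinset
      · exact DirectSum.mk_apply_of_mem hP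
      · rw [hT, DirectSum.mk_apply_of_notMem hP]
        rw [Set.Finite.mem_toFinset] at hP
        exact (not_not.mp hP).symm
    have h1 : sumHom δ T = 0 := by
      rw [sumHom_eq, ← h]
      exact finsum_congr fun P => by rw [hTP]
    rw [hsum] at h1
    have h2 : cl d T = 0 := by
      have h3 : Ψ (cl d T) = 0 := h1
      rw [← hΨ' (cl d T), h3, map_zero]
    obtain ⟨z, hz⟩ : T ∈ boundaries d := (QuotientAddGroup.eq_zero_iff _).mp h2
    exact ⟨z, fun P => by rw [← hz P, hTP]⟩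
  · intro δ' hδ' hzero
    have hlift : ∀ w : KM (ResidueField A), ∃ t : Tot A, cl d t = Φ w ∧ sumHom δ' t = w := by
      intro w
      have hw := span_words w
      induction hw using AddSubgroup.closure_induction with
      | mem w hw =>
        obtain ⟨l, hl, rfl⟩ := hw
        refine ⟨inj (pt hx₀) (symb (toKappa (pt hx₀).P) (l ++ [y₀])), ?_, ?_⟩
        · exact (phi_symb hdim hd h₀ hx₀ h₀ (pt_ideal hx₀) hl).symm
        · rw [sumHom_inj]
          exact hδ' _ _ _ _ h₀ (pt_ideal hx₀) hl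
      | zero => exact ⟨0, by rw [map_zero, map_zero], map_zero _⟩
      | add x y _ _ hx hy =>
        obtain ⟨s, h1, h2⟩ := hx
        obtain ⟨t, h3, h4⟩ := hy
        exact ⟨s + t, by rw [map_add, h1, h3, map_add], by rw [map_add, h2, h4]⟩
      | neg x _ hx =>
        obtain ⟨s, h1, h2⟩ := hx
        exact ⟨-s, by rw [map_neg, h1, map_neg], by rw [map_neg, h2]⟩
    have hb : ∀ t ∈ boundaries d, sumHom δ' t = 0 := by
      rintro t ⟨z, hz⟩
      have : t = dTot hdim hd z := tot_ext fun P => by rw [hz P, dTot_apply]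
      rw [this, ← hdT, hzero]
    funext P
    ext1 z
    obtain ⟨t, h1, h2⟩ := hlift (Ψ (cl d (inj P z)))
    rw [hΨ'] at h1
    have h3 : inj P z - t ∈ boundaries d := by
      apply (QuotientAddGroup.eq_zero_iff _).mp
      change cl d (inj P z - t) = 0
      rw [map_sub, h1, sub_self]
    have h4 := hb _ h3
    rw [map_sub, sub_eq_zero, h2, sumHom_inj] at h4
    exact h4

end

end Vale.Agent.P178M
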