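import Vale.Agent.P178.H270.Defs

/-!
The statement of the exactness of the Gersten complexes of Milnor K-groups of a regular local
ring of dimension two.
-/

universe u

noncomputable section

namespace Vale.Agent.P178M

open Vale.Agent.P178.Gersten IsLocalRing

section

variable (A : Type u) [CommRing A]

/-- `K^M_n(Frac A)`: the subgroup generated by the symbols with `n` entries. -/
def KFn (n : ℕ) : AddSubgroup (KF A) :=
  AddSubgroup.closure {z | ∃ l : List A, l.length = n ∧ (∀ a ∈ l, a ≠ 0) ∧ z = symF l}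

/-- The image of `K^M_n(A)`: the subgroup generated by the symbols of `n` units of `A`. -/
def KUn (n : ℕ) : AddSubgroup (KF A) :=
  AddSubgroup.closure {z | ∃ l : List A, l.length = n ∧ (∀ a ∈ l, IsUnit a) ∧ z = symF l}

variable {A}

/-- `K^M_n(κ(P))`: the subgroup generated by the symbols with `n` entries. -/
def KPn (P : PrimeSpectrum A) (n : ℕ) : AddSubgroup (KP P) :=
  AddSubgroup.closure {z | ∃ l : List A, l.length = n ∧ (∀ a ∈ l, a ∉ P.asIdeal) ∧ z = symP P l}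

/-- `D : K^M_*(Frac A) → K^M_*(κ(P))` is the residue (tame symbol) at the prime `P`: it is
additive, `D {a₁, …, aᵣ} = 0` and `D {π, a₁, …, aᵣ} = {ā₁, …, āᵣ}` for all `a₁, …, aᵣ ∈ A`
outside `P` and every generator `π` of `P`. -/
def IsRes (P : PrimeSpectrum A) (D : KF A → KP P) : Prop :=
  (∀ z w, D (z + w) = D z + D w) ∧
  (∀ l : List A, (∀ a ∈ l, a ∉ P.asIdeal) → D (symF l) = 0) ∧
  ∀ (g : A) (l : List A), P.asIdeal = Ideal.span {g} → (∀ a ∈ l, a ∉ P.asIdeal) →
    D (symF (g :: l)) = symP P l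

variable [IsLocalRing A]

variable (A) in
/-- `K^M_n(k)`: the subgroup generated by the symbols with `n` entries. -/
def KRn (n : ℕ) : AddSubgroup (KR A) :=
  AddSubgroup.closure {z | ∃ l : List A, l.length = n ∧ (∀ a ∈ l, IsUnit a) ∧ z = symR l}

/-- The family of homomorphisms `δ P : K^M_*(κ(P)) → K^M_*(k)` is the residue of the discrete
valuation ring `A/P` at every `P = (x)` with `m = (x, y)`: for units `a₁, …, aᵣ` of `A`,
`δ P {ā₁, …, āᵣ, ȳ} = {ā₁, …, āᵣ}` and `δ P {ā₁, …, āᵣ} = 0`. -/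
def IsLast (δ : (P : Pt A 1) → KP P.P → KR A) : Prop :=
  (∀ P z w, δ P (z + w) = δ P z + δ P w) ∧
  ∀ (P : Pt A 1) (x y : A) (l : List A), maximalIdeal A = Ideal.span {x, y} →
    P.P.asIdeal = Ideal.span {x} → (∀ a ∈ l, IsUnit a) →
    δ P (symP P.P (l ++ [y])) = symR l ∧ δ P (symP P.P l) = 0

variable (A) in
/-- Exactness of `K^M_{n+1}(F) → ⊕ K^M_n(κ(P)) → K^M_{n-1}(k) → 0` for every `n`, and of
`K^M_n(A) → K^M_n(F) → ⊕ K^M_{n-1}(κ(P))` for `n ≤ 3`. -/
def SurfaceExact : Prop :=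
  ∃ (d : (P : Pt A 1) → KF A → KP P.P) (δ : (P : Pt A 1) → KP P.P → KR A),
    -- `d P` is the residue at `P`, and the only one
    (∀ P D, IsRes P.P D ↔ D = d P) ∧
    -- `δ`: values at the regular points, degree, complex, uniqueness
    IsLast δ ∧ (∀ (P : Pt A 1) n, ∀ t ∈ KPn P.P (n + 1), δ P t ∈ KRn A n) ∧
    (∀ z, {P | d P z ≠ 0}.Finite ∧ ∑ᶠ P, δ P (d P z) = 0) ∧
    (∀ δ', IsLast δ' → (∀ z, ∑ᶠ P, δ' P (d P z) = 0) → δ' = δ) ∧
    -- exactness at the last term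
    (∃ P : Pt A 1, ∀ n, ∀ w ∈ KRn A n, ∃ t ∈ KPn P.P (n + 1), δ P t = w) ∧
    -- exactness at the sum over the primes of height one
    (∀ n, ∀ t : (P : Pt A 1) → KP P.P, (∀ P, t P ∈ KPn P.P n) → {P | t P ≠ 0}.Finite →
      ∑ᶠ P, δ P (t P) = 0 → ∃ z ∈ KFn A (n + 1), ∀ P, d P z = t P) ∧
    -- exactness at the fraction field in degree at most three
    (∀ n ≤ 3, ∀ z ∈ KFn A n, (∀ P, d P z = 0) → z ∈ KUn A n)

end

end Vale.Agent.P178M
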