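import Vale.Agent.P178.H270.Ker
import Vale.Agent.P178.H270.Stmt

/-!
The degrees of the residues, and the proof of `SurfaceExact`.
-/

universe u

noncomputable section

namespace Vale.Agent.P178M

open Vale.Agent.P178.Gersten IsLocalRing P178.Surf
open scoped DirectSum

section words

variable {A R : Type u} [CommRing A] [CommRing R]

/-- The components are spanned by words. -/
theorem pr_words (f : A →+* R) (p : A → Prop)
    (hS : Subgroup.closure {u : Rˣ | ∃ a, p a ∧ (u : R) = f a} = ⊤) (n : ℕ) (z : KM R) :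
    pr n z ∈ AddSubgroup.closure
      {z | ∃ l : List A, l.length = n ∧ (∀ a ∈ l, p a) ∧ z = symb f l} := by
  refine induction (p := fun z => ∀ n, pr n z ∈ AddSubgroup.closure
    {z | ∃ l : List A, l.length = n ∧ (∀ a ∈ l, p a) ∧ z = symb f l}) hS ?_ ?_ ?_ ?_ z n
  · intro x y hx hy n
    rw [map_add]
    exact add_mem (hx n) (hy n)
  · intro x hx n
    rw [map_neg]
    exact neg_mem (hx n)
  · intro n
    rw [pr_one]
    split_ifs with h
    · exact AddSubgroup.subset_closure ⟨[], h.symm, by simp, (symb_nil f).symm⟩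
    · exact zero_mem _
  · rintro u ⟨a, ha, hu⟩ z hz n
    cases n with
    | zero => rw [pr_sym_mul_zero]; exact zero_mem _
    | succ n =>
      rw [pr_sym_mul_succ]
      have hz' := hz n
      generalize pr n z = q at hz'
      induction hz' using AddSubgroup.closure_induction with
      | mem w hw =>
        obtain ⟨l, hl, hp, rfl⟩ := hw
        refine AddSubgroup.subset_closure ⟨a :: l, by simp [hl], ?_, ?_⟩
        · intro b hb
          rcases List.mem_cons.mp hb with rfl | hb
          · exact ha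
          · exact hp b hb
        · rw [symb_cons, ← hu, cls_unit]
      | zero => rw [mul_zero]; exact zero_mem _
      | add x y _ _ hx hy => rw [mul_add]; exact add_mem hx hy
      | neg x _ hx => rw [mul_neg]; exact neg_mem hx

theorem words_pr (f : A →+* R) (p : A → Prop) {n : ℕ} {z : KM R} (hz : z ∈ AddSubgroup.closure
    {z | ∃ l : List A, l.length = n ∧ (∀ a ∈ l, p a) ∧ z = symb f l}) : pr n z = z := by
  induction hz using AddSubgroup.closure_induction with
  | mem z hz =>
    obtain ⟨l, hl, _, rfl⟩ := hz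
    rw [pr_symb, if_pos hl.symm]
  | zero => rw [map_zero]
  | add x y _ _ hx hy => rw [map_add, hx, hy]
  | neg x _ hx => rw [map_neg, hx]

theorem pr_int_mul (n : ℕ) (m : ℤ) (z : KM R) : pr n ((m : KM R) * z) = (m : KM R) * pr n z := by
  have h1 : ∀ w : KM R, (m : KM R) * w = m • w := fun w => (zsmul_eq_mul w m).symm
  rw [h1, h1, map_zsmul]

end words

section residue

variable {A : Type u} [CommRing A] [IsDomain A] [IsNoetherianRing A] {g : A} {κ : Type u}
  [Field κ] {r : A →+* κ} (hg : Prime g) (hr : ∀ a, r a = 0 ↔ g ∣ a)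

theorem rsd_pr (z : KM (FractionRing A)) :
    rsd hg hr (pr 0 z) = 0 ∧ ∀ n, rsd hg hr (pr (n + 1) z) = pr n (rsd hg hr z) := by
  have hspz : ∀ n z, pr n (spz hg hr z) = spz hg hr (pr n z) := fun n z =>
    pr_hom (spz hg hr) (fun a => ⟨_, spz_sym _ _ a⟩) n z
  refine induction (S := Set.univ) (p := fun z =>
    rsd hg hr (pr 0 z) = 0 ∧ ∀ n, rsd hg hr (pr (n + 1) z) = pr n (rsd hg hr z)) (by simp)
    ?_ ?_ ?_ ?_ z
  · rintro x y ⟨hx, hx'⟩ ⟨hy, hy'⟩
    refine ⟨by rw [map_add, map_add, hx, hy, add_zero], fun n => ?_⟩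
    rw [map_add, map_add, map_add, map_add, hx', hy']
  · rintro x ⟨hx, hx'⟩
    refine ⟨by rw [map_neg, map_neg, hx, neg_zero], fun n => ?_⟩
    rw [map_neg, map_neg, map_neg, map_neg, hx']
  · refine ⟨by rw [pr_one, if_pos rfl, rsd_one], fun n => ?_⟩
    rw [pr_one, if_neg (Nat.succ_ne_zero n), map_zero, rsd_one, map_zero]
  · rintro f - z ⟨hz, hz'⟩
    refine ⟨by rw [pr_sym_mul_zero, map_zero], fun n => ?_⟩
    have key : ∀ a : κˣ, pr n (sym a * rsd hg hr z) = sym a * rsd hg hr (pr n z) := by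
      intro a
      cases n with
      | zero => rw [pr_sym_mul_zero, hz, mul_zero]
      | succ n => rw [pr_sym_mul_succ, hz']
    rw [pr_sym_mul_succ, rsd_mul, rsd_mul, map_add, pr_int_mul, hspz, add_mul, add_mul, map_add,
      neg_mul, neg_mul, map_neg, key, mul_assoc, mul_assoc, pr_int_mul, key]

end residue

section surface

variable {A : Type u} [CommRing A] [IsRegularLocalRing A] [IsDomain A]
  (hdim : ringKrullDim A = 2)
  {d : (P : Pt A 1) → KM (FractionRing A) →+ KM (kappa P.P)}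
  (hd : ∀ P : Pt A 1, IsResidue P.P (d P))

include hdim hd in
theorem d_pr (P : Pt A 1) (n : ℕ) (z : KM (FractionRing A)) :
    d P (pr (n + 1) z) = pr n (d P z) := by
  obtain ⟨g, hg, hgP⟩ := exists_gen hdim P
  rw [residue_unique hg hgP (hd P) (isResidue_rsd hg hgP)]
  exact (rsd_pr hg (kappa_iff hgP) z).2 n

/-- The components of the elements of the sum. -/
def Pr (n : ℕ) : Tot A →+ Tot A := DirectSum.map fun _ => pr n

theorem Pr_apply (n : ℕ) (t : Tot A) (P : Pt A 1) : Pr n t P = pr n (t P) := rfl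

theorem Pr_inj (n : ℕ) (P : Pt A 1) (w : KM (kappa P.P)) : Pr n (inj P w) = inj P (pr n w) := by
  apply tot_ext
  intro P'
  rw [Pr_apply]
  by_cases h : P = P'
  · subst h
    rw [inj_same, inj_same]
  · rw [inj_ne h, inj_ne h, map_zero]

theorem Pr_dTot (n : ℕ) (z : KM (FractionRing A)) :
    Pr n (dTot hdim hd z) = dTot hdim hd (pr (n + 1) z) := by
  apply tot_ext
  intro P
  rw [Pr_apply, dTot_apply, dTot_apply, d_pr hdim hd]

include hdim hd in
/-- A homomorphism which vanishes on the boundaries and on the symbols at one regular point. -/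
theorem tot_hom_zero {x₀ y₀ : A} (h₀ : maximalIdeal A = Ideal.span {x₀, y₀}) (hx₀ : Prime x₀)
    {M : Type u} [AddCommGroup M] (f : Tot A →+ M) (hb : ∀ z, f (dTot hdim hd z) = 0)
    (hgen : ∀ l : List A, (∀ a ∈ l, IsUnit a) →
      f (inj (pt hx₀) (symb (toKappa (pt hx₀).P) (l ++ [y₀]))) = 0) (t : Tot A) : f t = 0 := by
  set Φ := phi hdim hd (cl d (inj (pt hx₀) (cls (toKappa (pt hx₀).P y₀)))) with hΦ
  have hlift : ∀ w : KM (ResidueField A), ∃ t : Tot A, cl d t = Φ w ∧ f t = 0 := by
    intro w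
    have hw := span_words w
    induction hw using AddSubgroup.closure_induction with
    | mem w hw =>
      obtain ⟨l, hl, rfl⟩ := hw
      exact ⟨inj (pt hx₀) (symb (toKappa (pt hx₀).P) (l ++ [y₀])),
        (phi_symb hdim hd h₀ hx₀ h₀ (pt_ideal hx₀) hl).symm, hgen l hl⟩
    | zero => exact ⟨0, by rw [map_zero, map_zero], map_zero _⟩
    | add x y _ _ hx hy =>
      obtain ⟨s, h1, h2⟩ := hx
      obtain ⟨t, h3, h4⟩ := hy
      exact ⟨s + t, by rw [map_add, h1, h3, map_add], by rw [map_add, h2, h4, add_zero]⟩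
    | neg x _ hx =>
      obtain ⟨s, h1, h2⟩ := hx
      exact ⟨-s, by rw [map_neg, h1, map_neg], by rw [map_neg, h2, neg_zero]⟩
  obtain ⟨w, hw⟩ := phi_surjective hdim hd h₀ hx₀ (cl d t)
  obtain ⟨s, hs, hs'⟩ := hlift w
  have h1 : t - s ∈ boundaries d := by
    apply (QuotientAddGroup.eq_zero_iff _).mp
    change cl d (t - s) = 0
    rw [map_sub, hs, ← hw, sub_self]
  obtain ⟨z, hz⟩ := h1
  have h2 : t - s = dTot hdim hd z := tot_ext fun P => by rw [hz P, dTot_apply]
  have h3 := hb z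
  rw [← h2, map_sub, hs', sub_zero] at h3
  exact h3

include hdim hd in
/-- The last residues lower the degree by one. -/
theorem delta_pr {δ : (P : Pt A 1) → KM (kappa P.P) →+ KM (ResidueField A)}
    (hδ : ∀ (P : Pt A 1) (x y : A) (l : List A), maximalIdeal A = Ideal.span {x, y} →
        P.P.asIdeal = Ideal.span {x} → (∀ a ∈ l, IsUnit a) →
        δ P (symb (toKappa P.P) (l ++ [y])) = symb (residue A) l)
    (hc : ∀ z, ∑ᶠ P, δ P (d P z) = 0) (P : Pt A 1) (n : ℕ) (w : KM (kappa P.P)) :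
    pr n (δ P w) = δ P (pr (n + 1) w) := by
  obtain ⟨x₀, y₀, h₀⟩ := exists_par hdim
  obtain ⟨hx₀, _, _⟩ := quotient_facts hdim h₀
  have hdT : ∀ z, sumHom δ (dTot hdim hd z) = 0 := by
    intro z
    rw [← hc z, sumHom_eq]
    exact finsum_congr fun P => by rw [dTot_apply]
  let f : Tot A →+ KM (ResidueField A) :=
    (pr n).comp (sumHom δ) - (sumHom δ).comp (Pr (n + 1))
  have hf : ∀ t, f t = pr n (sumHom δ t) - sumHom δ (Pr (n + 1) t) := fun t => rfl
  have h1 := tot_hom_zero hdim hd h₀ hx₀ f (fun z => by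
      rw [hf, hdT, map_zero, Pr_dTot, hdT, sub_zero])
    (fun l hl => by
      rw [hf, Pr_inj, sumHom_inj, sumHom_inj, pr_symb, hδ _ _ _ _ h₀ (pt_ideal hx₀) hl, pr_symb,
        List.length_append, List.length_singleton]
      by_cases h : n = l.length
      · rw [if_pos h, if_pos (by omega), hδ _ _ _ _ h₀ (pt_ideal hx₀) hl, sub_self]
      · rw [if_neg h, if_neg (by omega), map_zero, sub_zero]) (inj P w)
  rw [hf, Pr_inj, sumHom_inj, sumHom_inj, sub_eq_zero] at h1
  exact h1

end surface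

section final

variable {A : Type u} [CommRing A] [IsRegularLocalRing A] [IsDomain A]

omit [IsDomain A] in
theorem mem_KPn_pr {P : PrimeSpectrum A} {n : ℕ} {w : KM (kappa P)} (hw : w ∈ KPn P n) :
    pr n w = w :=
  words_pr (toKappa P) (fun a => a ∉ P.asIdeal) hw

omit [IsDomain A] in
theorem pr_mem_KRn (n : ℕ) (w : KM (ResidueField A)) : pr n w ∈ KRn A n := by
  refine pr_words (residue A) (fun a => IsUnit a) ?_ n w
  rw [eq_top_iff]
  intro u _
  obtain ⟨v, hv⟩ := exists_lift (A := A) u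
  exact Subgroup.subset_closure ⟨v, v.isUnit, hv.symm⟩

theorem pr_mem_KFn (n : ℕ) (w : KM (FractionRing A)) : pr n w ∈ KFn A n := by
  refine pr_words (algebraMap A (FractionRing A)) (fun a => a ≠ 0) ?_ n w
  rw [eq_top_iff, ← closure_fu (A := A)]
  apply Subgroup.closure_mono
  rintro f ⟨a, ha0, rfl⟩
  exact ⟨a, ha0, fu_val ha0⟩

theorem surfaceExact (hdim : ringKrullDim A = 2) : SurfaceExact A := by
  obtain ⟨d, hd⟩ := exists_residues (A := A) hdim
  have hd' : ∀ P : Pt A 1, IsResidue P.P (d P) := fun P => (hd P (d P)).mpr rfl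
  obtain ⟨δ, h1, h2, h3, h4⟩ := exact_main hdim hd'
  have hpr := delta_pr hdim hd' (fun P x y l h hP hl => (h1 P x y l h hP hl).1) h2
  refine ⟨fun P => d P, fun P => δ P, ?_, ⟨fun P z w => map_add (δ P) z w, ?_⟩, ?_, ?_, ?_, ?_,
    ?_, ?_⟩
  · intro P D
    constructor
    · rintro ⟨hadd, hD1, hD2⟩
      have h5 := (hd P (AddMonoidHom.mk' D hadd)).mp ⟨hD1, hD2⟩
      exact congrArg (fun e : KF A →+ KP P.P => (e : KF A → KP P.P)) h5
    · rintro rfl
      exact ⟨map_add (d P), (hd' P).1, (hd' P).2⟩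
  · exact fun P x y l h hP hl => h1 P x y l h hP hl
  · intro P n t ht
    have h5 := hpr P n t
    rw [mem_KPn_pr ht] at h5
    change δ P t ∈ KRn A n
    rw [← h5]
    exact pr_mem_KRn n _
  · exact fun z => ⟨finite_residues hdim hd' z, h2 z⟩
  · rintro δ' ⟨hadd, h5⟩ h6
    have h7 := h4 (fun P => AddMonoidHom.mk' (δ' P) (hadd P))
      (fun P x y l h hP hl => (h5 P x y l h hP hl).1) h6
    funext P w
    exact DFunLike.congr_fun (congrFun h7 P) w
  · obtain ⟨x₀, y₀, h₀⟩ := exists_par hdim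
    obtain ⟨hx₀, hxy, _⟩ := quotient_facts hdim h₀
    refine ⟨pt hx₀, fun n w hw => ?_⟩
    induction hw using AddSubgroup.closure_induction with
    | mem w hw =>
      obtain ⟨l, hl, hu, rfl⟩ := hw
      refine ⟨symb (toKappa (pt hx₀).P) (l ++ [y₀]), AddSubgroup.subset_closure
        ⟨l ++ [y₀], by simp [hl], ?_, rfl⟩, (h1 _ _ _ l h₀ (pt_ideal hx₀) hu).1⟩
      intro a ha
      rcases List.mem_append.mp ha with h | h
      · obtain ⟨u, rfl⟩ := hu a h
        exact unit_notMem _ u
      · rw [List.mem_singleton] at h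
        rw [h, pt_ideal, Ideal.mem_span_singleton]
        exact hxy
    | zero => exact ⟨0, zero_mem _, map_zero (δ (pt hx₀))⟩
    | add a b _ _ ha hb =>
      obtain ⟨s, hs, hs'⟩ := ha
      obtain ⟨t, ht, ht'⟩ := hb
      exact ⟨s + t, add_mem hs ht,
        (map_add (δ (pt hx₀)) s t).trans (congrArg₂ (fun p q => p + q) hs' ht')⟩
    | neg a _ ha =>
      obtain ⟨s, hs, hs'⟩ := ha
      exact ⟨-s, neg_mem hs,
        (map_neg (δ (pt hx₀)) s).trans (congrArg (fun p => -p) hs')⟩
  · intro n t ht hfin hsum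
    obtain ⟨z, hz⟩ := h3 t hfin hsum
    refine ⟨pr (n + 1) z, pr_mem_KFn (n + 1) z, fun P => ?_⟩
    change d P (pr (n + 1) z) = t P
    rw [d_pr hdim hd', hz P]
    exact mem_KPn_pr (ht P)
  · intro n hn z hz hres
    have h5 : pr n (z : KM (FractionRing A)) = z :=
      words_pr (algebraMap A (FractionRing A)) (fun a => a ≠ 0) hz
    exact ker_main hdim hd' hn h5 hres

end final

end Vale.Agent.P178M
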