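import Vale.Agent.P178.H270.Defs

/-!
The Milnor ring of a commutative ring.
-/

universe u

noncomputable section

namespace Vale.Agent.P178M

section

variable {R : Type u} [CommRing R]

theorem sym_mul (a b : Rˣ) : sym (a * b) = sym a + sym b := by
  unfold sym
  rw [ofMul_mul, map_add, map_add]

theorem sym_one : sym (1 : Rˣ) = 0 := by
  have h := sym_mul (1 : Rˣ) 1
  rw [mul_one] at h
  exact (left_eq_add.mp h)

theorem sym_inv (a : Rˣ) : sym a⁻¹ = - sym a := by
  have h := sym_mul a a⁻¹
  rw [mul_inv_cancel, sym_one] at h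
  exact (neg_eq_of_add_eq_zero_right h.symm).symm

theorem sym_mul_sym (a b : Rˣ) (h : (a : R) + b = 1) : sym a * sym b = 0 := by
  have h1 : proj R _ = proj R _ := RingQuot.mkRingHom_rel (SteinbergRel.mk a b h)
  rw [map_mul, map_zero] at h1
  exact h1

/-- The universal property of the Milnor ring. -/
def lift {T : Type*} [Ring T] (f : Rˣ → T) (hf : ∀ a b, f (a * b) = f a + f b)
    (hs : ∀ a b : Rˣ, (a : R) + b = 1 → f a * f b = 0) : KM R →+* T :=
  RingQuot.lift ⟨(TensorAlgebra.lift ℤ (AddMonoidHom.toIntLinearMap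
    (AddMonoidHom.mk' (fun a : Additive Rˣ => f a.toMul) fun a b => hf _ _))).toRingHom, by
      rintro _ _ ⟨a, b, h⟩
      simpa using hs a b h⟩

theorem lift_sym {T : Type*} [Ring T] (f : Rˣ → T) (hf : ∀ a b, f (a * b) = f a + f b)
    (hs : ∀ a b : Rˣ, (a : R) + b = 1 → f a * f b = 0) (a : Rˣ) :
    lift f hf hs (sym a) = f a := by
  have := RingQuot.lift_mkRingHom_apply (TensorAlgebra.lift ℤ (AddMonoidHom.toIntLinearMap
    (AddMonoidHom.mk' (fun a : Additive Rˣ => f a.toMul) fun a b => hf _ _))).toRingHom
    (r := SteinbergRel R) (by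
      rintro _ _ ⟨a, b, h⟩
      simpa using hs a b h) (TensorAlgebra.ι ℤ (Additive.ofMul a))
  refine this.trans ?_
  simp

/-- Induction in the Milnor ring. -/
theorem induction {S : Set Rˣ} (hS : Subgroup.closure S = ⊤) {p : KM R → Prop}
    (hadd : ∀ x y, p x → p y → p (x + y)) (hneg : ∀ x, p x → p (-x))
    (hone : p 1) (hmul : ∀ a ∈ S, ∀ z, p z → p (sym a * z)) (z : KM R) : p z := by
  have h0 : p 0 := by
    have := hadd _ _ hone (hneg _ hone)
    rwa [add_neg_cancel] at this
  have hall : ∀ a : Rˣ, ∀ z, p z → p (sym a * z) := by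
    intro a
    have ha : a ∈ Subgroup.closure S := by rw [hS]; trivial
    induction ha using Subgroup.closure_induction with
    | mem x hx => exact hmul x hx
    | one => intro z _; rw [sym_one, zero_mul]; exact h0
    | mul x y _ _ hx hy =>
      intro z hz
      rw [sym_mul, add_mul]
      exact hadd _ _ (hx z hz) (hy z hz)
    | inv x _ hx =>
      intro z hz
      rw [sym_inv, neg_mul]
      exact hneg _ (hx z hz)
  have hnat : ∀ (n : ℕ) (z : KM R), p z → p ((n : KM R) * z) := by
    intro n z hz
    induction n with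
    | zero => simpa using h0
    | succ n ih =>
      push_cast
      rw [add_mul, one_mul]
      exact hadd _ _ ih hz
  have hint : ∀ (n : ℤ) (z : KM R), p z → p ((n : KM R) * z) := by
    intro n z hz
    obtain ⟨m, rfl | rfl⟩ := n.eq_nat_or_neg
    · simpa using hnat m z hz
    · have := hneg _ (hnat m z hz)
      simpa using this
  have key : ∀ t : TensorAlgebra ℤ (Additive Rˣ), ∀ z, p z →
      p (proj R t * z) := by
    intro t
    induction t using TensorAlgebra.induction with
    | algebraMap r =>
      intro z hz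
      have : proj R (algebraMap ℤ _ r) = (r : KM R) := by
        rw [eq_intCast (algebraMap ℤ (TensorAlgebra ℤ (Additive Rˣ))) r]
        exact map_intCast (proj R) r
      rw [this]
      exact hint r z hz
    | ι x => intro z hz; exact hall x.toMul z hz
    | mul a b ha hb =>
      intro z hz
      rw [map_mul, mul_assoc]
      exact ha _ (hb z hz)
    | add a b ha hb =>
      intro z hz
      rw [map_add, add_mul]
      exact hadd _ _ (ha z hz) (hb z hz)
  obtain ⟨t, rfl⟩ := RingQuot.mkRingHom_surjective (SteinbergRel R) z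
  have := key t 1 hone
  rwa [mul_one] at this

theorem cls_unit (a : Rˣ) : cls (a : R) = sym a := by
  unfold cls
  rw [dif_pos a.isUnit]
  congr 1
  ext
  rfl

theorem cls_of_isUnit {x : R} (h : IsUnit x) : cls x = sym h.unit := dif_pos h

theorem symb_nil {A : Type u} [CommRing A] (f : A →+* R) : symb f [] = 1 := rfl

theorem symb_cons {A : Type u} [CommRing A] (f : A →+* R) (a : A) (l : List A) :
    symb f (a :: l) = cls (f a) * symb f l := by
  simp [symb]

theorem symb_append {A : Type u} [CommRing A] (f : A →+* R) (l l' : List A) :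
    symb f (l ++ l') = symb f l * symb f l' := by
  simp [symb]

theorem symb_singleton {A : Type u} [CommRing A] (f : A →+* R) (a : A) :
    symb f [a] = cls (f a) := by
  simp [symb]

end

section field

variable {R : Type u} [CommRing R] (hR : ∀ x : R, x = 0 ∨ IsUnit x)

include hR

theorem sym_mul_neg (a : Rˣ) : sym a * sym (-a) = 0 := by
  rcases hR (1 - a) with h | h
  · have : a = 1 := by
      ext
      exact (sub_eq_zero.mp h).symm
    rw [this, sym_one, zero_mul]
  · set u := h.unit with hu
    have hu' : (u : R) = 1 - a := h.unit_spec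
    have h1 : sym a * sym u = 0 := sym_mul_sym _ _ (by rw [hu']; ring)
    have h2 : sym a⁻¹ * sym (-(u * a⁻¹)) = 0 := by
      refine sym_mul_sym _ _ ?_
      have h3 : (a : R) * ((a⁻¹ : Rˣ) : R) = 1 := a.mul_inv
      push_cast
      rw [hu']
      linear_combination h3
    have h3 : -a = u * (-(u * a⁻¹))⁻¹ := by
      rw [eq_mul_inv_iff_mul_eq]
      ext
      push_cast
      have h3 : (a : R) * ((a⁻¹ : Rˣ) : R) = 1 := a.mul_inv
      linear_combination (u : R) * h3
    rw [h3, sym_mul, sym_inv, mul_add, h1, zero_add, mul_neg, ← neg_mul, ← sym_inv, h2]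

theorem sym_anticomm (a b : Rˣ) : sym a * sym b = - (sym b * sym a) := by
  have h1 := sym_mul_neg hR (a * b)
  have h2 : -(a * b) = a * (-b) := by ext; push_cast; ring
  have h3 : -(a * b) = b * (-a) := by ext; push_cast; ring
  have h4 := sym_mul_neg hR a
  have h5 := sym_mul_neg hR b
  rw [sym_mul, add_mul] at h1
  rw [show sym a * sym (-(a * b)) = sym a * sym b by
    rw [h3, sym_mul, mul_add, h4, add_zero]] at h1
  rw [show sym b * sym (-(a * b)) = sym b * sym a by
    rw [h2, sym_mul, mul_add, h5, add_zero]] at h1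
  exact eq_neg_of_add_eq_zero_left h1

theorem sym_sq (a : Rˣ) : sym a * sym a = sym (-1) * sym a := by
  have h1 := sym_mul_neg hR a
  have h2 : -a = a * (-1) := by ext; push_cast; ring
  rw [h2, sym_mul, mul_add] at h1
  rw [eq_neg_of_add_eq_zero_left h1, sym_anticomm hR (-1) a]

omit hR in
theorem two_sym_neg_one : sym (-1 : Rˣ) + sym (-1 : Rˣ) = 0 := by
  rw [← sym_mul, neg_mul_neg, one_mul, sym_one]

end field

end Vale.Agent.P178M
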