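import Vale.Agent.P178.H270.Low

/-!
The kernel of the residues in degree at most three.
-/

universe u

noncomputable section

namespace Vale.Agent.P178M

open Vale.Agent.P178.Gersten IsLocalRing P178.Surf

theorem UW_pr {A : Type u} [CommRing A] [IsDomain A] {n : ℕ} {z : KM (FractionRing A)}
    (hz : z ∈ UW A n) : pr n z = z := by
  induction hz using AddSubgroup.closure_induction with
  | mem z hz =>
    obtain ⟨l, hl, _, rfl⟩ := hz
    rw [pr_symb, if_pos hl.symm]
  | zero => rw [map_zero]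
  | add x y _ _ hx hy => rw [map_add, hx, hy]
  | neg x _ hx => rw [map_neg, hx]

section surface

variable {A : Type u} [CommRing A] [IsRegularLocalRing A] [IsDomain A]
  (hdim : ringKrullDim A = 2) {x y : A} (h : maximalIdeal A = Ideal.span {x, y})

include hdim h in
theorem exists_trick_one : Trick 1 x y := by
  obtain ⟨hx, hxy, _⟩ := quotient_facts hdim h
  have h' : maximalIdeal A = Ideal.span {y, x} := by rw [h, Set.pair_comm]
  obtain ⟨hy, hyx, _⟩ := quotient_facts hdim h'
  refine exists_trick hdim h' one_ne_zero hx (pow_mem_J (by rw [pow_one]; exact mem_left h)) ?_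
  intro h2
  obtain ⟨d, w, hd⟩ := (mem_J h').mp h2
  have h3 : y ∣ x * (1 - d * x) := ⟨w, by linear_combination hd⟩
  have h4 : IsUnit (1 - d * x) := by
    by_contra h5
    have h6 := add_mem ((mem_maximalIdeal _).mpr h5) (Ideal.mul_mem_left _ d (mem_left h))
    rw [sub_add_cancel] at h6
    exact (mem_maximalIdeal _).mp h6 isUnit_one
  rcases hy.dvd_or_dvd h3 with h5 | h5
  · exact hyx h5
  · exact hy.not_isUnit (isUnit_of_dvd_unit h5 h4)

omit [IsRegularLocalRing A] [IsDomain A] in
theorem unit_congr {P : PrimeSpectrum A} {g : A} (hP : P.asIdeal = Ideal.span {g}) {u : Aˣ}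
    (hu : cls (toKappa P (u : A)) = 0) : g ∣ (u : A) - 1 := by
  have h1 : toKappa P (u : A) ≠ 0 := (u.isUnit.map (toKappa P)).ne_zero
  rw [cls_ru (toKappa P) h1] at hu
  have h2 := congrArg Units.val (sym_eq_zero hu)
  rw [ru_val, Units.val_one] at h2
  rw [← kappa_iff hP, map_sub, h2, map_one, sub_self]

include hdim h in
/-- The key step in degree at most two. -/
theorem step {n : ℕ} (hn : n ≤ 2) (hx : Prime x) {z : KM (FractionRing A)} (hz : z ∈ UW A n)
    (hs : spz hx (kappa_iff (pt_ideal hx)) z = 0) : c x * z ∈ UF A := by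
  have h' : maximalIdeal A = Ideal.span {y, x} := by rw [h, Set.pair_comm]
  obtain ⟨_, hxy, _⟩ := quotient_facts hdim h
  obtain ⟨hy, hyx, _⟩ := quotient_facts hdim h'
  interval_cases n
  · obtain ⟨m, rfl⟩ := UW_zero hz
    rw [map_intCast] at hs
    rw [int_eq_zero hs, Int.cast_zero, mul_zero]
    exact zero_mem _
  · obtain ⟨u, rfl⟩ := UW_one hz
    have h1 : toKappa (pt hx).P (u : A) ≠ 0 := (u.isUnit.map (toKappa (pt hx).P)).ne_zero
    unfold c at hs
    rw [spz_cls hx (kappa_iff (pt_ideal hx)) h1] at hs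
    exact t_unit_mem (mem_left h) hx.ne_zero (unit_congr (pt_ideal hx) hs)
  · have T := exists_trick_one hdim h
    have hzL : z ∈ Lam y 1 := by
      have h1 := UW_le_UF 2 hz
      have h2 : UF A ≤ Lam y 1 := by
        rw [UF, Subring.closure_le]
        rintro w ⟨u, rfl⟩
        exact c_mem (small_unit (mem_left h') u.isUnit one_ne_zero)
      exact h2 h1
    have h1 := key_fact' T (pt_ideal hx) (aa x y) (fun a b ha hb hab => by
      obtain ⟨u, hu, h2⟩ := SM_one_congr hx (mem_left h) (mem_left h') hxy ha hb hab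
      rw [mem_aa]
      change c a - c b ∈ AA x y
      rw [h2]
      exact AddSubgroup.subset_closure ⟨u, hu, 1, one_mem _, (mul_one _).symm⟩) hzL hs
    obtain ⟨α, hα, u, hu, h2⟩ := AA_pr_two ((mem_aa _).mp h1)
    rw [UW_pr hz] at h2
    have hαU : α ∈ UF A ∧ c x * α ∈ UF A := by
      clear h2
      induction hα using AddSubgroup.closure_induction with
      | mem w hw =>
        obtain ⟨v, hv, w, rfl⟩ := hw
        refine ⟨mul_mem (UF_c v) (UF_c w), ?_⟩
        rw [← mul_assoc]
        exact mul_mem (t_unit_mem (mem_left h) hx.ne_zero (mem_Ux.mp hv)) (UF_c w)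
      | zero => exact ⟨zero_mem _, by rw [mul_zero]; exact zero_mem _⟩
      | add a b _ _ ha hb =>
        exact ⟨add_mem ha.1 hb.1, by rw [mul_add]; exact add_mem ha.2 hb.2⟩
      | neg a _ ha => exact ⟨neg_mem ha.1, by rw [mul_neg]; exact neg_mem ha.2⟩
    have hcy : c (u : A) * c y ∈ UF A := by
      have h3 : c (u : A) * c y = z - α := by rw [h2]; abel
      rw [h3]
      exact sub_mem (UW_le_UF 2 hz) hαU.1
    have hyu : y ∣ (u : A) - 1 := by
      have h3 := rsd_UF_one hy (kappa_iff (pt_ideal hy)) hcy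
      have h4 : toKappa (pt hy).P (u : A) ≠ 0 := (u.isUnit.map (toKappa (pt hy).P)).ne_zero
      have h5 : rsd hy (kappa_iff (pt_ideal hy)) (c y) = 1 := by
        have := rsd_gen hy (kappa_iff (pt_ideal hy)) (Associated.refl _) 1 (rsd_one _ _)
        rw [mul_one, map_one] at this
        exact this
      have h6 : rsd hy (kappa_iff (pt_ideal hy)) (c (u : A) * c y) =
          - (cls (toKappa (pt hy).P (u : A)) * rsd hy (kappa_iff (pt_ideal hy)) (c y)) :=
        rsd_unit hy (kappa_iff (pt_ideal hy)) h4 (c y)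
      rw [h6, h5, mul_one, neg_eq_zero] at h3
      exact unit_congr (pt_ideal hy) h3
    have hxyu : x * y ∣ (u : A) - 1 := by
      obtain ⟨t, ht⟩ := hyu
      have h3 : x ∣ y * t := by rw [← ht]; exact mem_Ux.mp hu
      obtain ⟨s, rfl⟩ := (hx.dvd_or_dvd h3).resolve_left hxy
      exact ⟨s, by rw [ht]; ring⟩
    rw [h2, mul_add]
    exact add_mem hαU.2 (triple_mem (mem_left h) hx.ne_zero hy.ne_zero hxyu)

variable {d : (P : Pt A 1) → KM (FractionRing A) →+ KM (kappa P.P)}
  (hd : ∀ P : Pt A 1, IsResidue P.P (d P))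

include hdim hd in
/-- The elements of degree at most three with trivial residues. -/
theorem ker_main {n : ℕ} (hn : n ≤ 3) {z : KM (FractionRing A)} (hz : pr n z = z)
    (hres : ∀ P, d P z = 0) : z ∈ UW A n := by
  obtain ⟨x, y, h⟩ := exists_par hdim
  obtain ⟨hx, hxy, _⟩ := quotient_facts hdim h
  choose g hg hgP using exists_gen (A := A) hdim
  have hdr : ∀ P, d P = rsd (hg P) (kappa_iff (hgP P)) := fun P =>
    residue_unique (hg P) (hgP P) (hd P) (isResidue_rsd (hg P) (hgP P))
  have hL : z ∈ Lam x 1 := mem_Lam_one hdim h hg hgP fun P _ => by rw [← hdr P, hres P]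
  obtain ⟨z₀, m0, z₁, m1, hz1⟩ := Lam_one_nf hL
  have hs : spz hx (kappa_iff (pt_ideal hx)) z₁ = 0 := by
    rw [← rsd_nf hx (kappa_iff (pt_ideal hx)) m0 m1, ← hz1,
      ← residue_unique hx (pt_ideal hx) (hd (pt hx)) (isResidue_rsd hx (pt_ideal hx)), hres]
  cases n with
  | zero =>
    have e : pr 0 (c x * z₁) = 0 := pr_cls_mul_zero _ _
    rw [← hz, hz1, map_add, e, add_zero]
    exact UF_pr m0 0
  | succ n =>
    have e : pr (n + 1) (c x * z₁) = c x * pr n z₁ := pr_cls_mul_succ _ _ _
    have m2 : pr n z₁ ∈ UW A n := UF_pr m1 n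
    have h2 : c x * pr n z₁ ∈ UF A := by
      apply step hdim h (by omega) hx m2
      rw [← pr_hom (spz hx (kappa_iff (pt_ideal hx))) (fun a => ⟨_, spz_sym _ _ a⟩), hs, map_zero]
    have h3 : pr (n + 1) (c x * pr n z₁) = c x * pr n z₁ := by
      have : pr (n + 1) (c x * pr n z₁) = c x * pr n (pr n z₁) := pr_cls_mul_succ _ _ _
      rw [this, UW_pr m2]
    rw [← hz, hz1, map_add, e, ← h3]
    exact add_mem (UF_pr m0 _) (UF_pr h2 _)

end surface

end Vale.Agent.P178M
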