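import Vale.Agent.P178.H270.Filt

/-!
The graded pieces of the filtration by the order.
-/

universe u

noncomputable section

namespace Vale.Agent.P178M

open Vale.Agent.P178.Gersten IsLocalRing P178.Surf

section theta

variable {A : Type u} [CommRing A] [IsDomain A] [IsLocalRing A] [IsNoetherianRing A]
  {e : ℕ} {p x : A} {P : PrimeSpectrum A} (T : Trick e p x) (hP : P.asIdeal = Ideal.span {p})
  (I : Ideal (Lam x e)) [I.IsTwoSided] (hI : ∀ (a b : A) (ha : a ∈ SM x e) (hb : b ∈ SM x e),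
    p ∣ a - b → (⟨c a, SM_c ha⟩ - ⟨c b, SM_c hb⟩ : Lam x e) ∈ I)

/-- A fraction of products of small elements which represents `w`. -/
def IsLift (x : A) (e : ℕ) (P : PrimeSpectrum A) (w : (kappa P)ˣ) (a b : A) : Prop :=
  a ∈ SM x e ∧ b ∈ SM x e ∧ (w : kappa P) * toKappa P b = toKappa P a

include T hP in
omit [IsNoetherianRing A] in
theorem SM_kappa {a : A} (ha : a ∈ SM x e) : toKappa P a ≠ 0 := by
  induction ha using Submonoid.closure_induction with
  | mem a ha =>
    rw [Ne, kappa_iff hP]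
    obtain ⟨_, ha | ha⟩ := ha
    · exact T.not_dvd ha
    · rw [ha]; exact T.ndx
  | one => rw [map_one]; exact one_ne_zero
  | mul a b _ _ ha hb => rw [map_mul]; exact mul_ne_zero ha hb

include T hP in
omit [IsNoetherianRing A] in
theorem exists_isLift (w : (kappa P)ˣ) : ∃ a b : A, IsLift x e P w a b := by
  obtain ⟨b, d, hb, hd, rfl⟩ := exists_frac P w
  have hb' : ¬ p ∣ b := by rwa [hP, Ideal.mem_span_singleton] at hb
  have hd' : ¬ p ∣ d := by rwa [hP, Ideal.mem_span_singleton] at hd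
  obtain ⟨r, f, h, hf, hbf⟩ := T.red b hb'
  obtain ⟨r', f', h', hf', hdf⟩ := T.red d hd'
  have hp0 : toKappa P p = 0 := (kappa_iff hP p).mpr dvd_rfl
  have e1 : toKappa P b = toKappa P (x ^ r * f) := by
    rw [hbf, map_add, map_mul _ p, hp0, zero_mul, add_zero]
  have e2 : toKappa P d = toKappa P (x ^ r' * f') := by
    rw [hdf, map_add, map_mul _ p, hp0, zero_mul, add_zero]
  refine ⟨x ^ r * f, x ^ r' * f', T.mem_SM r hf, T.mem_SM r' hf', ?_⟩
  rw [← e1, ← e2]
  exact ru_div (toKappa P) (toKappa_ne_zero P hb) (toKappa_ne_zero P hd)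

/-- The class of a lift. -/
def thetaVal (w : (kappa P)ˣ) : Lam x e ⧸ I :=
  Ideal.Quotient.mk I (⟨_, SM_c (exists_isLift T hP w).choose_spec.choose_spec.1⟩ -
    ⟨_, SM_c (exists_isLift T hP w).choose_spec.choose_spec.2.1⟩)

include hI in
theorem thetaVal_eq {w : (kappa P)ˣ} {a b : A} (h : IsLift x e P w a b) :
    thetaVal T hP I w = Ideal.Quotient.mk I (⟨_, SM_c h.1⟩ - ⟨_, SM_c h.2.1⟩) := by
  have h' := (exists_isLift T hP w).choose_spec.choose_spec
  set a' := (exists_isLift T hP w).choose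
  set b' := (exists_isLift T hP w).choose_spec.choose
  unfold thetaVal
  rw [Ideal.Quotient.eq]
  have h1 : p ∣ a' * b - a * b' := by
    rw [← kappa_iff hP, map_sub, map_mul, map_mul, ← h.2.2, ← h'.2.2]
    ring
  have h2 := hI _ _ (mul_mem h'.1 h.2.1) (mul_mem h.1 h'.2.1) h1
  have h3 : ((⟨c a', SM_c h'.1⟩ - ⟨c b', SM_c h'.2.1⟩) -
      (⟨c a, SM_c h.1⟩ - ⟨c b, SM_c h.2.1⟩) : Lam x e) =
      ⟨c (a' * b), SM_c (mul_mem h'.1 h.2.1)⟩ - ⟨c (a * b'), SM_c (mul_mem h.1 h'.2.1)⟩ := by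
    ext
    change ((c a' - c b') - (c a - c b)) = c (a' * b) - c (a * b')
    rw [c_mul (SM_ne_zero h'.1) (SM_ne_zero h.2.1), c_mul (SM_ne_zero h.1) (SM_ne_zero h'.2.1)]
    abel
  rw [h3]
  exact h2

include hI in
theorem thetaVal_mul (w w' : (kappa P)ˣ) :
    thetaVal T hP I (w * w') = thetaVal T hP I w + thetaVal T hP I w' := by
  obtain ⟨a, b, h⟩ := exists_isLift T hP w
  obtain ⟨a', b', h'⟩ := exists_isLift T hP w'
  have h2 : IsLift x e P (w * w') (a * a') (b * b') := by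
    refine ⟨mul_mem h.1 h'.1, mul_mem h.2.1 h'.2.1, ?_⟩
    rw [map_mul, map_mul, Units.val_mul, ← h.2.2, ← h'.2.2]
    ring
  rw [thetaVal_eq T hP I hI h, thetaVal_eq T hP I hI h', thetaVal_eq T hP I hI h2, ← map_add]
  congr 1
  ext
  change c (a * a') - c (b * b') = c a - c b + (c a' - c b')
  rw [c_mul (SM_ne_zero h.1) (SM_ne_zero h'.1),
    c_mul (SM_ne_zero h.2.1) (SM_ne_zero h'.2.1)]
  abel

include T hP in
/-- Three terms with sum zero modulo `p` lift to three terms with sum zero. -/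
theorem exists_exact {b d f : A} (hb : ¬ p ∣ b) (hd : ¬ p ∣ d) (hf : ¬ p ∣ f)
    (h : b + d = f) : ∃ a₁ a₂ a₃ : A, a₁ ∈ SM x e ∧ a₂ ∈ SM x e ∧ a₃ ∈ SM x e ∧
      a₁ + a₂ = a₃ ∧ toKappa P a₁ * toKappa P f = toKappa P b * toKappa P a₃ ∧
      toKappa P a₂ * toKappa P f = toKappa P d * toKappa P a₃ := by
  obtain ⟨i, u, s, hu, hbu⟩ := T.red b hb
  obtain ⟨j, v, s', hv, hdv⟩ := T.red d hd
  obtain ⟨l, w, s'', hw, hfw⟩ := T.red f hf
  have hp0 : toKappa P p = 0 := (kappa_iff hP p).mpr dvd_rfl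
  have e1 : toKappa P b = toKappa P x ^ i * toKappa P u := by
    rw [hbu, map_add, map_mul _ p, hp0, zero_mul, add_zero, map_mul, map_pow]
  have e2 : toKappa P d = toKappa P x ^ j * toKappa P v := by
    rw [hdv, map_add, map_mul _ p, hp0, zero_mul, add_zero, map_mul, map_pow]
  have e3 : toKappa P f = toKappa P x ^ l * toKappa P w := by
    rw [hfw, map_add, map_mul _ p, hp0, zero_mul, add_zero, map_mul, map_pow]
  have hxP : toKappa P x ≠ 0 := by rw [Ne, kappa_iff hP]; exact T.ndx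
  obtain ⟨n, i', j', l', rfl, rfl, rfl, hmin⟩ : ∃ n i' j' l', i = n + i' ∧ j = n + j' ∧
      l = n + l' ∧ (i' = 0 ∨ j' = 0 ∨ l' = 0) :=
    ⟨min i (min j l), i - min i (min j l), j - min i (min j l), l - min i (min j l),
      by omega, by omega, by omega, by omega⟩
  have hdvd : p ∣ x ^ i' * u + x ^ j' * v - x ^ l' * w := by
    have h1 : p ∣ x ^ n * (x ^ i' * u + x ^ j' * v - x ^ l' * w) := by
      refine ⟨s'' - s - s', ?_⟩
      linear_combination -hbu - hdv + hfw + h
    exact (T.prime.dvd_or_dvd h1).resolve_left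
      fun h2 => T.ndx (T.prime.dvd_of_dvd_pow h2)
  obtain ⟨t, ht⟩ := hdvd
  have fin : ∀ {a₁ a₂ a₃ : A}, a₁ ∈ SM x e → a₂ ∈ SM x e → a₃ ∈ SM x e → a₁ + a₂ = a₃ →
      toKappa P a₁ = toKappa P x ^ i' * toKappa P u →
      toKappa P a₂ = toKappa P x ^ j' * toKappa P v →
      toKappa P a₃ = toKappa P x ^ l' * toKappa P w →
      ∃ a₁ a₂ a₃ : A, a₁ ∈ SM x e ∧ a₂ ∈ SM x e ∧ a₃ ∈ SM x e ∧
      a₁ + a₂ = a₃ ∧ toKappa P a₁ * toKappa P f = toKappa P b * toKappa P a₃ ∧
      toKappa P a₂ * toKappa P f = toKappa P d * toKappa P a₃ := by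
    intro a₁ a₂ a₃ h1 h2 h3 h4 h5 h6 h7
    refine ⟨a₁, a₂, a₃, h1, h2, h3, h4, ?_, ?_⟩
    · rw [h5, h7, e1, e3]; ring
    · rw [h6, h7, e2, e3]; ring
  rcases hmin with rfl | rfl | rfl
  · obtain ⟨h1, _⟩ := change_small T.xm T.he T.mem T.prime.ne_zero hu (-t)
    refine fin (a₁ := u + p * (-t)) (small_mem h1) (T.mem_SM j' hv) (T.mem_SM l' hw) ?_ ?_ ?_ ?_
    · linear_combination ht
    · rw [map_add, map_mul, hp0, zero_mul, add_zero, pow_zero, one_mul]
    · rw [map_mul, map_pow]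
    · rw [map_mul, map_pow]
  · obtain ⟨h1, _⟩ := change_small T.xm T.he T.mem T.prime.ne_zero hv (-t)
    refine fin (a₂ := v + p * (-t)) (T.mem_SM i' hu) (small_mem h1) (T.mem_SM l' hw) ?_ ?_ ?_ ?_
    · linear_combination ht
    · rw [map_mul, map_pow]
    · rw [map_add, map_mul, hp0, zero_mul, add_zero, pow_zero, one_mul]
    · rw [map_mul, map_pow]
  · obtain ⟨h1, _⟩ := change_small T.xm T.he T.mem T.prime.ne_zero hw t
    refine fin (a₃ := w + p * t) (T.mem_SM i' hu) (T.mem_SM j' hv) (small_mem h1) ?_ ?_ ?_ ?_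
    · linear_combination ht
    · rw [map_mul, map_pow]
    · rw [map_mul, map_pow]
    · rw [map_add, map_mul, hp0, zero_mul, add_zero, pow_zero, one_mul]

include hI in
theorem thetaVal_steinberg (w w' : (kappa P)ˣ) (hww : (w : kappa P) + w' = 1) :
    thetaVal T hP I w * thetaVal T hP I w' = 0 := by
  obtain ⟨b, d, hb, hd, hw⟩ := exists_frac P w
  have hwd : (w : kappa P) * toKappa P d = toKappa P b := by
    rw [hw]; exact ru_div (toKappa P) (toKappa_ne_zero P hb) (toKappa_ne_zero P hd)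
  have hd0 := toKappa_ne_zero P hd
  have hwd' : (w' : kappa P) * toKappa P d = toKappa P (d - b) := by
    rw [map_sub, ← hwd]
    linear_combination (toKappa P d) * hww
  have hdb : d - b ∉ P.asIdeal := by
    rw [← toKappa_eq_zero_iff, ← hwd']
    exact mul_ne_zero w'.ne_zero hd0
  have n1 : ¬ p ∣ b := by rwa [hP, Ideal.mem_span_singleton] at hb
  have n2 : ¬ p ∣ d - b := by rwa [hP, Ideal.mem_span_singleton] at hdb
  have n3 : ¬ p ∣ d := by rwa [hP, Ideal.mem_span_singleton] at hd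
  obtain ⟨a₁, a₂, a₃, h1, h2, h3, h4, h5, h6⟩ := exists_exact T hP n1 n2 n3 (by ring)
  have l1 : IsLift x e P w a₁ a₃ := by
    refine ⟨h1, h3, ?_⟩
    apply mul_right_cancel₀ hd0
    rw [h5, ← hwd]; ring
  have l2 : IsLift x e P w' a₂ a₃ := by
    refine ⟨h2, h3, ?_⟩
    apply mul_right_cancel₀ hd0
    rw [h6, ← hwd']; ring
  rw [thetaVal_eq T hP I hI l1, thetaVal_eq T hP I hI l2, ← map_mul]
  have h7 : ((⟨_, SM_c h1⟩ - ⟨_, SM_c h3⟩ : Lam x e) * (⟨_, SM_c h2⟩ - ⟨_, SM_c h3⟩)) = 0 := by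
    ext
    exact c_steinberg (SM_ne_zero h1) (SM_ne_zero h2) (SM_ne_zero h3) h4
  rw [h7, map_zero]

/-- The homomorphism from the Milnor ring of the residue field. -/
def Th : KM (kappa P) →+* Lam x e ⧸ I :=
  lift (thetaVal T hP I) (thetaVal_mul T hP I hI) (thetaVal_steinberg T hP I hI)

theorem Th_spz (z : KM (FractionRing A)) (hz : z ∈ Lam x e) :
    Th T hP I hI (spz T.prime (kappa_iff hP) z) = Ideal.Quotient.mk I ⟨z, hz⟩ := by
  induction hz using Subring.closure_induction with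
  | mem z hz =>
    obtain ⟨a, ha, rfl⟩ := hz
    have ha' : a ∈ SM x e := Submonoid.subset_closure ha
    have h1 : toKappa P a ≠ 0 := SM_kappa T hP ha'
    unfold c
    rw [spz_cls T.prime (kappa_iff hP) h1, cls_ru _ h1, Th, lift_sym]
    have h2 : IsLift x e P (ru (toKappa P) h1) a 1 := by
      refine ⟨ha', one_mem _, ?_⟩
      rw [map_one, mul_one, ru_val]
    rw [thetaVal_eq T hP I hI h2]
    congr 1
    ext
    change c a - c 1 = c a
    rw [c_one, sub_zero]
  | zero => rw [map_zero, map_zero]; exact (map_zero _).symm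
  | one => rw [map_one, map_one]; exact (map_one _).symm
  | add x y _ _ hx hy => rw [map_add, map_add, hx, hy, ← map_add]; rfl
  | neg x _ hx => rw [map_neg, map_neg, hx, ← map_neg]; rfl
  | mul x y _ _ hx hy => rw [map_mul, map_mul, hx, hy, ← map_mul]; rfl

include T hP hI in
/-- Elements with trivial specialization. -/
theorem key_fact' {z : KM (FractionRing A)} (hz : z ∈ Lam x e)
    (h : spz T.prime (kappa_iff hP) z = 0) : (⟨z, hz⟩ : Lam x e) ∈ I := by
  have h1 := Th_spz T hP I hI z hz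
  rw [h, map_zero] at h1
  exact Ideal.Quotient.eq_zero_iff_mem.mp h1.symm

end theta

section theta'

variable {A : Type u} [CommRing A] [IsDomain A] [IsLocalRing A] [IsNoetherianRing A]
  {e : ℕ} {p x : A} {P : PrimeSpectrum A} (T : Trick e p x) (hP : P.asIdeal = Ideal.span {p})

include T hP in
/-- The key fact: elements with trivial specialization. -/
theorem key_fact {z : KM (FractionRing A)} (hz : z ∈ Lam x e)
    (h : spz T.prime (kappa_iff hP) z = 0) : z * c p ∈ Lam x e := by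
  have h2 := key_fact' T hP (JJ T) (fun a b ha hb hab => T.congr ha hb hab) hz h
  exact (mem_JJ T _).mp h2

/-- The residue of products with elements of the subring. -/
theorem rsd_Lam {g : A} {κ : Type u} [Field κ] {r : A →+* κ} (hg : Prime g)
    (hr : ∀ a, r a = 0 ↔ g ∣ a) (hge : g ∈ J x e) (hgx : ¬ g ∣ x) {z : KM (FractionRing A)}
    (hz : z ∈ Lam x e) : ∀ w, rsd hg hr (z * w) = sgn κ (spz hg hr z) * rsd hg hr w := by
  induction hz using Subring.closure_induction with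
  | mem z hz =>
    obtain ⟨a, ha, rfl⟩ := hz
    intro w
    have h1 : r a ≠ 0 := by
      rw [Ne, hr]
      intro hga
      obtain ⟨_, ha | ha⟩ := ha
      · obtain ⟨s, rfl⟩ := hga
        exact ha (Ideal.mul_mem_right _ _ hge)
      · rw [ha] at hga
        exact hgx hga
    unfold c
    rw [rsd_unit hg hr h1, spz_cls hg hr h1, cls_ru r h1, sgn_sym, neg_mul]
  | zero => intro w; rw [zero_mul, map_zero, map_zero, map_zero, zero_mul]
  | one => intro w; rw [one_mul, map_one, map_one, one_mul]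
  | add x y _ _ hx hy => intro w; rw [add_mul, map_add, hx, hy, map_add, map_add, add_mul]
  | neg x _ hx => intro w; rw [neg_mul, map_neg, hx, map_neg, map_neg, neg_mul]
  | mul x y _ _ hx hy => intro w; rw [mul_assoc, hx, hy, map_mul, map_mul, mul_assoc]

end theta'

end Vale.Agent.P178M
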