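import Vale.Agent.P178.H270.Deg

/-!
The elements of the Milnor ring of degree at most three with trivial residues.
-/

universe u

noncomputable section

namespace Vale.Agent.P178M

open Vale.Agent.P178.Gersten IsLocalRing P178.Surf

section loc

variable {A : Type u} [CommRing A] [IsDomain A] [IsLocalRing A]

theorem UF_neg_one : c (-1 : A) ∈ UF A := by
  have := UF_c (A := A) (-1)
  rwa [Units.val_neg, Units.val_one] at this

theorem UF_of_isUnit {a : A} (ha : IsUnit a) : c a ∈ UF A := by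
  obtain ⟨u, rfl⟩ := ha
  exact UF_c u

/-- Splitting of a unit congruent to one. -/
theorem exists_split {t : A} (ht : t ∈ maximalIdeal A) {u : Aˣ} (hu : t ∣ (u : A) - 1) :
    (∃ b, IsUnit b ∧ 1 + t * b = u) ∨
      ∃ v w : Aˣ, u = v * w ∧ (∃ b, IsUnit b ∧ 1 + t * b = v) ∧
        ∃ b, IsUnit b ∧ 1 + t * b = w := by
  obtain ⟨b, hb⟩ := hu
  have hb1 : 1 + t * b = u := by rw [← hb]; ring
  by_cases hbu : IsUnit b
  · exact Or.inl ⟨b, hbu, hb1⟩
  · right
    have h1 : IsUnit (1 + t) := by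
      by_contra h
      have h2 := sub_mem ((mem_maximalIdeal _).mpr h) ht
      rw [add_sub_cancel_right] at h2
      exact (mem_maximalIdeal _).mp h2 isUnit_one
    obtain ⟨v, hv⟩ := h1
    have h2 : IsUnit (b - 1) := by
      by_contra h
      have h2 := sub_mem ((mem_maximalIdeal _).mpr hbu) ((mem_maximalIdeal _).mpr h)
      rw [sub_sub_cancel] at h2
      exact (mem_maximalIdeal _).mp h2 isUnit_one
    refine ⟨v, v⁻¹ * u, by rw [mul_inv_cancel_left], ⟨1, isUnit_one, by rw [mul_one, hv]⟩,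
      ((v⁻¹ : Aˣ) : A) * (b - 1), (v⁻¹).isUnit.mul h2, ?_⟩
    have h3 : ((v⁻¹ : Aˣ) : A) * v = 1 := v.inv_mul
    rw [Units.val_mul, ← hb1]
    linear_combination (-1 : A) * h3 + ((v⁻¹ : Aˣ) : A) * hv

/-- The symbol of `1 + t b` and `t`, for a unit `b`. -/
theorem unit_t {t b : A} (ht0 : t ≠ 0) (hb : IsUnit b) {u : Aˣ} (hu : 1 + t * b = u) :
    c (u : A) * c t = - (c (u : A) * c b) + c (-1) * c (u : A) := by
  have h1 := c_steinberg one_ne_zero (mul_ne_zero ht0 hb.ne_zero) u.ne_zero hu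
  rw [c_one, zero_sub, c_mul ht0 hb.ne_zero, neg_mul, neg_eq_zero, mul_sub, mul_add,
    c_sq u.ne_zero] at h1
  have h2 := sub_eq_zero.mp h1
  rw [← h2]
  abel

theorem unit_t_mem {t : A} (ht : t ∈ maximalIdeal A) (ht0 : t ≠ 0) {u : Aˣ}
    (hu : t ∣ (u : A) - 1) : c (u : A) * c t ∈ UF A := by
  have key : ∀ v : Aˣ, (∃ b, IsUnit b ∧ 1 + t * b = v) → c (v : A) * c t ∈ UF A := by
    rintro v ⟨b, hb, hv⟩
    rw [unit_t ht0 hb hv]
    exact add_mem (neg_mem (mul_mem (UF_c v) (UF_of_isUnit hb))) (mul_mem UF_neg_one (UF_c v))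
  rcases exists_split ht hu with h | ⟨v, w, rfl, hv, hw⟩
  · exact key u h
  · rw [c_units_mul, add_mul]
    exact add_mem (key v hv) (key w hw)

theorem t_unit_mem {t : A} (ht : t ∈ maximalIdeal A) (ht0 : t ≠ 0) {u : Aˣ}
    (hu : t ∣ (u : A) - 1) : c t * c (u : A) ∈ UF A := by
  rw [c_anticomm ht0 u.ne_zero]
  exact neg_mem (unit_t_mem ht ht0 hu)

/-- The triple symbol. -/
theorem triple_mem {x y : A} (hx : x ∈ maximalIdeal A) (hx0 : x ≠ 0) (hy0 : y ≠ 0)
    {u : Aˣ} (hu : x * y ∣ (u : A) - 1) :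
    c x * (c (u : A) * c y) ∈ UF A := by
  have hxy : x * y ∈ maximalIdeal A := Ideal.mul_mem_right _ _ hx
  have hxy0 : x * y ≠ 0 := mul_ne_zero hx0 hy0
  have key : ∀ v : Aˣ, (∃ b, IsUnit b ∧ 1 + x * y * b = v) →
      c x * (c (v : A) * c y) ∈ UF A := by
    rintro v ⟨b, hb, hv⟩
    have hxv : x ∣ (v : A) - 1 := ⟨y * b, by rw [← hv]; ring⟩
    have h1 := unit_t hxy0 hb hv
    rw [c_mul hx0 hy0, mul_add] at h1
    have h2 : c (v : A) * c y = (- (c (v : A) * c b) + c (-1) * c (v : A)) -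
        c (v : A) * c x := by
      rw [← h1]; abel
    have m1 := t_unit_mem hx hx0 hxv
    have m2 := unit_t_mem hx hx0 hxv
    have e1 : c x * (c (v : A) * c b) = (c x * c (v : A)) * c b := (mul_assoc _ _ _).symm
    have e2 : c x * (c (-1) * c (v : A)) = - (c (-1) * (c x * c (v : A))) := by
      rw [← mul_assoc, c_anticomm hx0 (neg_ne_zero.mpr one_ne_zero), neg_mul, mul_assoc]
    have e3 : c x * (c (v : A) * c x) = - (c (v : A) * (c (-1) * c x)) := by
      rw [← mul_assoc, c_anticomm hx0 v.ne_zero, neg_mul, mul_assoc, c_sq hx0]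
    have e4 : c (v : A) * (c (-1) * c x) = - (c (-1) * (c (v : A) * c x)) := by
      rw [← mul_assoc, c_anticomm v.ne_zero (neg_ne_zero.mpr one_ne_zero), neg_mul, mul_assoc]
    rw [h2, mul_sub, mul_add, mul_neg, e1, e2, e3, e4]
    refine sub_mem (add_mem (neg_mem (mul_mem m1 (UF_of_isUnit hb)))
      (neg_mem (mul_mem UF_neg_one m1))) (neg_mem (neg_mem (mul_mem UF_neg_one m2)))
  rcases exists_split hxy hu with h | ⟨v, w, rfl, hv, hw⟩
  · exact key u h
  · rw [c_units_mul, add_mul, mul_add]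
    exact add_mem (key v hv) (key w hw)

/-- The units congruent to one modulo `x`. -/
def Ux (x : A) : Subgroup Aˣ :=
  (Units.map (Ideal.Quotient.mk (Ideal.span {x})).toMonoidHom).ker

theorem mem_Ux {x : A} {u : Aˣ} : u ∈ Ux x ↔ x ∣ (u : A) - 1 := by
  rw [Ux, MonoidHom.mem_ker, ← Ideal.mem_span_singleton, ← Ideal.Quotient.eq, Units.ext_iff]
  simp

/-- The ideal generated by the classes of the units congruent to one modulo `x`. -/
def AA (x y : A) : AddSubgroup (KM (FractionRing A)) :=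
  AddSubgroup.closure {w | ∃ u ∈ Ux x, ∃ v ∈ Lam y 1, w = c (u : A) * v}

theorem AA_left {x y : A} {v w : KM (FractionRing A)} (hv : v ∈ Lam y 1) (hw : w ∈ AA x y) :
    v * w ∈ AA x y := by
  induction hw using AddSubgroup.closure_induction with
  | mem w hw =>
    obtain ⟨u, hu, v', hv', rfl⟩ := hw
    obtain ⟨v'', hv'', h1, _⟩ := Lam_comm u.ne_zero hv
    rw [← mul_assoc, h1, mul_assoc]
    exact AddSubgroup.subset_closure ⟨u, hu, _, mul_mem hv'' hv', rfl⟩
  | zero => rw [mul_zero]; exact zero_mem _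
  | add x y _ _ hx hy => rw [mul_add]; exact add_mem hx hy
  | neg x _ hx => rw [mul_neg]; exact neg_mem hx

theorem AA_right {x y : A} {v w : KM (FractionRing A)} (hv : v ∈ Lam y 1) (hw : w ∈ AA x y) :
    w * v ∈ AA x y := by
  induction hw using AddSubgroup.closure_induction with
  | mem w hw =>
    obtain ⟨u, hu, v', hv', rfl⟩ := hw
    rw [mul_assoc]
    exact AddSubgroup.subset_closure ⟨u, hu, _, mul_mem hv' hv, rfl⟩
  | zero => rw [zero_mul]; exact zero_mem _
  | add x y _ _ hx hy => rw [add_mul]; exact add_mem hx hy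
  | neg x _ hx => rw [neg_mul]; exact neg_mem hx

/-- The same ideal, as an ideal. -/
def aa (x y : A) : Ideal (Lam y 1) where
  carrier := {z | (z : KM (FractionRing A)) ∈ AA x y}
  add_mem' := fun {a b} ha hb => by
    change ((a + b : Lam y 1) : KM (FractionRing A)) ∈ AA x y
    rw [Subring.coe_add]
    exact add_mem ha hb
  zero_mem' := by
    change ((0 : Lam y 1) : KM (FractionRing A)) ∈ AA x y
    rw [Subring.coe_zero]
    exact zero_mem _
  smul_mem' := fun a {b} hb => by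
    change ((a * b : Lam y 1) : KM (FractionRing A)) ∈ AA x y
    rw [Subring.coe_mul]
    exact AA_left a.2 hb

theorem mem_aa {x y : A} (z : Lam y 1) : z ∈ aa x y ↔ (z : KM (FractionRing A)) ∈ AA x y :=
  Iff.rfl

instance instTwoSidedAa (x y : A) : (aa x y).IsTwoSided := ⟨by
  intro a b ha
  rw [mem_aa] at ha ⊢
  rw [Subring.coe_mul]
  exact AA_right b.2 ha⟩

/-- The products of small elements of order zero. -/
theorem SM_one_form {y a : A} (ha : a ∈ SM y 1) : ∃ (i : ℕ) (u : Aˣ), a = y ^ i * u := by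
  induction ha using Submonoid.closure_induction with
  | mem a ha =>
    obtain ⟨_, ha | rfl⟩ := ha
    · obtain ⟨u, hu⟩ := isUnit_of_notMem_J ha
      exact ⟨0, u, by rw [hu]; simp⟩
    · exact ⟨1, 1, by simp⟩
  | one => exact ⟨0, 1, by simp⟩
  | mul a b _ _ ha hb =>
    obtain ⟨i, u, rfl⟩ := ha
    obtain ⟨j, v, rfl⟩ := hb
    exact ⟨i + j, u * v, by rw [Units.val_mul]; ring⟩

/-- Congruent products of small elements differ by a unit congruent to one. -/
theorem SM_one_congr {x y a b : A} (hx : Prime x) (hxm : x ∈ maximalIdeal A)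
    (hym : y ∈ maximalIdeal A) (hxy : ¬ x ∣ y) (ha : a ∈ SM y 1) (hb : b ∈ SM y 1)
    (hab : x ∣ a - b) : ∃ u ∈ Ux x, c a - c b = c ((u : Aˣ) : A) := by
  have hy0 : y ≠ 0 := by
    rintro rfl
    exact hxy (dvd_zero x)
  have hunit : ∀ {u : Aˣ} {s : A}, s ∈ maximalIdeal A → ¬ x ∣ (u : A) - s := by
    rintro u s hs ⟨t, ht⟩
    have h1 : (u : A) ∈ maximalIdeal A := by
      have : (u : A) = x * t + s := by rw [← ht]; ring
      rw [this]
      exact add_mem (Ideal.mul_mem_right _ _ hxm) hs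
    exact (mem_maximalIdeal _).mp h1 u.isUnit
  obtain ⟨i, u, rfl⟩ := SM_one_form ha
  obtain ⟨j, v, rfl⟩ := SM_one_form hb
  have hcancel : ∀ (n : ℕ) (s : A), x ∣ y ^ n * s → x ∣ s := fun n s h =>
    (hx.dvd_or_dvd h).resolve_left fun h' => hxy (hx.dvd_of_dvd_pow h')
  have hij : i = j := by
    rcases lt_trichotomy i j with h | h | h
    · exfalso
      obtain ⟨k, rfl⟩ := Nat.exists_eq_add_of_lt h
      have h1 : y ^ i * (u : A) - y ^ (i + k + 1) * v = y ^ i * ((u : A) - y ^ (k + 1) * v) := by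
        ring
      rw [h1] at hab
      exact hunit (Ideal.mul_mem_right _ _ (Ideal.pow_mem_of_mem _ hym _ (Nat.succ_pos k)))
        (hcancel _ _ hab)
    · exact h
    · exfalso
      obtain ⟨k, rfl⟩ := Nat.exists_eq_add_of_lt h
      have h1 : y ^ (j + k + 1) * (u : A) - y ^ j * v =
          y ^ j * (-((v : A) - y ^ (k + 1) * u)) := by
        ring
      rw [h1] at hab
      exact hunit (Ideal.mul_mem_right _ _ (Ideal.pow_mem_of_mem _ hym _ (Nat.succ_pos k)))
        ((dvd_neg).mp (hcancel _ _ hab))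
  subst hij
  refine ⟨u * v⁻¹, ?_, ?_⟩
  · rw [mem_Ux]
    have h1 : y ^ i * (u : A) - y ^ i * v = y ^ i * ((u : A) - v) := by ring
    rw [h1] at hab
    have h2 := hcancel _ _ hab
    have h3 : ((u * v⁻¹ : Aˣ) : A) - 1 = ((u : A) - v) * ((v⁻¹ : Aˣ) : A) := by
      rw [sub_mul, Units.mul_inv, Units.val_mul]
    rw [h3]
    exact Dvd.dvd.mul_right h2 _
  · rw [c_mul (pow_ne_zero i hy0) u.ne_zero, c_mul (pow_ne_zero i hy0) v.ne_zero, c_units_mul,
      c_units_inv]
    abel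

/-- The degree two part of the ideal. -/
theorem AA_pr_two {x y : A} {z : KM (FractionRing A)} (hz : z ∈ AA x y) :
    ∃ α ∈ AddSubgroup.closure {w : KM (FractionRing A) | ∃ u ∈ Ux x, ∃ v : Aˣ,
      w = c (u : A) * c (v : A)}, ∃ u ∈ Ux x, pr 2 z = α + c ((u : Aˣ) : A) * c y := by
  induction hz using AddSubgroup.closure_induction with
  | mem z hz =>
    obtain ⟨u, hu, v, hv, rfl⟩ := hz
    obtain ⟨v₀, h0, v₁, h1, rfl⟩ := Lam_one_nf hv
    obtain ⟨w, hw⟩ := UW_one (UF_pr h0 1)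
    obtain ⟨m, hm⟩ := UW_zero (UF_pr h1 0)
    refine ⟨c (u : A) * c (w : A), AddSubgroup.subset_closure ⟨u, hu, w, rfl⟩, u ^ m,
      zpow_mem hu m, ?_⟩
    have e1 : pr 2 (c (u : A) * (v₀ + c y * v₁)) = c (u : A) * pr 1 (v₀ + c y * v₁) :=
      pr_cls_mul_succ 1 _ _
    have e2 : pr 1 (c y * v₁) = c y * pr 0 v₁ := pr_cls_mul_succ 0 _ _
    rw [e1, map_add, e2, hw, hm, mul_add, c_units_zpow, (Int.cast_commute m (c y)).eq.symm,
      ← mul_assoc, ← (Int.cast_commute m (c (u : A))).eq, mul_assoc]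
  | zero =>
    exact ⟨0, zero_mem _, 1, one_mem _, by rw [map_zero, Units.val_one, c_one]; simp⟩
  | add a b _ _ ha hb =>
    obtain ⟨α, hα, u, hu, h1⟩ := ha
    obtain ⟨β, hβ, v, hv, h2⟩ := hb
    exact ⟨α + β, add_mem hα hβ, u * v, mul_mem hu hv, by
      rw [map_add, h1, h2, c_units_mul, add_mul]; abel⟩
  | neg a _ ha =>
    obtain ⟨α, hα, u, hu, h1⟩ := ha
    exact ⟨-α, neg_mem hα, u⁻¹, inv_mem hu, by
      rw [map_neg, h1, c_units_inv, neg_mul]; abel⟩

end loc

end Vale.Agent.P178M
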