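import Vale.Agent.P178.H270.Cx

/-!
The cokernel of the boundary of the Milnor part of the Gersten complex of a two-dimensional
regular local ring.
-/

universe u

noncomputable section

namespace Vale.Agent.P178M

open Vale.Agent.P178.Gersten IsLocalRing
open scoped DirectSum

variable {A : Type u} [CommRing A] [IsRegularLocalRing A] [IsDomain A]
variable {d : (P : Pt A 1) → KM (FractionRing A) →+ KM (kappa P.P)}

/-- The quotient by the boundaries. -/
abbrev Quo (d : (P : Pt A 1) → KM (FractionRing A) →+ KM (kappa P.P)) : Type u :=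
  Tot A ⧸ boundaries d

theorem lm_boundaries (hdim : ringKrullDim A = 2) (hd : ∀ P : Pt A 1, IsResidue P.P (d P))
    (v : Aˣ) : boundaries d ≤ (boundaries d).comap (lm v) := by
  rintro t ⟨z, hz⟩
  refine ⟨-(cls (algebraMap A _ (v : A)) * z), fun P => ?_⟩
  rw [lm_apply, hz P, map_neg, d_unit hdim (hd P) (unit_notMem P.P v), neg_neg]

/-- Left multiplication by a unit of `A` on the quotient by the boundaries. -/
def lq (hdim : ringKrullDim A = 2) (hd : ∀ P : Pt A 1, IsResidue P.P (d P)) (v : Aˣ) :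
    Quo d →+ Quo d :=
  QuotientAddGroup.map (boundaries d) (boundaries d) (lm v) (lm_boundaries hdim hd v)

variable (hdim : ringKrullDim A = 2) (hd : ∀ P : Pt A 1, IsResidue P.P (d P))

theorem lq_cl (v : Aˣ) (t : Tot A) : lq hdim hd v (cl d t) = cl d (lm v t) := rfl

theorem lq_mul (v w : Aˣ) (q : Quo d) :
    lq hdim hd (v * w) q = lq hdim hd v q + lq hdim hd w q := by
  obtain ⟨t, rfl⟩ := cl_surjective q
  rw [lq_cl, lq_cl, lq_cl, lm_mul, map_add]

theorem lq_comm (v w : Aˣ) (q : Quo d) :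
    lq hdim hd v (lq hdim hd w q) = - lq hdim hd w (lq hdim hd v q) := by
  obtain ⟨t, rfl⟩ := cl_surjective q
  rw [lq_cl, lq_cl, lq_cl, lq_cl, lm_comm, map_neg]

theorem lq_steinberg (v w : Aˣ) (h : (v : A) + w = 1) (q : Quo d) :
    lq hdim hd v (lq hdim hd w q) = 0 := by
  obtain ⟨t, rfl⟩ := cl_surjective q
  rw [lq_cl, lq_cl, lm_steinberg v w h, map_zero]

/-- The product of the operators of a list of units, applied to `c`. -/
def wd (c : Quo d) (l : List Aˣ) : Quo d := l.foldr (fun v q => lq hdim hd v q) c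

theorem wd_nil (c : Quo d) : wd hdim hd c [] = c := rfl

theorem wd_cons (c : Quo d) (v : Aˣ) (l : List Aˣ) :
    wd hdim hd c (v :: l) = lq hdim hd v (wd hdim hd c l) := rfl

/-- The subgroup generated by `c` and the operators. -/
def gen (c : Quo d) : AddSubgroup (Quo d) :=
  AddSubgroup.closure (Set.range (wd hdim hd c))

theorem wd_mem (c : Quo d) (l : List Aˣ) : wd hdim hd c l ∈ gen hdim hd c :=
  AddSubgroup.subset_closure ⟨l, rfl⟩

theorem lq_mem (c : Quo d) (v : Aˣ) {q : Quo d} (hq : q ∈ gen hdim hd c) :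
    lq hdim hd v q ∈ gen hdim hd c := by
  induction hq using AddSubgroup.closure_induction with
  | mem z hz =>
    obtain ⟨l, rfl⟩ := hz
    rw [← wd_cons]
    exact wd_mem hdim hd c _
  | zero => rw [map_zero]; exact zero_mem _
  | add x y _ _ hx hy => rw [map_add]; exact add_mem hx hy
  | neg x _ hx => rw [map_neg]; exact neg_mem hx

omit [IsDomain A] [IsRegularLocalRing A] in
/-- Elements of the residue field of `P` are fractions. -/
theorem exists_frac (P : PrimeSpectrum A) (w : (kappa P)ˣ) :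
    ∃ b c : A, ∃ (hb : b ∉ P.asIdeal) (hc : c ∉ P.asIdeal), w = ku P hb * (ku P hc)⁻¹ := by
  obtain ⟨⟨r, s⟩, h⟩ := IsLocalization.surj (S := FractionRing (A ⧸ P.asIdeal))
    (nonZeroDivisors (A ⧸ P.asIdeal)) (w : kappa P)
  simp only at h
  obtain ⟨b, rfl⟩ := Ideal.Quotient.mk_surjective r
  obtain ⟨c, hc⟩ := Ideal.Quotient.mk_surjective (s : A ⧸ P.asIdeal)
  have hc' : c ∉ P.asIdeal := by
    intro h1
    rw [Ideal.Quotient.eq_zero_iff_mem.mpr h1] at hc
    exact nonZeroDivisors.ne_zero s.2 hc.symm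
  rw [← hc] at h
  have h2 : (w : kappa P) * toKappa P c = toKappa P b := h
  have hb' : b ∉ P.asIdeal := by
    intro h1
    rw [(toKappa_eq_zero_iff P b).mpr h1] at h2
    exact mul_ne_zero w.ne_zero (toKappa_ne_zero P hc') h2
  refine ⟨b, c, hb', hc', ?_⟩
  rw [eq_mul_inv_iff_mul_eq]
  ext
  rw [Units.val_mul, ku_val, ku_val, h2]

omit [IsDomain A] [IsRegularLocalRing A] in
/-- A criterion for generation of the multiplicative group of the residue field. -/
theorem closure_kappa (P : PrimeSpectrum A) (L : Set A)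
    (h : ∀ a, a ∉ P.asIdeal → ∃ u ∈ Subgroup.closure {w : (kappa P)ˣ | ∃ b ∈ L,
      (w : kappa P) = toKappa P b}, (u : kappa P) = toKappa P a) :
    Subgroup.closure {w : (kappa P)ˣ | ∃ b ∈ L, (w : kappa P) = toKappa P b} = ⊤ := by
  rw [eq_top_iff]
  intro w _
  obtain ⟨b, c, hb, hc, rfl⟩ := exists_frac P w
  obtain ⟨u, hu, hu'⟩ := h b hb
  obtain ⟨v, hv, hv'⟩ := h c hc
  have e1 : u = ku P hb := Units.ext hu'
  have e2 : v = ku P hc := Units.ext hv'
  rw [← e1, ← e2]
  exact mul_mem hu (inv_mem hv)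

include hdim hd in
/-- The points of order one. -/
theorem order_one {x y : A} (h : maximalIdeal A = Ideal.span {x, y}) (hx : Prime x) {c : Quo d}
    (hc : cl d (inj (pt hx) (cls (toKappa (pt hx).P y))) = c) :
    ∀ z : KM (kappa (pt hx).P), cl d (inj (pt hx) z) ∈ gen hdim hd c := by
  set P := pt hx with hP
  obtain ⟨_, hxy, _⟩ := P178.Surf.quotient_facts hdim h
  have hyP : y ∉ P.P.asIdeal := by rwa [hP, pt_ideal, Ideal.mem_span_singleton]
  have hgen : Subgroup.closure {w : (kappa P.P)ˣ | ∃ b ∈ ({b | IsUnit b ∨ b = y} : Set A),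
      (w : kappa P.P) = toKappa P.P b} = ⊤ := by
    apply closure_kappa
    intro a ha
    have ha' : ¬ x ∣ a := by rwa [hP, pt_ideal, Ideal.mem_span_singleton] at ha
    obtain ⟨r, f, b, hf, hab⟩ := P178.Surf.exists_reduction (e := 0) (x := y) hx.not_isUnit
      (by
        intro f hf
        rw [zero_add, pow_one, h, Ideal.mem_span_pair] at hf
        obtain ⟨s, t, rfl⟩ := hf
        exact ⟨t, by simp, s, by ring⟩) (mem_right h) ha'
    have hfu : IsUnit f := by
      by_contra hfu
      exact hf (by rw [zero_add, pow_one]; exact (mem_maximalIdeal _).mpr hfu)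
    have hfP : f ∉ P.P.asIdeal := fun h1 =>
      P.P.isPrime.ne_top (P.P.asIdeal.eq_top_of_isUnit_mem h1 hfu)
    have m1 : ku P.P hyP ∈ Subgroup.closure {w : (kappa P.P)ˣ | ∃ b ∈
        ({b | IsUnit b ∨ b = y} : Set A), (w : kappa P.P) = toKappa P.P b} :=
      Subgroup.subset_closure ⟨y, Or.inr rfl, rfl⟩
    have m2 : ku P.P hfP ∈ Subgroup.closure {w : (kappa P.P)ˣ | ∃ b ∈
        ({b | IsUnit b ∨ b = y} : Set A), (w : kappa P.P) = toKappa P.P b} :=
      Subgroup.subset_closure ⟨f, Or.inl hfu, rfl⟩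
    refine ⟨ku P.P hyP ^ r * ku P.P hfP, mul_mem (pow_mem m1 _) m2, ?_⟩
    have hx0 : toKappa P.P x = 0 :=
      (toKappa_eq_zero_iff _ _).mpr (Ideal.mem_span_singleton_self x)
    rw [Units.val_mul, Units.val_pow_eq_pow_val, ku_val, ku_val, hab, map_add, map_mul,
      map_mul, map_pow, hx0, zero_mul, add_zero]
  have hmain : ∀ z : KM (kappa P.P), cl d (inj P z) ∈ gen hdim hd c ∧
      cl d (inj P (cls (toKappa P.P y) * z)) ∈ gen hdim hd c := by
    have hmv : ∀ (v : Aˣ) (z : KM (kappa P.P)), cl d (inj P z) ∈ gen hdim hd c →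
        cl d (inj P (cls (toKappa P.P (v : A)) * z)) ∈ gen hdim hd c := by
      intro v z hz
      rw [← lm_inj, ← lq_cl hdim hd]
      exact lq_mem hdim hd c v hz
    refine induction hgen ?_ ?_ ?_ ?_
    · intro a b ha hb
      rw [mul_add, map_add, map_add, map_add, map_add]
      exact ⟨add_mem ha.1 hb.1, add_mem ha.2 hb.2⟩
    · intro a ha
      rw [mul_neg, map_neg, map_neg, map_neg, map_neg]
      exact ⟨neg_mem ha.1, neg_mem ha.2⟩
    · rw [mul_one]
      refine ⟨?_, ?_⟩
      · have := unit_symb hdim hd P [] (by simp)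
        rw [symb_nil] at this
        rw [this]
        exact zero_mem _
      · rw [hc, ← wd_nil hdim hd c]
        exact wd_mem hdim hd _ []
    · rintro w ⟨b, hb, hwb⟩ z ⟨hz1, hz2⟩
      have hw : sym w = cls (toKappa P.P b) := by rw [← hwb, cls_unit]
      rcases hb with hb | rfl
      · have hbP : b ∉ P.P.asIdeal := fun h1 =>
          P.P.isPrime.ne_top (P.P.asIdeal.eq_top_of_isUnit_mem h1 hb)
        obtain ⟨v, rfl⟩ := hb
        refine ⟨by rw [hw]; exact hmv v z hz1, ?_⟩
        rw [← mul_assoc, cls_toKappa P.P hyP, sym_anticomm (kappa_unit P.P), neg_mul,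
          mul_assoc, ← cls_toKappa P.P hyP, map_neg, map_neg, hw]
        exact neg_mem (hmv v _ hz2)
      · refine ⟨by rw [hw]; exact hz2, ?_⟩
        have hs : sym (-1 : (kappa P.P)ˣ) = cls (toKappa P.P ((-1 : Aˣ) : A)) := by
          rw [← cls_unit]; congr 1; simp
        rw [← mul_assoc, hw, cls_toKappa P.P hyP, sym_sq (kappa_unit P.P), mul_assoc,
          ← cls_toKappa P.P hyP, hs]
        exact hmv (-1) _ hz2
  exact fun z => (hmain z).1

include hdim hd in
/-- All points. -/
theorem all_points {x₀ y₀ : A}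
    (h₀ : maximalIdeal A = Ideal.span {x₀, y₀}) (hx₀ : Prime x₀) (e : ℕ) :
    ∀ {g : A} (hg : Prime g), g ∉ P178.Surf.J x₀ (e + 1) → ∀ z : KM (kappa (pt hg).P),
      cl d (inj (pt hg) z) ∈
        gen hdim hd (cl d (inj (pt hx₀) (cls (toKappa (pt hx₀).P y₀)))) := by
  induction e with
  | zero =>
    intro g hg hg2
    exact absurd (P178.Surf.isUnit_of_notMem_J hg2) hg.not_isUnit
  | succ e ih =>
    intro g hg hg2
    by_cases hg1 : g ∈ P178.Surf.J x₀ (e + 1)
    swap
    · exact ih hg hg1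
    set P := pt hg with hP
    have hu := P178.Surf.isUFD hdim
    have hxP : x₀ ∉ P.P.asIdeal := by
      rw [hP, pt_ideal, Ideal.mem_span_singleton]
      intro h1
      have h2 : Associated g x₀ := hg.associated_of_dvd hx₀ h1
      exact hg2 (P178.Surf.dvd_mem_J _ h2.symm.dvd)
    set L : Set A := {b | (IsUnit b ∨ b = x₀ ∨ Prime b ∧ b ∉ P178.Surf.J x₀ (e + 1)) ∧
      b ∉ P.P.asIdeal} with hL
    have hgen : Subgroup.closure {w : (kappa P.P)ˣ | ∃ b ∈ L,
        (w : kappa P.P) = toKappa P.P b} = ⊤ := by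
      apply closure_kappa
      have hsmall : ∀ f : A, f ∉ P178.Surf.J x₀ (e + 1) → f ∉ P.P.asIdeal →
          ∃ u ∈ Subgroup.closure {w : (kappa P.P)ˣ | ∃ b ∈ L,
            (w : kappa P.P) = toKappa P.P b}, (u : kappa P.P) = toKappa P.P f := by
        intro f
        refine UniqueFactorizationMonoid.induction_on_prime f ?_ ?_ ?_
        · intro _ h2
          exact absurd (Ideal.zero_mem _) h2
        · intro v hv _ h2
          exact ⟨ku P.P h2, Subgroup.subset_closure ⟨v, ⟨Or.inl hv, h2⟩, rfl⟩, rfl⟩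
        · intro a p _ hp iha h1 h2
          have h3 : p ∉ P178.Surf.J x₀ (e + 1) := fun h4 => h1 (Ideal.mul_mem_right _ _ h4)
          have h4 : p ∉ P.P.asIdeal := fun h5 => h2 (Ideal.mul_mem_right _ _ h5)
          have h5 : a ∉ P178.Surf.J x₀ (e + 1) := fun h4 => h1 (Ideal.mul_mem_left _ _ h4)
          have h6 : a ∉ P.P.asIdeal := fun h5 => h2 (Ideal.mul_mem_left _ _ h5)
          obtain ⟨u, hu, hu'⟩ := iha h5 h6
          have m1 : ku P.P h4 ∈ Subgroup.closure {w : (kappa P.P)ˣ | ∃ b ∈ L,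
              (w : kappa P.P) = toKappa P.P b} :=
            Subgroup.subset_closure ⟨p, ⟨Or.inr (Or.inr ⟨hp, h3⟩), h4⟩, rfl⟩
          refine ⟨ku P.P h4 * u, mul_mem m1 hu, ?_⟩
          rw [Units.val_mul, hu', ku_val, map_mul]
      intro a ha
      have ha' : ¬ g ∣ a := by rwa [hP, pt_ideal, Ideal.mem_span_singleton] at ha
      obtain ⟨r, f, b, hf, hab⟩ := P178.Surf.exists_reduction' hg.not_isUnit
        (fun f hf => P178.Surf.exists_quot h₀ hg1 hg2 hf) (mem_left h₀) ha'
      have hfP : f ∉ P.P.asIdeal := by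
        intro h1
        rw [hP, pt_ideal, Ideal.mem_span_singleton] at h1
        apply ha'
        rw [hab]
        exact dvd_add (Dvd.dvd.mul_left h1 _) (dvd_mul_right _ _)
      obtain ⟨u, hu, hu'⟩ := hsmall f hf hfP
      have m1 : ku P.P hxP ∈ Subgroup.closure {w : (kappa P.P)ˣ | ∃ b ∈ L,
          (w : kappa P.P) = toKappa P.P b} :=
        Subgroup.subset_closure ⟨x₀, ⟨Or.inr (Or.inl rfl), hxP⟩, rfl⟩
      refine ⟨ku P.P hxP ^ r * u, mul_mem (pow_mem m1 _) hu, ?_⟩
      have hg0 : toKappa P.P g = 0 :=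
        (toKappa_eq_zero_iff _ _).mpr (Ideal.mem_span_singleton_self g)
      rw [Units.val_mul, Units.val_pow_eq_pow_val, ku_val, hu', hab, map_add, map_mul,
        map_mul, map_pow, hg0, zero_mul, add_zero]
    have hspan : ∀ z : KM (kappa P.P), z ∈ AddSubgroup.closure
        {z : KM (kappa P.P) | ∃ l : List A, (∀ b ∈ l, b ∈ L) ∧ z = symb (toKappa P.P) l} := by
      refine induction (p := fun z => z ∈ AddSubgroup.closure
        {z : KM (kappa P.P) | ∃ l : List A, (∀ b ∈ l, b ∈ L) ∧ z = symb (toKappa P.P) l})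
        hgen ?_ ?_ ?_ ?_
      · intro a b ha hb; exact add_mem ha hb
      · intro a ha; exact neg_mem ha
      · exact AddSubgroup.subset_closure ⟨[], by simp, rfl⟩
      · rintro w ⟨b, hb, hwb⟩ z hz
        have hw : sym w = cls (toKappa P.P b) := by rw [← hwb, cls_unit]
        induction hz using AddSubgroup.closure_induction with
        | mem z hz =>
          obtain ⟨l, hl, rfl⟩ := hz
          rw [hw, ← symb_cons]
          refine AddSubgroup.subset_closure ⟨b :: l, ?_, rfl⟩
          intro a ha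
          rcases List.mem_cons.mp ha with rfl | ha
          · exact hb
          · exact hl a ha
        | zero => rw [mul_zero]; exact zero_mem _
        | add x y _ _ hx hy => rw [mul_add]; exact add_mem hx hy
        | neg x _ hx => rw [mul_neg]; exact neg_mem hx
    intro z
    have hz := hspan z
    induction hz using AddSubgroup.closure_induction with
    | mem z hz =>
      obtain ⟨l, hl, rfl⟩ := hz
      refine symb_mem hdim hd hg rfl l (fun a ha => (hl a ha).2) _ ?_
      rintro P' ⟨a, ha, haP⟩ w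
      rcases (hl a ha).1 with h1 | h1 | ⟨h1, h2⟩
      · exact absurd (P'.P.asIdeal.eq_top_of_isUnit_mem haP h1) P'.P.isPrime.ne_top
      · subst h1
        obtain rfl : pt hx₀ = P' := eq_of_mem hx₀ rfl haP
        exact order_one hdim hd h₀ hx₀ rfl w
      · obtain rfl : pt h1 = P' := eq_of_mem h1 rfl haP
        exact ih h1 h2 w
    | zero => rw [map_zero, map_zero]; exact zero_mem _
    | add x y _ _ hx hy => rw [map_add, map_add]; exact add_mem hx hy
    | neg x _ hx => rw [map_neg, map_neg]; exact neg_mem hx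

include hdim hd in
theorem gen_eq_top {x₀ y₀ : A}
    (h₀ : maximalIdeal A = Ideal.span {x₀, y₀}) (hx₀ : Prime x₀) :
    gen hdim hd (cl d (inj (pt hx₀) (cls (toKappa (pt hx₀).P y₀)))) = ⊤ := by
  rw [eq_top_iff]
  intro q _
  obtain ⟨t, rfl⟩ := cl_surjective q
  apply mem_of_support
  intro P _ w
  obtain ⟨g, hg, hP⟩ := exists_gen hdim P
  obtain rfl : pt hg = P := pt_ext hP.symm
  by_cases hx : x₀ ∣ g
  · have he : pt hx₀ = pt hg := by
      apply pt_ext
      rw [pt_ideal, pt_ideal, Ideal.span_singleton_eq_span_singleton]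
      exact hx₀.associated_of_dvd hg hx
    have key : ∀ P : Pt A 1, pt hx₀ = P → ∀ w : KM (kappa P.P), cl d (inj P w) ∈
        gen hdim hd (cl d (inj (pt hx₀) (cls (toKappa (pt hx₀).P y₀)))) := by
      rintro _ rfl w
      exact order_one hdim hd h₀ hx₀ rfl w
    exact key _ he w
  · obtain ⟨e, he⟩ := P178.Surf.exists_J_order hx₀.not_isUnit hx
    exact all_points hdim hd h₀ hx₀ e hg
      (fun h => he (P178.Surf.J_anti (Nat.le_succ e) h)) w

include hdim hd in
/-- The units congruent to one act by zero on the class. -/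
theorem lq_class_sub {x₀ y₀ : A}
    (h₀ : maximalIdeal A = Ideal.span {x₀, y₀}) (hx₀ : Prime x₀) (v : Aˣ)
    (hv : (v : A) - 1 ∈ maximalIdeal A) :
    lq hdim hd v (cl d (inj (pt hx₀) (cls (toKappa (pt hx₀).P y₀)))) = 0 := by
  have key : ∀ v : Aˣ, (v : A) - 1 ∈ maximalIdeal A → (v : A) - 1 ∉ maximalIdeal A ^ 2 →
      lq hdim hd v (cl d (inj (pt hx₀) (cls (toKappa (pt hx₀).P y₀)))) = 0 := by
    intro v hv hv2
    obtain ⟨y, h⟩ := P178.Surf.exists_par_of_notMem_sq hdim hv hv2
    obtain ⟨hx, _, _⟩ := P178.Surf.quotient_facts hdim h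
    rw [← class_eq hdim hd h h₀ hx hx₀, lq_cl, lm_inj]
    have h1 : toKappa (pt hx).P (v : A) = ((1 : (kappa (pt hx).P)ˣ) : kappa (pt hx).P) := by
      have h2 : toKappa (pt hx).P ((v : A) - 1) = 0 :=
        (toKappa_eq_zero_iff _ _).mpr (Ideal.mem_span_singleton_self _)
      rw [map_sub, map_one] at h2
      rw [sub_eq_zero.mp h2, Units.val_one]
    rw [h1, cls_unit, sym_one, zero_mul, map_zero, map_zero]
  by_cases hv2 : (v : A) - 1 ∈ maximalIdeal A ^ 2
  · have h' : maximalIdeal A = Ideal.span {y₀, x₀} := by rw [h₀, Set.pair_comm]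
    obtain ⟨hy, hyx, _⟩ := P178.Surf.quotient_facts hdim h'
    have hx2 : x₀ ∉ maximalIdeal A ^ 2 := by
      have h1 := P178.Surf.notMem_pow_succ h' hy hyx (n := 1) (c := 1) (w := 0) isUnit_one
      simpa using h1
    have hu : IsUnit (1 + x₀) := by
      by_contra h1
      have h2 : (1 : A) ∈ maximalIdeal A := by
        have := sub_mem ((mem_maximalIdeal _).mpr h1) (mem_left h₀)
        rwa [add_sub_cancel_right] at this
      exact (mem_maximalIdeal _).mp h2 isUnit_one
    obtain ⟨u, hu⟩ := hu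
    have h3 : (u : A) - 1 = x₀ := by rw [hu]; ring
    have h4 : ((v * u⁻¹ : Aˣ) : A) * (u : A) = v := by
      rw [← Units.val_mul, inv_mul_cancel_right]
    have h5 : (((v * u⁻¹ : Aˣ) : A) - 1) * (u : A) = ((v : A) - 1) - x₀ := by
      rw [sub_mul, h4, ← h3]; ring
    have h6 : v = (v * u⁻¹) * u := by rw [inv_mul_cancel_right]
    rw [h6, lq_mul, key u (by rw [h3]; exact mem_left h₀) (by rw [h3]; exact hx2), add_zero]
    have h7 : ∀ n : ℕ, ((v * u⁻¹ : Aˣ) : A) - 1 ∈ maximalIdeal A ^ n ↔
        ((v : A) - 1) - x₀ ∈ maximalIdeal A ^ n := by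
      intro n
      rw [← h5]
      constructor
      · intro h; exact Ideal.mul_mem_right _ _ h
      · intro h
        have := Ideal.mul_mem_right ((u⁻¹ : Aˣ) : A) _ h
        rwa [mul_assoc, Units.mul_inv, mul_one] at this
    apply key
    · have := (h7 1).mpr (by rw [pow_one]; exact sub_mem hv (mem_left h₀))
      rwa [pow_one] at this
    · intro h8
      apply hx2
      have h9 := (h7 2).mp h8
      have := sub_mem hv2 h9
      rwa [sub_sub_cancel] at this
  · exact key v hv hv2

include hdim hd in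
theorem lq_eq_zero (v : Aˣ)
    (hv : (v : A) - 1 ∈ maximalIdeal A) (q : Quo d) : lq hdim hd v q = 0 := by
  obtain ⟨x₀, y₀, h₀⟩ := P178.Surf.exists_par hdim
  obtain ⟨hx₀, _, _⟩ := P178.Surf.quotient_facts hdim h₀
  have hq : q ∈ gen hdim hd (cl d (inj (pt hx₀) (cls (toKappa (pt hx₀).P y₀)))) := by
    rw [gen_eq_top hdim hd h₀ hx₀]; trivial
  induction hq using AddSubgroup.closure_induction with
  | mem z hz =>
    obtain ⟨l, rfl⟩ := hz
    induction l with
    | nil => exact lq_class_sub hdim hd h₀ hx₀ v hv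
    | cons w l ih => rw [wd_cons, lq_comm, ih, map_zero, neg_zero]
  | zero => rw [map_zero]
  | add x y _ _ hx hy => rw [map_add, hx, hy, add_zero]
  | neg x _ hx => rw [map_neg, hx, neg_zero]

omit [IsRegularLocalRing A] [IsDomain A] in
theorem exists_lift [IsLocalRing A] (a : (ResidueField A)ˣ) :
    ∃ v : Aˣ, residue A (v : A) = a := by
  obtain ⟨v, hv⟩ := residue_surjective (R := A) (a : ResidueField A)
  have hvu : IsUnit v := (residue_ne_zero_iff_isUnit v).mp (by rw [hv]; exact a.ne_zero)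
  exact ⟨hvu.unit, hv⟩

theorem lq_congr {v w : Aˣ}
    (h : residue A (v : A) = residue A (w : A)) : lq hdim hd v = lq hdim hd w := by
  refine AddMonoidHom.ext fun q => ?_
  have h1 : v = (v * w⁻¹) * w := by rw [inv_mul_cancel_right]
  rw [h1, lq_mul, lq_eq_zero hdim hd (v * w⁻¹), zero_add]
  have h2 : (((v * w⁻¹ : Aˣ) : A) - 1) * (w : A) = v - w := by
    rw [sub_mul, ← Units.val_mul, inv_mul_cancel_right, one_mul]
  have h3 : (v : A) - w ∈ maximalIdeal A := by
    rw [← residue_eq_zero_iff, map_sub, h, sub_self]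
  rw [← h2] at h3
  have := Ideal.mul_mem_right ((w⁻¹ : Aˣ) : A) _ h3
  rwa [mul_assoc, Units.mul_inv, mul_one] at this

/-- The action of the units of the residue field. -/
def act (a : (ResidueField A)ˣ) : AddMonoid.End (Quo d) :=
  lq hdim hd (exists_lift a).choose

theorem act_eq (a : (ResidueField A)ˣ) (v : Aˣ)
    (h : residue A (v : A) = a) : act hdim hd a = lq hdim hd v :=
  lq_congr hdim hd ((exists_lift a).choose_spec.trans h.symm)

theorem act_mul (a b : (ResidueField A)ˣ) :
    act hdim hd (a * b) = act hdim hd a + act hdim hd b := by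
  obtain ⟨v, hv⟩ := exists_lift a
  obtain ⟨w, hw⟩ := exists_lift b
  rw [act_eq hdim hd a v hv, act_eq hdim hd b w hw, act_eq hdim hd (a * b) (v * w)
    (by rw [Units.val_mul, map_mul, hv, hw, Units.val_mul])]
  exact AddMonoidHom.ext fun q => lq_mul hdim hd v w q

theorem act_steinberg (a b : (ResidueField A)ˣ)
    (hab : (a : ResidueField A) + b = 1) : act hdim hd a * act hdim hd b = 0 := by
  obtain ⟨v, hv⟩ := exists_lift a
  have hb : residue A (1 - v) = b := by rw [map_sub, map_one, hv, ← hab]; ring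
  have hu : IsUnit (1 - (v : A)) :=
    (residue_ne_zero_iff_isUnit _).mp (by rw [hb]; exact b.ne_zero)
  obtain ⟨w, hw⟩ := hu
  rw [act_eq hdim hd a v hv, act_eq hdim hd b w (by rw [hw, hb])]
  exact AddMonoidHom.ext fun q => lq_steinberg hdim hd v w (by rw [hw]; ring) q

/-- The action of the Milnor ring of the residue field. -/
def phiEnd : KM (ResidueField A) →+* AddMonoid.End (Quo d) :=
  lift (act hdim hd) (act_mul hdim hd) (act_steinberg hdim hd)

theorem phiEnd_sym (a : (ResidueField A)ˣ) (v : Aˣ)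
    (h : residue A (v : A) = a) (q : Quo d) : phiEnd hdim hd (sym a) q = lq hdim hd v q := by
  have h1 : phiEnd hdim hd (sym a) = act hdim hd a := lift_sym _ _ _ _
  have h2 := act_eq hdim hd a v h
  exact DFunLike.congr_fun (h1.trans h2) q

theorem phiEnd_symb (l : List A) (hl : ∀ a ∈ l, IsUnit a) {x : A}
    (hx : Prime x) (w : KM (kappa (pt hx).P)) :
    phiEnd hdim hd (symb (residue A) l) (cl d (inj (pt hx) w)) =
      cl d (inj (pt hx) (symb (toKappa (pt hx).P) l * w)) := by
  induction l with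
  | nil => rw [symb_nil, symb_nil, map_one, one_mul]; rfl
  | cons a l ih =>
    obtain ⟨v, rfl⟩ := hl a List.mem_cons_self
    have hv : IsUnit (residue A (v : A)) := v.isUnit.map _
    rw [symb_cons, symb_cons, map_mul]
    change phiEnd hdim hd (cls (residue A (v : A)))
      (phiEnd hdim hd (symb (residue A) l) (cl d (inj (pt hx) w))) = _
    rw [ih fun b hb => hl b (List.mem_cons_of_mem _ hb), cls_of_isUnit hv,
      phiEnd_sym hdim hd hv.unit v hv.unit_spec.symm, lq_cl, lm_inj, mul_assoc]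

include hdim hd in
/-- The cokernel of the boundary is a quotient of the Milnor ring of the residue field. -/
theorem main :
    ∃ φ : KM (ResidueField A) →+ Tot A ⧸ boundaries d, Function.Surjective φ ∧
      ∀ (P : Pt A 1) (x y : A) (l : List A), maximalIdeal A = Ideal.span {x, y} →
        P.P.asIdeal = Ideal.span {x} → (∀ a ∈ l, IsUnit a) →
        φ (symb (residue A) l) =
          QuotientAddGroup.mk (inj P (symb (toKappa P.P) (l ++ [y]))) := by
  obtain ⟨x₀, y₀, h₀⟩ := P178.Surf.exists_par hdim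
  obtain ⟨hx₀, _, _⟩ := P178.Surf.quotient_facts hdim h₀
  refine ⟨AddMonoidHom.mk'
    (fun z => phiEnd hdim hd z (cl d (inj (pt hx₀) (cls (toKappa (pt hx₀).P y₀)))))
    (fun a b => by rw [map_add]; rfl), ?_, ?_⟩
  · intro q
    have hq : q ∈ gen hdim hd (cl d (inj (pt hx₀) (cls (toKappa (pt hx₀).P y₀)))) := by
      rw [gen_eq_top hdim hd h₀ hx₀]; trivial
    change ∃ z, phiEnd hdim hd z (cl d (inj (pt hx₀) (cls (toKappa (pt hx₀).P y₀)))) = q
    induction hq using AddSubgroup.closure_induction with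
    | mem z hz =>
      obtain ⟨l, rfl⟩ := hz
      induction l with
      | nil => exact ⟨1, by rw [map_one]; rfl⟩
      | cons v l ih =>
        obtain ⟨z, hz⟩ := ih
        have hv : IsUnit (residue A (v : A)) := v.isUnit.map _
        refine ⟨sym hv.unit * z, ?_⟩
        rw [map_mul]
        change phiEnd hdim hd (sym hv.unit) (phiEnd hdim hd z _) = _
        rw [hz, phiEnd_sym hdim hd hv.unit v hv.unit_spec.symm, wd_cons]
    | zero => exact ⟨0, by rw [map_zero]; rfl⟩
    | add a b _ _ ha hb =>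
      obtain ⟨z, hz⟩ := ha
      obtain ⟨w, hw⟩ := hb
      exact ⟨z + w, by rw [map_add, ← hz, ← hw]; rfl⟩
    | neg a _ ha =>
      obtain ⟨z, hz⟩ := ha
      exact ⟨-z, by rw [map_neg, ← hz]; rfl⟩
  · intro P x y l h hP hl
    obtain ⟨hx, _, _⟩ := P178.Surf.quotient_facts hdim h
    obtain rfl : pt hx = P := pt_ext hP.symm
    change phiEnd hdim hd (symb (residue A) l)
      (cl d (inj (pt hx₀) (cls (toKappa (pt hx₀).P y₀)))) = _
    rw [← class_eq hdim hd h h₀ hx hx₀, phiEnd_symb hdim hd l hl, symb_append, symb_singleton]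
    rfl

end Vale.Agent.P178M
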