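import Vale.Agent.P178.H270.Desc

/-!
The residue at the closed point, and the elements with residues only at `(x)`.
-/

universe u

noncomputable section

namespace Vale.Agent.P178M

open Vale.Agent.P178.Gersten IsLocalRing P178.Surf
open scoped DirectSum

section functor

variable {R S : Type u} [CommRing R] [CommRing S]

/-- Functoriality of the Milnor ring. -/
def kmap (f : R →+* S) : KM R →+* KM S :=
  lift (fun a => sym (Units.map (f : R →* S) a)) (fun a b => by rw [map_mul, sym_mul])
    (fun a b h => sym_mul_sym _ _ (by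
      rw [Units.coe_map, Units.coe_map]
      change f a + f b = 1
      rw [← map_add, h, map_one]))

theorem kmap_sym (f : R →+* S) (a : Rˣ) : kmap f (sym a) = cls (f a) := by
  have h1 : kmap f (sym a) = sym (Units.map (f : R →* S) a) := lift_sym _ _ _ _
  rw [h1, ← cls_unit]
  rfl

end functor

section surface

variable {A : Type u} [CommRing A] [IsRegularLocalRing A] [IsDomain A]
  (hdim : ringKrullDim A = 2)

omit [IsDomain A] [IsRegularLocalRing A] in
theorem exists_residue_point [IsLocalRing A] [IsNoetherianRing A] (P : Pt A 1) {y : A}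
    (hy : maximalIdeal A = P.P.asIdeal ⊔ Ideal.span {y}) (hyP : y ∉ P.P.asIdeal) :
    ∃ ρ : KM (kappa P.P) →+ KM (ResidueField A), ρ 1 = 0 ∧
      (∀ (v : Aˣ) (z : KM (kappa P.P)), ρ (cls (toKappa P.P (v : A)) * z) =
        - (cls (residue A (v : A)) * ρ z)) ∧
      ∀ y' : A, maximalIdeal A = P.P.asIdeal ⊔ Ideal.span {y'} →
        ρ (cls (toKappa P.P y')) = 1 := by
  have hprime := P.P.isPrime
  have hPm : P.P.asIdeal ≤ maximalIdeal A := le_maximalIdeal hprime.ne_top
  let r : (A ⧸ P.P.asIdeal) →+* ResidueField A :=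
    Ideal.Quotient.lift P.P.asIdeal (residue A) fun a ha => (residue_eq_zero_iff a).mpr (hPm ha)
  have hrmk : ∀ a : A, r (Ideal.Quotient.mk P.P.asIdeal a) = residue A a := fun a =>
    Ideal.Quotient.lift_mk _ _ _
  have hdvd : ∀ {y' : A}, maximalIdeal A = P.P.asIdeal ⊔ Ideal.span {y'} →
      ∀ b : A ⧸ P.P.asIdeal, r b = 0 ↔ Ideal.Quotient.mk P.P.asIdeal y' ∣ b := by
    intro y' hy' b
    obtain ⟨a, rfl⟩ := Ideal.Quotient.mk_surjective b
    rw [hrmk, residue_eq_zero_iff]
    constructor
    · intro ha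
      rw [hy', Submodule.mem_sup] at ha
      obtain ⟨s, hs, t, ht, rfl⟩ := ha
      obtain ⟨u, rfl⟩ := Ideal.mem_span_singleton.mp ht
      rw [map_add, Ideal.Quotient.eq_zero_iff_mem.mpr hs, zero_add, map_mul]
      exact dvd_mul_right _ _
    · rintro ⟨u, hu⟩
      obtain ⟨u, rfl⟩ := Ideal.Quotient.mk_surjective u
      rw [← map_mul, Ideal.Quotient.eq] at hu
      have h1 : y' * u ∈ maximalIdeal A := by
        rw [hy']
        exact Ideal.mul_mem_right _ _ (Submodule.mem_sup_right (Ideal.mem_span_singleton_self _))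
      have := add_mem (hPm hu) h1
      rwa [sub_add_cancel] at this
  have hr := hdvd hy
  have hg0 : Ideal.Quotient.mk P.P.asIdeal y ≠ 0 := by
    rw [Ne, Ideal.Quotient.eq_zero_iff_mem]; exact hyP
  have hg : Prime (Ideal.Quotient.mk P.P.asIdeal y) := by
    refine ⟨hg0, ?_, ?_⟩
    · intro hu
      have h1 : r (Ideal.Quotient.mk P.P.asIdeal y) = 0 := (hr _).mpr dvd_rfl
      exact (hu.map r).ne_zero h1
    · intro a b hab
      rw [← hr, map_mul, mul_eq_zero] at hab
      rcases hab with h | h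
      · exact Or.inl ((hr a).mp h)
      · exact Or.inr ((hr b).mp h)
  let j : kappa P.P →+* FractionRing (A ⧸ P.P.asIdeal) := RingHom.id _
  have hj : ∀ {a : A}, a ∉ P.P.asIdeal → kmap j (cls (toKappa P.P a)) =
      cls (algebraMap (A ⧸ P.P.asIdeal) (FractionRing (A ⧸ P.P.asIdeal))
        (Ideal.Quotient.mk P.P.asIdeal a)) := by
    intro a ha
    rw [cls_toKappa P.P ha, kmap_sym]
    rfl
  refine ⟨(rsd hg hr).comp (kmap j).toAddMonoidHom, ?_, ?_, ?_⟩
  · change rsd hg hr (kmap j 1) = 0
    rw [map_one, rsd_one]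
  · intro v z
    change rsd hg hr (kmap j (cls (toKappa P.P (v : A)) * z)) = - (_ * rsd hg hr (kmap j z))
    have hv : r (Ideal.Quotient.mk P.P.asIdeal (v : A)) ≠ 0 := by
      rw [hrmk]; exact (v.isUnit.map (residue A)).ne_zero
    rw [map_mul, hj (unit_notMem P.P v), rsd_unit hg hr hv, hrmk]
  · intro y' hy'
    have hy'P : y' ∉ P.P.asIdeal := by
      intro h1
      have h2 : maximalIdeal A = P.P.asIdeal := by
        rw [hy']
        exact sup_eq_left.mpr ((Ideal.span_singleton_le_iff_mem _).mpr h1)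
      apply hyP
      rw [← h2, hy]
      exact Submodule.mem_sup_right (Ideal.mem_span_singleton_self _)
    change rsd hg hr (kmap j (cls (toKappa P.P y'))) = 1
    have hass : Associated (Ideal.Quotient.mk P.P.asIdeal y)
        (Ideal.Quotient.mk P.P.asIdeal y') := by
      apply associated_of_dvd_dvd
      · rw [← hr, hdvd hy']
      · rw [← hdvd hy', hr]
    have := rsd_gen hg hr hass 1 (rsd_one _ _)
    rw [mul_one, map_one] at this
    rw [hj hy'P, this]

omit [IsDomain A] in
include hdim in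
/-- The residue maps at the points of order one. -/
theorem exists_rho (P : Pt A 1) :
    ∃ ρ : KM (kappa P.P) →+ KM (ResidueField A), ρ 1 = 0 ∧
      (∀ (v : Aˣ) (z : KM (kappa P.P)), ρ (cls (toKappa P.P (v : A)) * z) =
        - (cls (residue A (v : A)) * ρ z)) ∧
      ∀ y' : A, maximalIdeal A = P.P.asIdeal ⊔ Ideal.span {y'} →
        ρ (cls (toKappa P.P y')) = 1 := by
  by_cases hreg : ∃ y : A, maximalIdeal A = P.P.asIdeal ⊔ Ideal.span {y}
  · obtain ⟨y, hy⟩ := hreg
    refine exists_residue_point P hy ?_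
    intro h1
    have h2 : maximalIdeal A = P.P.asIdeal := by
      rw [hy]
      exact sup_eq_left.mpr ((Ideal.span_singleton_le_iff_mem _).mpr h1)
    have h3 := maximalIdeal_height_eq_ringKrullDim (R := A)
    rw [h2, P.height, hdim] at h3
    norm_cast at h3
  · refine ⟨0, rfl, fun v z => ?_, fun y' hy' => absurd ⟨y', hy'⟩ hreg⟩
    rw [AddMonoidHom.zero_apply, AddMonoidHom.zero_apply, mul_zero, neg_zero]

variable {d : (P : Pt A 1) → KM (FractionRing A) →+ KM (kappa P.P)}
  (hd : ∀ P : Pt A 1, IsResidue P.P (d P))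

/-- The total boundary. -/
def dTot : KM (FractionRing A) →+ Tot A :=
  AddMonoidHom.mk' (fun z => (exists_tot hdim hd z).choose) fun a b => tot_ext fun P => by
    have e : ∀ s t : Tot A, (s + t) P = s P + t P := fun _ _ => rfl
    rw [e, (exists_tot hdim hd (a + b)).choose_spec, (exists_tot hdim hd a).choose_spec,
      (exists_tot hdim hd b).choose_spec, map_add]

theorem dTot_apply (z : KM (FractionRing A)) (P : Pt A 1) : dTot hdim hd z P = d P z :=
  (exists_tot hdim hd z).choose_spec P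

open Classical in
omit [IsRegularLocalRing A] [IsDomain A] in
/-- The sum of homomorphisms on the summands. -/
def sumHom {M : Type u} [AddCommGroup M] (ρ : (P : Pt A 1) → KM (kappa P.P) →+ M) :
    Tot A →+ M := DirectSum.toAddMonoid ρ

omit [IsRegularLocalRing A] [IsDomain A] in
theorem sumHom_inj {M : Type u} [AddCommGroup M] (ρ : (P : Pt A 1) → KM (kappa P.P) →+ M)
    (P : Pt A 1) (z : KM (kappa P.P)) : sumHom ρ (inj P z) = ρ P z := by
  classical
  unfold sumHom inj
  convert DirectSum.toAddMonoid_of ρ P z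

omit [IsRegularLocalRing A] [IsDomain A] in
theorem hom_ext {M : Type u} [AddCommGroup M] {f g : Tot A →+ M}
    (h : ∀ P z, f (inj P z) = g (inj P z)) : f = g := by
  classical
  apply DirectSum.addHom_ext
  intro P z
  have := h P z
  unfold inj at this
  convert this

omit [IsDomain A] in
theorem span_pair_sup {x y : A} (h : maximalIdeal A = Ideal.span {x, y}) {P : Pt A 1}
    (hP : P.P.asIdeal = Ideal.span {x}) :
    maximalIdeal A = P.P.asIdeal ⊔ Ideal.span {y} := by
  rw [h, hP, Ideal.span_insert]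

end surface

section units

variable {A : Type u} [CommRing A] [IsDomain A] [IsLocalRing A] [IsNoetherianRing A]

/-- The subring generated by the classes of the units of `A`. -/
def UF (A : Type u) [CommRing A] [IsDomain A] : Subring (KM (FractionRing A)) :=
  Subring.closure {z | ∃ u : Aˣ, z = c (u : A)}

/-- The subring generated by the classes of the units of `A`. -/
def UP (P : PrimeSpectrum A) : Subring (KM (kappa P)) :=
  Subring.closure {z | ∃ u : Aˣ, z = cls (toKappa P (u : A))}

omit [IsLocalRing A] [IsNoetherianRing A] in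
theorem UF_c (u : Aˣ) : c (u : A) ∈ UF A := Subring.subset_closure ⟨u, rfl⟩

omit [IsLocalRing A] [IsNoetherianRing A] in
theorem UF_comm {p : A} (hp : p ≠ 0) {z : KM (FractionRing A)} (hz : z ∈ UF A) :
    ∃ z' ∈ UF A, z * c p = c p * z' := by
  induction hz using Subring.closure_induction with
  | mem z hz =>
    obtain ⟨u, rfl⟩ := hz
    refine ⟨- c (u : A), neg_mem (UF_c u), ?_⟩
    rw [c_anticomm u.ne_zero hp, mul_neg]
  | zero => exact ⟨0, zero_mem _, by simp⟩
  | one => exact ⟨1, one_mem _, by simp⟩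
  | add x y _ _ hx hy =>
    obtain ⟨x', hx', h1⟩ := hx
    obtain ⟨y', hy', h3⟩ := hy
    exact ⟨x' + y', add_mem hx' hy', by rw [add_mul, mul_add, h1, h3]⟩
  | neg x _ hx =>
    obtain ⟨x', hx', h1⟩ := hx
    exact ⟨-x', neg_mem hx', by rw [neg_mul, mul_neg, h1]⟩
  | mul x y _ _ hx hy =>
    obtain ⟨x', hx', h1⟩ := hx
    obtain ⟨y', hy', h3⟩ := hy
    exact ⟨x' * y', mul_mem hx' hy', by rw [mul_assoc, h3, ← mul_assoc, h1, mul_assoc]⟩

omit [IsNoetherianRing A] in
/-- The normal form of the elements of `Lam x 1`. -/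
theorem Lam_one_nf {x : A} {z : KM (FractionRing A)} (hz : z ∈ Lam x 1) :
    ∃ z₀ ∈ UF A, ∃ z₁ ∈ UF A, z = z₀ + c x * z₁ := by
  have hgen : ∀ a, Small x 1 a → ∀ w, (∃ z₀ ∈ UF A, ∃ z₁ ∈ UF A, w = z₀ + c x * z₁) →
      ∃ z₀ ∈ UF A, ∃ z₁ ∈ UF A, c a * w = z₀ + c x * z₁ := by
    rintro a ⟨ha0, ha | rfl⟩ w ⟨z₀, h0, z₁, h1, rfl⟩
    · obtain ⟨u, rfl⟩ := isUnit_of_notMem_J ha
      by_cases hx0 : x = 0
      · have hcx : c x = 0 := by
          rw [hx0]
          unfold c cls
          rw [map_zero, dif_neg not_isUnit_zero]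
        refine ⟨c (u : A) * z₀, mul_mem (UF_c u) h0, 0, zero_mem _, ?_⟩
        rw [hcx, zero_mul, add_zero, zero_mul, add_zero]
      · refine ⟨c (u : A) * z₀, mul_mem (UF_c u) h0, -(c (u : A) * z₁),
          neg_mem (mul_mem (UF_c u) h1), ?_⟩
        rw [mul_add, ← mul_assoc, c_anticomm u.ne_zero hx0, neg_mul, mul_neg, mul_assoc]
    · refine ⟨0, zero_mem _, z₀ - c (-1) * z₁, sub_mem h0 (mul_mem ?_ h1), ?_⟩
      · have := UF_c (A := A) (-1)
        rwa [Units.val_neg, Units.val_one] at this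
      · rw [mul_add, ← mul_assoc, c_sq ha0, zero_add, mul_sub, ← mul_assoc,
          c_anticomm ha0 (neg_ne_zero.mpr one_ne_zero), neg_mul, sub_neg_eq_add]
  have hmul : ∀ z ∈ Lam x 1, ∀ w, (∃ z₀ ∈ UF A, ∃ z₁ ∈ UF A, w = z₀ + c x * z₁) →
      ∃ z₀ ∈ UF A, ∃ z₁ ∈ UF A, z * w = z₀ + c x * z₁ := by
    intro z hz
    induction hz using Subring.closure_induction with
    | mem z hz =>
      obtain ⟨a, ha, rfl⟩ := hz
      exact hgen a ha
    | zero => intro w _; exact ⟨0, zero_mem _, 0, zero_mem _, by simp⟩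
    | one => intro w hw; rwa [one_mul]
    | add a b _ _ ha hb =>
      intro w hw
      obtain ⟨p, hp, q, hq, h1⟩ := ha w hw
      obtain ⟨p', hp', q', hq', h2⟩ := hb w hw
      exact ⟨p + p', add_mem hp hp', q + q', add_mem hq hq', by
        rw [add_mul, h1, h2, mul_add]; abel⟩
    | neg a _ ha =>
      intro w hw
      obtain ⟨p, hp, q, hq, h1⟩ := ha w hw
      exact ⟨-p, neg_mem hp, -q, neg_mem hq, by rw [neg_mul, h1, mul_neg]; abel⟩
    | mul a b _ _ ha hb => intro w hw; rw [mul_assoc]; exact ha _ (hb w hw)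
  have := hmul z hz 1 ⟨1, one_mem _, 0, zero_mem _, by simp⟩
  rwa [mul_one] at this

variable {g : A} {κ : Type u} [Field κ] {r : A →+* κ} (hg : Prime g)
  (hr : ∀ a, r a = 0 ↔ g ∣ a)

omit [IsLocalRing A] in
theorem rsd_UF {z : KM (FractionRing A)} (hz : z ∈ UF A) :
    ∀ w, rsd hg hr w = 0 → rsd hg hr (z * w) = 0 := by
  induction hz using Subring.closure_induction with
  | mem z hz =>
    obtain ⟨u, rfl⟩ := hz
    intro w hw
    have hu : r (u : A) ≠ 0 := (u.isUnit.map r).ne_zero
    unfold c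
    rw [rsd_unit hg hr hu, hw, mul_zero, neg_zero]
  | zero => intro w _; rw [zero_mul, map_zero]
  | one => intro w hw; rwa [one_mul]
  | add x y _ _ hx hy => intro w hw; rw [add_mul, map_add, hx w hw, hy w hw, add_zero]
  | neg x _ hx => intro w hw; rw [neg_mul, map_neg, hx w hw, neg_zero]
  | mul x y _ _ hx hy => intro w hw; rw [mul_assoc]; exact hx _ (hy w hw)

omit [IsLocalRing A] in
theorem rsd_UF_one {z : KM (FractionRing A)} (hz : z ∈ UF A) : rsd hg hr z = 0 := by
  have := rsd_UF hg hr hz 1 (rsd_one hg hr)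
  rwa [mul_one] at this

omit [IsLocalRing A] in
/-- The residue of an element in normal form. -/
theorem rsd_nf {z₀ z₁ : KM (FractionRing A)} (h0 : z₀ ∈ UF A) (h1 : z₁ ∈ UF A) :
    rsd hg hr (z₀ + c g * z₁) = spz hg hr z₁ := by
  rw [map_add, rsd_UF_one hg hr h0, zero_add]
  exact rsd_gen hg hr (Associated.refl _) z₁ (rsd_UF_one hg hr h1)

omit [IsLocalRing A] in
theorem spz_UF {P : PrimeSpectrum A} (hP : P.asIdeal = Ideal.span {g})
    {z : KM (FractionRing A)} (hz : z ∈ UF A) : spz hg (kappa_iff hP) z ∈ UP P := by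
  induction hz using Subring.closure_induction with
  | mem z hz =>
    obtain ⟨u, rfl⟩ := hz
    have hu : toKappa P (u : A) ≠ 0 := (u.isUnit.map (toKappa P)).ne_zero
    unfold c
    rw [spz_cls hg (kappa_iff hP) hu]
    exact Subring.subset_closure ⟨u, rfl⟩
  | zero => rw [map_zero]; exact zero_mem _
  | one => rw [map_one]; exact one_mem _
  | add x y _ _ hx hy => rw [map_add]; exact add_mem hx hy
  | neg x _ hx => rw [map_neg]; exact neg_mem hx
  | mul x y _ _ hx hy => rw [map_mul]; exact mul_mem hx hy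

omit [IsDomain A] [IsNoetherianRing A] in
theorem rho_UP {P : PrimeSpectrum A} (ρ : KM (kappa P) →+ KM (ResidueField A)) (h1 : ρ 1 = 0)
    (h2 : ∀ (v : Aˣ) (z : KM (kappa P)), ρ (cls (toKappa P (v : A)) * z) =
        - (cls (residue A (v : A)) * ρ z)) {z : KM (kappa P)} (hz : z ∈ UP P) : ρ z = 0 := by
  have hmul : ∀ w, ρ w = 0 → ρ (z * w) = 0 := by
    induction hz using Subring.closure_induction with
    | mem z hz =>
      obtain ⟨u, rfl⟩ := hz
      intro w hw
      rw [h2, hw, mul_zero, neg_zero]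
    | zero => intro w _; rw [zero_mul, map_zero]
    | one => intro w hw; rwa [one_mul]
    | add x y _ _ hx hy => intro w hw; rw [add_mul, map_add, hx w hw, hy w hw, add_zero]
    | neg x _ hx => intro w hw; rw [neg_mul, map_neg, hx w hw, neg_zero]
    | mul x y _ _ hx hy => intro w hw; rw [mul_assoc]; exact hx _ (hy w hw)
  have := hmul 1 h1
  rwa [mul_one] at this

end units

end Vale.Agent.P178M
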