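import Vale.Agent.P178.H270.Tame
import Mathlib.Data.Matrix.Mul
import Mathlib.LinearAlgebra.Matrix.Notation

/-!
The residue homomorphism of Milnor K-theory at a principal prime.
-/

universe u

noncomputable section

namespace Vale.Agent.P178M

open Vale.Agent.P178.Gersten

theorem even_mul_sym {R : Type u} [CommRing R] (n : ℤ) (hn : Even n) :
    (n : KM R) * sym (-1 : Rˣ) = 0 := by
  obtain ⟨m, rfl⟩ := hn
  push_cast
  rw [add_mul, ← mul_add, two_sym_neg_one, mul_zero]

section

variable {A : Type u} [CommRing A] [IsDomain A] [IsNoetherianRing A] {κ : Type u} [Field κ]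
  {r : A →+* κ} {g : A}

variable (hg : Prime g) (hr : ∀ a, r a = 0 ↔ g ∣ a)

/-- The matrix of left multiplication by `f` on the pairs (specialization, residue). -/
def mat (f : (FractionRing A)ˣ) : Matrix (Fin 2) (Fin 2) (KM κ) :=
  !![sym (ew hg hr f), 0; (ev hg hr f : KM κ),
    - sym (ew hg hr f) + (ev hg hr f : KM κ) * sym (-1)]

theorem mat_mul (f f' : (FractionRing A)ˣ) :
    mat hg hr (f * f') = mat hg hr f + mat hg hr f' := by
  unfold mat
  rw [ev_mul, ew_mul, sym_mul]
  push_cast
  ext i j
  fin_cases i <;> fin_cases j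
  · simp
  · simp
  · simp
  · simp [add_mul]
    abel

theorem mat_zero {f : (FractionRing A)ˣ} (h : ev hg hr f = 0 ∧ ew hg hr f = 1) :
    mat hg hr f = 0 := by
  unfold mat
  rw [h.1, h.2, sym_one]
  ext i j
  fin_cases i <;> fin_cases j <;> simp

theorem mat_steinberg (a b : (FractionRing A)ˣ) (hab : (a : FractionRing A) + b = 1) :
    mat hg hr a * mat hg hr b = 0 := by
  rcases sum_cases hg hr hab with h | h | ⟨h1, h2, h3⟩ | ⟨h1, h2⟩
  · rw [mat_zero hg hr h, mul_zero]
  · rw [mat_zero hg hr h, zero_mul]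
  · have h4 := sym_mul_sym _ _ h3
    unfold mat
    rw [h1, h2]
    ext i j
    fin_cases i <;> fin_cases j <;> simp [Matrix.mul_apply, Fin.sum_univ_two, h4]
  · unfold mat
    rw [h1, h2]
    set n := ev hg hr a
    set w := ew hg hr a
    have hu : sym (-w) = sym (-1 : κˣ) + sym w := by
      rw [← sym_mul]; congr 1; ext; push_cast; ring
    have e1 : sym w * sym (-w) = 0 := sym_mul_neg field_unit w
    have e2 := sym_anticomm field_unit w (-1)
    have hc : ∀ x : KM κ, x * (n : KM κ) = (n : KM κ) * x := fun x =>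
      (Int.cast_comm n x).symm
    ext i j
    fin_cases i <;> fin_cases j
    · simp [Matrix.mul_apply, Fin.sum_univ_two, e1]
    · simp [Matrix.mul_apply, Fin.sum_univ_two]
    · simp only [Matrix.mul_apply, Fin.sum_univ_two, Fin.mk_one, Fin.zero_eta, Fin.isValue,
        Matrix.of_apply, Matrix.cons_val', Matrix.cons_val_zero, Matrix.cons_val_one,
        Matrix.cons_val_fin_one, Matrix.zero_apply]
      have h5 : ((n + n * n : ℤ) : KM κ) * sym (-1 : κˣ) = 0 :=
        even_mul_sym _ (by
          rw [show n + n * n = n * (n + 1) by ring]; exact Int.even_mul_succ_self n)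
      rw [hu, add_mul, neg_mul, hc, mul_assoc, hc, mul_add]
      push_cast at h5
      rw [add_mul, mul_assoc] at h5
      calc _ = (n : KM κ) * sym (-1 : κˣ) +
            (n : KM κ) * ((n : KM κ) * sym (-1 : κˣ)) := by abel
        _ = 0 := h5
    · simp only [Matrix.mul_apply, Fin.sum_univ_two, Fin.mk_one, Fin.isValue,
        Matrix.of_apply, Matrix.cons_val', Matrix.cons_val_zero, Matrix.cons_val_one,
        Matrix.cons_val_fin_one, Matrix.zero_apply, mul_zero, zero_add]
      have h5 : ((n * n - n : ℤ) : KM κ) * sym (-1 : κˣ) = 0 :=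
        even_mul_sym _ (by
          rw [show n * n - n = n * (n - 1) by ring]; exact Int.even_mul_pred_self n)
      set ε := sym (-1 : κˣ) with hε
      set u := sym w with hu'
      have h6 : (-u + (n : KM κ) * ε) * (-(sym (-w)) + (n : KM κ) * ε) =
          u * sym (-w) - (n : KM κ) * (u * ε + ε * u) +
            ((n : KM κ) * (n : KM κ) - (n : KM κ)) * ε * ε := by
        have c1 : u * ((n : KM κ) * ε) = (n : KM κ) * (u * ε) := by
          rw [← mul_assoc, hc, mul_assoc]
        have c2 : (n : KM κ) * ε * ((n : KM κ) * ε) =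
            (n : KM κ) * (n : KM κ) * ε * ε := by
          rw [mul_assoc, ← mul_assoc ε, hc, mul_assoc, mul_assoc, mul_assoc]
        rw [add_mul, mul_add, mul_add, neg_mul_neg, neg_mul, c1, c2, sub_mul, sub_mul, mul_add]
        rw [mul_neg, show (n : KM κ) * ε * sym (-w) =
          (n : KM κ) * (ε * ε) + (n : KM κ) * (ε * u) by
          rw [hu, mul_add, mul_assoc, mul_assoc]]
        rw [← mul_assoc (n : KM κ) ε ε]
        abel
      rw [h6, e1, e2]
      push_cast at h5
      rw [h5, zero_mul, neg_add_cancel, mul_zero, sub_zero, add_zero]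

/-- The ring homomorphism to the matrices. -/
def theta : KM (FractionRing A) →+* Matrix (Fin 2) (Fin 2) (KM κ) :=
  lift (mat hg hr) (mat_mul hg hr) (mat_steinberg hg hr)

/-- The specialization. -/
def spz : KM (FractionRing A) →+* KM κ :=
  lift (fun f => sym (ew hg hr f)) (fun a b => by rw [ew_mul, sym_mul]) (fun a b hab => by
    rcases sum_cases hg hr hab with h | h | ⟨_, _, h⟩ | ⟨_, h⟩
    · rw [h.2, sym_one, mul_zero]
    · rw [h.2, sym_one, zero_mul]
    · exact sym_mul_sym _ _ h
    · rw [h]; exact sym_mul_neg field_unit _)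

theorem spz_sym (f : (FractionRing A)ˣ) : spz hg hr (sym f) = sym (ew hg hr f) :=
  lift_sym _ _ _ _

theorem theta_spz (z : KM (FractionRing A)) : theta hg hr z 0 0 = spz hg hr z := by
  refine induction (S := Set.univ) (p := fun z => theta hg hr z 0 0 = spz hg hr z)
    (by simp) ?_ ?_ ?_ ?_ z
  · intro x y hx hy
    rw [map_add, map_add, ← hx, ← hy]; rfl
  · intro x hx
    rw [map_neg, map_neg, ← hx]; rfl
  · rw [map_one, map_one]; rfl
  · intro a _ z hz
    rw [map_mul, map_mul, spz_sym, ← hz, theta, lift_sym, Matrix.mul_apply, Fin.sum_univ_two]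
    simp [mat]

/-- The residue. -/
def rsd : KM (FractionRing A) →+ KM κ where
  toFun z := theta hg hr z 1 0
  map_zero' := by rw [map_zero]; rfl
  map_add' x y := by rw [map_add]; rfl

theorem rsd_mul (f : (FractionRing A)ˣ) (z : KM (FractionRing A)) :
    rsd hg hr (sym f * z) = (ev hg hr f : KM κ) * spz hg hr z +
      (- sym (ew hg hr f) + (ev hg hr f : KM κ) * sym (-1)) * rsd hg hr z := by
  rw [← theta_spz]
  change theta hg hr (sym f * z) 1 0 = _ * theta hg hr z 0 0 + _ * theta hg hr z 1 0
  rw [map_mul, theta, lift_sym, Matrix.mul_apply, Fin.sum_univ_two]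
  simp [mat]

omit [IsDomain A] [IsNoetherianRing A] in
theorem ne_zero_of_ne {a : A} (ha : r a ≠ 0) : a ≠ 0 := by
  rintro rfl
  exact ha (map_zero r)

/-- Residue of a product with an element outside the prime. -/
theorem rsd_unit {a : A} (ha : r a ≠ 0) (z : KM (FractionRing A)) :
    rsd hg hr (cls (algebraMap A _ a) * z) = - (cls (r a) * rsd hg hr z) := by
  rw [cls_algebraMap (ne_zero_of_ne ha), cls_ru r ha, rsd_mul, ev_fu hg hr ha,
    ew_fu hg hr ha]
  simp

theorem spz_cls {a : A} (ha : r a ≠ 0) :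
    spz hg hr (cls (algebraMap A _ a)) = cls (r a) := by
  rw [cls_algebraMap (ne_zero_of_ne ha), cls_ru r ha, spz_sym, ew_fu hg hr ha]

theorem rsd_one : rsd hg hr 1 = 0 := by
  change theta hg hr 1 1 0 = 0
  rw [map_one]
  simp

theorem rsd_symb (l : List A) (hl : ∀ a ∈ l, r a ≠ 0) :
    rsd hg hr (symb (algebraMap A _) l) = 0 := by
  induction l with
  | nil => rw [symb_nil, rsd_one]
  | cons a l ih =>
    rw [symb_cons, rsd_unit hg hr (hl a List.mem_cons_self),
      ih fun b hb => hl b (List.mem_cons_of_mem _ hb), mul_zero, neg_zero]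

theorem spz_symb (l : List A) (hl : ∀ a ∈ l, r a ≠ 0) :
    spz hg hr (symb (algebraMap A _) l) = symb r l := by
  induction l with
  | nil => rw [symb_nil, map_one, symb_nil]
  | cons a l ih =>
    rw [symb_cons, map_mul, spz_cls hg hr (hl a List.mem_cons_self),
      ih fun b hb => hl b (List.mem_cons_of_mem _ hb), symb_cons]

/-- Residue of a product with a generator of the prime. -/
theorem rsd_gen {g' : A} (hg' : Associated g g') (z : KM (FractionRing A))
    (hz : rsd hg hr z = 0) :
    rsd hg hr (cls (algebraMap A _ g') * z) = spz hg hr z := by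
  obtain ⟨v, hv⟩ := hg'
  have hvP : r (v : A) ≠ 0 := (v.isUnit.map r).ne_zero
  have hg0 : g' ≠ 0 := by
    rintro rfl
    exact hg.ne_zero (by
      rcases mul_eq_zero.mp hv with h | h
      · exact h
      · exact absurd h v.ne_zero)
  have hR : Rep r g (fu hg0) 1 (ru r hvP) := by
    refine ⟨v, 1, 1, 0, hvP, by rw [map_one]; exact one_ne_zero, by simp, ?_, ?_⟩
    · rw [fu_val, ← hv]; simp
    · rw [ru_val]; simp
  rw [cls_algebraMap hg0, rsd_mul, ev_eq hg hr hR, hz]
  simp

/-- The sign automorphism. -/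
def sgn (K : Type u) [Field K] : KM K →+* KM K :=
  lift (fun a => - sym a) (fun a b => by rw [sym_mul, neg_add]) (fun a b h => by
    rw [neg_mul_neg, sym_mul_sym a b h])

omit [IsDomain A] [IsNoetherianRing A] in
theorem sgn_sym {K : Type u} [Field K] (a : Kˣ) : sgn K (sym a) = - sym a := lift_sym _ _ _ _

theorem sgn_sgn {K : Type u} [Field K] (z : KM K) : sgn K (sgn K z) = z := by
  refine induction (S := Set.univ) (p := fun z => sgn K (sgn K z) = z) (by simp) ?_ ?_ ?_ ?_ z
  · intro x y hx hy
    rw [map_add, map_add, hx, hy]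
  · intro x hx
    rw [map_neg, map_neg, hx]
  · rw [map_one, map_one]
  · intro a _ z hz
    rw [map_mul, map_mul, hz, sgn_sym, map_neg, sgn_sym, neg_neg]

include hg hr in
theorem closure_units : Subgroup.closure (insert (fu hg.ne_zero)
    {f : (FractionRing A)ˣ | ∃ (a : A) (ha0 : a ≠ 0), r a ≠ 0 ∧ f = fu ha0}) = ⊤ := by
  rw [eq_top_iff]
  intro f _
  obtain ⟨n, w, b, c, i, j, hb, hc, hn, h1, h2⟩ := exists_rep hg hr f
  have hb0 := ne_zero_of_ne hb
  have hc0 := ne_zero_of_ne hc
  have hg0 := hg.ne_zero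
  have h3 : f * (fu hc0 * fu hg0 ^ j) = fu hg0 ^ i * fu hb0 := by
    ext
    push_cast
    rw [fu_val, fu_val, fu_val, ← map_pow, ← map_pow, ← map_mul, ← map_mul]
    exact h1
  have h4 : f = fu hg0 ^ i * fu hb0 * (fu hc0 * fu hg0 ^ j)⁻¹ := by
    rw [eq_mul_inv_iff_mul_eq, h3]
  rw [h4]
  have m1 : fu hg0 ∈ Subgroup.closure (insert (fu hg.ne_zero)
    {f : (FractionRing A)ˣ | ∃ (a : A) (ha0 : a ≠ 0), r a ≠ 0 ∧ f = fu ha0}) :=
    Subgroup.subset_closure (Set.mem_insert _ _)
  have m2 : ∀ (a : A) (ha0 : a ≠ 0), r a ≠ 0 → fu ha0 ∈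
      Subgroup.closure (insert (fu hg.ne_zero)
    {f : (FractionRing A)ˣ | ∃ (a : A) (ha0 : a ≠ 0), r a ≠ 0 ∧ f = fu ha0}) :=
    fun a ha0 ha => Subgroup.subset_closure (Set.mem_insert_of_mem _ ⟨a, ha0, ha, rfl⟩)
  exact mul_mem (mul_mem (pow_mem m1 _) (m2 b hb0 hb))
    (inv_mem (mul_mem (m2 c hc0 hc) (pow_mem m1 _)))

end

section point

variable {A : Type u} [CommRing A] [IsDomain A] [IsNoetherianRing A] {P : PrimeSpectrum A}
  {g : A}

omit [IsDomain A] [IsNoetherianRing A] in
theorem kappa_iff (hP : P.asIdeal = Ideal.span {g}) (a : A) : toKappa P a = 0 ↔ g ∣ a := by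
  rw [toKappa_eq_zero_iff, hP, Ideal.mem_span_singleton]

omit [IsDomain A] [IsNoetherianRing A] in
theorem toKappa_ne_zero (P : PrimeSpectrum A) {a : A} (ha : a ∉ P.asIdeal) :
    toKappa P a ≠ 0 := fun h => ha ((toKappa_eq_zero_iff P a).mp h)

variable (hg : Prime g) (hP : P.asIdeal = Ideal.span {g})

theorem isResidue_rsd : IsResidue P (rsd hg (kappa_iff hP)) := by
  refine ⟨fun l hl => rsd_symb hg (kappa_iff hP) l fun a ha => toKappa_ne_zero P (hl a ha), ?_⟩
  intro g' l hg' hl
  have hass : Associated g g' := by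
    rw [← Ideal.span_singleton_eq_span_singleton, ← hP, hg']
  have hl' : ∀ a ∈ l, toKappa P a ≠ 0 := fun a ha => toKappa_ne_zero P (hl a ha)
  change rsd hg (kappa_iff hP) (symb (algebraMap A _) (g' :: l)) = symb (toKappa P) l
  rw [symb_cons, rsd_gen hg (kappa_iff hP) hass _ (rsd_symb hg (kappa_iff hP) l hl'),
    spz_symb hg (kappa_iff hP) l hl']

include hg hP in
/-- The residue homomorphism is unique. -/
theorem residue_unique {D D' : KM (FractionRing A) →+ KM (kappa P)} (hD : IsResidue P D)
    (hD' : IsResidue P D') : D = D' := by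
  have hF := fraction_unit (A := A)
  have hr := kappa_iff hP
  set S : Set (KM (FractionRing A)) := {z | ∃ l : List A, (∀ a ∈ l, a ∉ P.asIdeal) ∧
    (z = symb (algebraMap A _) l ∨ z = symb (algebraMap A _) (g :: l))} with hS
  have hneg1 : (-1 : A) ∉ P.asIdeal := fun h =>
    P.isPrime.ne_top (P.asIdeal.eq_top_of_isUnit_mem h isUnit_one.neg)
  have hcls1 : cls (algebraMap A (FractionRing A) (-1)) = sym (-1) := by
    rw [← cls_unit]; congr 1; simp
  have hW : ∀ z : KM (FractionRing A), z ∈ AddSubgroup.closure S := by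
    refine induction (p := fun z => z ∈ AddSubgroup.closure S) (closure_units hg hr)
      ?_ ?_ ?_ ?_
    · intro x y hx hy; exact add_mem hx hy
    · intro x hx; exact neg_mem hx
    · exact AddSubgroup.subset_closure ⟨[], by simp, Or.inl rfl⟩
    · intro a ha z hz
      induction hz using AddSubgroup.closure_induction with
      | mem z hz =>
        obtain ⟨l, hl, hz⟩ := hz
        rcases ha with rfl | ⟨a, ha0, hra, rfl⟩
        · rw [← cls_algebraMap]
          rcases hz with rfl | rfl
          · exact AddSubgroup.subset_closure ⟨l, hl, Or.inr (symb_cons _ _ _).symm⟩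
          · rw [symb_cons, ← mul_assoc, cls_algebraMap hg.ne_zero, sym_sq hF,
              sym_anticomm hF, neg_mul, ← cls_algebraMap, mul_assoc, ← hcls1, ← symb_cons,
              ← symb_cons]
            refine neg_mem (AddSubgroup.subset_closure ⟨-1 :: l, ?_, Or.inr rfl⟩)
            intro b hb
            rcases List.mem_cons.mp hb with rfl | hb
            · exact hneg1
            · exact hl b hb
        · have haP : a ∉ P.asIdeal := fun h => hra ((toKappa_eq_zero_iff P a).mpr h)
          rw [← cls_algebraMap]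
          have hal : ∀ b ∈ a :: l, b ∉ P.asIdeal := by
            intro b hb
            rcases List.mem_cons.mp hb with rfl | hb
            · exact haP
            · exact hl b hb
          rcases hz with rfl | rfl
          · exact AddSubgroup.subset_closure ⟨a :: l, hal, Or.inl (symb_cons _ _ _).symm⟩
          · rw [symb_cons, ← mul_assoc, cls_algebraMap ha0, cls_algebraMap hg.ne_zero,
              sym_anticomm hF, neg_mul, ← cls_algebraMap, ← cls_algebraMap, mul_assoc,
              ← symb_cons, ← symb_cons]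
            exact neg_mem (AddSubgroup.subset_closure ⟨a :: l, hal, Or.inr rfl⟩)
      | zero => rw [mul_zero]; exact zero_mem _
      | add x y _ _ hx hy => rw [mul_add]; exact add_mem hx hy
      | neg x _ hx => rw [mul_neg]; exact neg_mem hx
  ext z
  have hz := hW z
  induction hz using AddSubgroup.closure_induction with
  | mem z hz =>
    obtain ⟨l, hl, rfl | rfl⟩ := hz
    · exact (hD.1 l hl).trans (hD'.1 l hl).symm
    · exact (hD.2 g l hP hl).trans (hD'.2 g l hP hl).symm
  | zero => simp
  | add x y _ _ hx hy => rw [map_add, map_add, hx, hy]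
  | neg x _ hx => rw [map_neg, map_neg, hx]

end point

end Vale.Agent.P178M
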