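import Vale.Agent.P178.Bdl.B1
import Mathlib.RingTheory.Ideal.UFD

/-!
Commutative algebra of two-dimensional regular local rings: the order trick.
-/

universe u

namespace Vale.Agent.P178.Surf

open IsLocalRing Polynomial

section general

variable {A : Type u} [CommRing A] [IsDomain A] [IsLocalRing A]

omit [IsDomain A] in
theorem mem_pow_succ {x y : A} (h : maximalIdeal A = Ideal.span {x, y}) (n : ℕ) :
    ∀ f ∈ maximalIdeal A ^ (n + 1), ∃ g ∈ maximalIdeal A ^ n, ∃ c, f = x * g + c * y ^ (n + 1) := by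
  have hx : x ∈ maximalIdeal A := by rw [h]; exact Ideal.subset_span (by simp)
  have hy : y ∈ maximalIdeal A := by rw [h]; exact Ideal.subset_span (by simp)
  induction n with
  | zero =>
    intro f hf
    rw [zero_add, pow_one, h, Ideal.mem_span_pair] at hf
    obtain ⟨a, b, rfl⟩ := hf
    exact ⟨a, by simp, b, by ring⟩
  | succ n ih =>
    intro f hf
    rw [pow_succ'] at hf
    refine Submodule.mul_induction_on hf ?_ ?_
    · intro u hu w hw
      obtain ⟨g, hg, c, rfl⟩ := ih w hw
      rw [h, Ideal.mem_span_pair] at hu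
      obtain ⟨a, b, rfl⟩ := hu
      refine ⟨a * (x * g + c * y ^ (n + 1)) + b * (y * g), ?_, b * c, by ring⟩
      refine add_mem (Ideal.mul_mem_left _ _ hw) (Ideal.mul_mem_left _ _ ?_)
      rw [pow_succ']
      exact Ideal.mul_mem_mul hy hg
    · rintro _ _ ⟨g, hg, c, rfl⟩ ⟨g', hg', c', rfl⟩
      exact ⟨g + g', add_mem hg hg', c + c', by ring⟩

theorem mem_of_mul_mem {x y : A} (h : maximalIdeal A = Ideal.span {x, y}) (hx : Prime x)
    (hxy : ¬ x ∣ y) {n : ℕ} {z : A} (hz : x * z ∈ maximalIdeal A ^ (n + 1)) :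
    z ∈ maximalIdeal A ^ n := by
  have hy : y ∈ maximalIdeal A := by rw [h]; exact Ideal.subset_span (by simp)
  obtain ⟨g, hg, c, hc⟩ := mem_pow_succ h n _ hz
  have h1 : x ∣ c * y ^ (n + 1) := ⟨z - g, by rw [mul_sub, hc]; ring⟩
  have h2 : x ∣ c := by
    rcases hx.dvd_or_dvd h1 with h2 | h2
    · exact h2
    · exact absurd (hx.dvd_of_dvd_pow h2) hxy
  obtain ⟨c', rfl⟩ := h2
  have h3 : z = g + c' * y ^ (n + 1) := by
    apply mul_left_cancel₀ hx.ne_zero
    rw [hc]; ring
  rw [h3]
  exact add_mem hg (Ideal.mul_mem_left _ _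
    (Ideal.pow_le_pow_right (Nat.le_succ n) (Ideal.pow_mem_pow hy (n + 1))))

omit [IsDomain A] in
theorem notMem_pow_succ {x y : A} (h : maximalIdeal A = Ideal.span {x, y}) (hx : Prime x)
    (hxy : ¬ x ∣ y) {n : ℕ} {c w : A} (hc : IsUnit c) :
    c * y ^ n + x * w ∉ maximalIdeal A ^ (n + 1) := by
  intro hm
  have hy : y ∈ maximalIdeal A := by rw [h]; exact Ideal.subset_span (by simp)
  obtain ⟨g, hg, d, hd⟩ := mem_pow_succ h n _ hm
  have h1 : x ∣ y ^ n * (c - d * y) := ⟨g - w, by linear_combination hd⟩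
  rcases hx.dvd_or_dvd h1 with h2 | h2
  · exact hxy (hx.dvd_of_dvd_pow h2)
  · have h3 : IsUnit (c - d * y) := by
      by_contra h4
      have h5 : c ∈ maximalIdeal A := by
        have := add_mem ((mem_maximalIdeal _).mpr h4) (Ideal.mul_mem_left _ d hy)
        simpa using this
      exact (mem_maximalIdeal _).mp h5 hc
    exact hx.not_isUnit (isUnit_of_dvd_unit h2 h3)

omit [IsDomain A] in
theorem exists_poly {X Y : A} (h : maximalIdeal A = Ideal.span {X, Y}) (e : ℕ) :
    ∀ f ∈ maximalIdeal A ^ e, ∃ p : A[X],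
      (∀ l : A, ∃ w, f = p.eval l * Y ^ e + (X - l * Y) * w) ∧
      (p.map (residue A) = 0 → f ∈ maximalIdeal A ^ (e + 1)) := by
  have hX : X ∈ maximalIdeal A := by rw [h]; exact Ideal.subset_span (by simp)
  have hY : Y ∈ maximalIdeal A := by rw [h]; exact Ideal.subset_span (by simp)
  induction e with
  | zero =>
    intro f _
    refine ⟨C f, fun l => ⟨0, by simp⟩, fun h0 => ?_⟩
    rw [map_C, C_eq_zero, residue_eq_zero_iff] at h0
    simpa using h0
  | succ e ih =>
    intro f hf
    obtain ⟨g, hg, c, rfl⟩ := mem_pow_succ h e f hf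
    obtain ⟨p, hp1, hp2⟩ := ih g hg
    refine ⟨p * Polynomial.X + C c, fun l => ?_, fun h0 => ?_⟩
    · obtain ⟨w, hw⟩ := hp1 l
      refine ⟨g + l * Y * w, ?_⟩
      rw [eval_add, eval_mul, eval_X, eval_C]
      linear_combination (l * Y) * hw
    · rw [Polynomial.map_add, Polynomial.map_mul, map_X, map_C] at h0
      have h1 : residue A c = 0 := by
        have := congrArg (fun q => coeff q 0) h0
        simpa using this
      rw [h1, C_0, add_zero] at h0
      have h2 : p.map (residue A) = 0 := by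
        rcases mul_eq_zero.mp h0 with h2 | h2
        · exact h2
        · exact absurd h2 Polynomial.X_ne_zero
      rw [residue_eq_zero_iff] at h1
      refine add_mem ?_ ?_
      · rw [pow_succ' _ (e + 1)]
        exact Ideal.mul_mem_mul hX (hp2 h2)
      · rw [pow_succ' _ (e + 1)]
        exact Ideal.mul_mem_mul h1 (Ideal.pow_mem_pow hY (e + 1))

omit [IsDomain A] in
theorem exists_transversal [Infinite (ResidueField A)]
    (hpar : ∃ X Y : A, maximalIdeal A = Ideal.span {X, Y}) {f₁ f₂ : A} {e₁ e₂ : ℕ}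
    (h₁ : f₁ ∈ maximalIdeal A ^ e₁) (h₁' : f₁ ∉ maximalIdeal A ^ (e₁ + 1))
    (h₂ : f₂ ∈ maximalIdeal A ^ e₂) (h₂' : f₂ ∉ maximalIdeal A ^ (e₂ + 1)) :
    ∃ x y : A, maximalIdeal A = Ideal.span {x, y} ∧
      (∃ c w, IsUnit c ∧ f₁ = c * y ^ e₁ + x * w) ∧
      (∃ c w, IsUnit c ∧ f₂ = c * y ^ e₂ + x * w) := by
  obtain ⟨X, Y, h⟩ := hpar
  obtain ⟨p₁, hp₁, hp₁'⟩ := exists_poly h e₁ f₁ h₁
  obtain ⟨p₂, hp₂, hp₂'⟩ := exists_poly h e₂ f₂ h₂
  have h0 : p₁.map (residue A) * p₂.map (residue A) ≠ 0 :=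
    mul_ne_zero (fun h3 => h₁' (hp₁' h3)) (fun h3 => h₂' (hp₂' h3))
  obtain ⟨l, hl⟩ : ∃ l : ResidueField A, (p₁.map (residue A) * p₂.map (residue A)).eval l ≠ 0 := by
    by_contra! hcon
    exact h0 (Polynomial.funext fun r => by rw [hcon r, eval_zero])
  obtain ⟨l, rfl⟩ := residue_surjective l
  rw [eval_mul, eval_map, eval_map, eval₂_at_apply, eval₂_at_apply] at hl
  obtain ⟨hl1, hl2⟩ := mul_ne_zero_iff.mp hl
  refine ⟨X - l * Y, Y, ?_, ?_, ?_⟩
  · rw [h]
    apply le_antisymm
    · rw [Ideal.span_le]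
      rintro z (rfl | rfl)
      · exact Ideal.mem_span_pair.mpr ⟨1, l, by ring⟩
      · exact Ideal.subset_span (by simp)
    · rw [Ideal.span_le]
      rintro z (rfl | rfl)
      · exact Ideal.mem_span_pair.mpr ⟨1, -l, by ring⟩
      · exact Ideal.subset_span (by simp)
  · obtain ⟨w, hw⟩ := hp₁ l
    exact ⟨_, w, (residue_ne_zero_iff_isUnit _).mp hl1, hw⟩
  · obtain ⟨w, hw⟩ := hp₂ l
    exact ⟨_, w, (residue_ne_zero_iff_isUnit _).mp hl2, hw⟩

/-- The order trick: `m ^ (e + 1) ⊆ x m ^ e + (p)`. -/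
theorem order_trick {x y : A} (h : maximalIdeal A = Ideal.span {x, y}) (hx : Prime x)
    (hxy : ¬ x ∣ y) {e : ℕ} {p c w : A} (hp : p ∈ maximalIdeal A ^ (e + 1)) (hc : IsUnit c)
    (hpc : p = c * y ^ (e + 1) + x * w) (f : A) (hf : f ∈ maximalIdeal A ^ (e + 1)) :
    ∃ g ∈ maximalIdeal A ^ e, ∃ b, f = x * g + p * b := by
  have hy : y ∈ maximalIdeal A := by rw [h]; exact Ideal.subset_span (by simp)
  have hw : w ∈ maximalIdeal A ^ e := by
    apply mem_of_mul_mem h hx hxy
    have : x * w = p - c * y ^ (e + 1) := by rw [hpc]; ring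
    rw [this]
    exact sub_mem hp (Ideal.mul_mem_left _ _ (Ideal.pow_mem_pow hy _))
  obtain ⟨g, hg, d, rfl⟩ := mem_pow_succ h e f hf
  obtain ⟨c', hc'⟩ := hc.exists_right_inv
  refine ⟨g - d * c' * w, sub_mem hg (Ideal.mul_mem_left _ _ hw), d * c', ?_⟩
  linear_combination (-(d * c')) * hpc - d * y ^ (e + 1) * hc'

omit [IsDomain A] in
theorem exists_notMem_pow [IsNoetherianRing A] {p a : A} (hp : ¬ IsUnit p) (ha : ¬ p ∣ a) :
    ∃ N : ℕ, ∀ b, a - p * b ∉ maximalIdeal A ^ N := by
  have hne : Ideal.span {p} ≠ ⊤ := by rwa [Ne, Ideal.span_singleton_eq_top]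
  have : Nontrivial (A ⧸ Ideal.span {p}) := Ideal.Quotient.nontrivial_iff.mpr hne
  have : IsLocalRing (A ⧸ Ideal.span {p}) :=
    IsLocalRing.of_surjective' (Ideal.Quotient.mk _) Ideal.Quotient.mk_surjective
  have hle : (maximalIdeal A).map (Ideal.Quotient.mk (Ideal.span {p})) ≤
      maximalIdeal (A ⧸ Ideal.span {p}) := by
    rw [Ideal.map_le_iff_le_comap]
    intro z hz
    rw [Ideal.mem_comap, mem_maximalIdeal, mem_nonunits_iff]
    intro hu
    obtain ⟨t, ht⟩ := hu.exists_right_inv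
    obtain ⟨t, rfl⟩ := Ideal.Quotient.mk_surjective t
    rw [← map_mul, ← map_one (Ideal.Quotient.mk (Ideal.span {p})), Ideal.Quotient.eq,
      Ideal.mem_span_singleton] at ht
    have h1 : z * t - 1 ∈ maximalIdeal A := by
      obtain ⟨s, hs⟩ := ht
      rw [hs]
      exact Ideal.mul_mem_right _ _ ((mem_maximalIdeal _).mpr hp)
    have h2 : (1 : A) ∈ maximalIdeal A := by
      have := sub_mem (Ideal.mul_mem_right t _ hz) h1
      rwa [sub_sub_cancel] at this
    exact (mem_maximalIdeal _).mp h2 isUnit_one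
  have hbot := Ideal.iInf_pow_eq_bot_of_isLocalRing (maximalIdeal (A ⧸ Ideal.span {p}))
    (Ideal.IsPrime.ne_top inferInstance)
  have ha0 : Ideal.Quotient.mk (Ideal.span {p}) a ≠ 0 := by
    rw [Ne, Ideal.Quotient.eq_zero_iff_mem, Ideal.mem_span_singleton]
    exact ha
  by_contra! hcon
  apply ha0
  rw [← Ideal.mem_bot, ← hbot, Ideal.mem_iInf]
  intro N
  obtain ⟨b, hb⟩ := hcon N
  have h1 := Ideal.mem_map_of_mem (Ideal.Quotient.mk (Ideal.span {p})) hb
  rw [Ideal.map_pow] at h1
  have h2 : Ideal.Quotient.mk (Ideal.span {p}) (a - p * b) =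
      Ideal.Quotient.mk (Ideal.span {p}) a := by
    rw [Ideal.Quotient.eq, Ideal.mem_span_singleton]
    exact ⟨-b, by ring⟩
  rw [h2] at h1
  exact Ideal.pow_right_mono hle N h1

omit [IsDomain A] in
/-- Every element prime to `p` is congruent to `x ^ r * f` with `f` of small order. -/
theorem exists_reduction [IsNoetherianRing A] {p x : A} {e : ℕ} (hp : ¬ IsUnit p)
    (hred : ∀ f ∈ maximalIdeal A ^ (e + 1), ∃ g ∈ maximalIdeal A ^ e, ∃ b, f = x * g + p * b)
    (hx : x ∈ maximalIdeal A) {a : A} (ha : ¬ p ∣ a) :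
    ∃ (r : ℕ) (f b : A), f ∉ maximalIdeal A ^ (e + 1) ∧ a = x ^ r * f + p * b := by
  obtain ⟨N, hN⟩ := exists_notMem_pow hp ha
  clear ha
  induction N generalizing a with
  | zero => exact absurd (by simp : a - p * 0 ∈ maximalIdeal A ^ 0) (hN 0)
  | succ N ih =>
    by_cases hae : a ∈ maximalIdeal A ^ (e + 1)
    · obtain ⟨g, hg, b, hb⟩ := hred a hae
      obtain ⟨r, f, b', hf, hgf⟩ := ih (a := g) (by
        intro b' hb'
        apply hN (b + x * b')
        have : a - p * (b + x * b') = x * (g - p * b') := by rw [hb]; ring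
        rw [this, pow_succ']
        exact Ideal.mul_mem_mul hx hb')
      exact ⟨r + 1, f, x * b' + b, hf, by rw [hb, hgf]; ring⟩
    · exact ⟨0, a, 0, hae, by ring⟩

omit [IsDomain A] in
/-- Orders exist. -/
theorem exists_order [IsNoetherianRing A] {f : A} (hf : f ≠ 0) :
    ∃ e : ℕ, f ∈ maximalIdeal A ^ e ∧ f ∉ maximalIdeal A ^ (e + 1) := by
  have hbot := Ideal.iInf_pow_eq_bot_of_isLocalRing (maximalIdeal A)
    (Ideal.IsPrime.ne_top inferInstance)
  have h1 : ∃ N, f ∉ maximalIdeal A ^ N := by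
    by_contra! hcon
    apply hf
    rw [← Ideal.mem_bot, ← hbot, Ideal.mem_iInf]
    exact hcon
  classical
  obtain ⟨e, he⟩ : ∃ e, Nat.find h1 = e + 1 := by
    refine Nat.exists_eq_succ_of_ne_zero fun h0 => ?_
    have := Nat.find_spec h1
    rw [h0] at this
    simp at this
  refine ⟨e, ?_, ?_⟩
  · by_contra h2
    have := Nat.find_min' h1 h2
    omega
  · have := Nat.find_spec h1
    rwa [he] at this

end general

section regular

variable {A : Type u} [CommRing A] [IsRegularLocalRing A]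

theorem exists_par (hdim : ringKrullDim A = 2) :
    ∃ x y : A, maximalIdeal A = Ideal.span {x, y} := by
  have h0 := IsRegularLocalRing.spanFinrank_maximalIdeal (R := A)
  rw [hdim] at h0
  have h1 : (maximalIdeal A).spanFinrank = 2 := by exact_mod_cast h0
  have h2 : (maximalIdeal A).generators.ncard = 2 :=
    (Submodule.FG.generators_ncard (maximalIdeal A).fg_of_isNoetherianRing).trans h1
  obtain ⟨x, y, _, hxy⟩ := Set.ncard_eq_two.mp h2
  exact ⟨x, y, by rw [← hxy]; exact (Submodule.span_generators _).symm⟩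

theorem quotient_facts (hdim : ringKrullDim A = 2) {x y : A}
    (h : maximalIdeal A = Ideal.span {x, y}) :
    Prime x ∧ ¬ x ∣ y ∧ IsPrincipalIdealRing (A ⧸ Ideal.span {x}) := by
  have hr1 : Set.range (fun _ : Fin 1 => x) = {x} := by simp
  have hr2 : Set.range (fun _ : Fin 1 => y) = {y} := by simp
  have hA : IsDomain A := isDomain_of_isRegularLocalRing A
  obtain ⟨h1, h2⟩ := regular_quotient 1 1 (fun _ : Fin 1 => x) (fun _ : Fin 1 => y)
    (by rw [hr1, hr2, h, Ideal.span_insert]) (by rw [hdim]; norm_num)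
  rw [hr1] at h1 h2
  have hdom : IsDomain (A ⧸ Ideal.span {x}) := isDomain_of_isRegularLocalRing _
  have hprime : (Ideal.span {x}).IsPrime := (Ideal.Quotient.isDomain_iff_prime _).mp hdom
  have hx0 : x ≠ 0 := by
    rintro rfl
    have e : ringKrullDim (A ⧸ Ideal.span {(0 : A)}) = ringKrullDim A := by
      rw [Ideal.span_singleton_zero]
      exact ringKrullDim_eq_of_ringEquiv (RingEquiv.quotientBot A)
    rw [e, hdim] at h2
    norm_num at h2
  have hx : Prime x := (Ideal.span_singleton_prime hx0).mp hprime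
  refine ⟨hx, ?_, ?_⟩
  · intro hxy
    have h3 : maximalIdeal A = Ideal.span {x} := by
      rw [h]
      apply le_antisymm
      · rw [Ideal.span_le]
        rintro z (rfl | rfl)
        · exact Ideal.mem_span_singleton_self _
        · exact Ideal.mem_span_singleton.mpr hxy
      · exact Ideal.span_mono (by simp)
    have hf : IsField (A ⧸ Ideal.span {x}) := by
      rw [← h3]
      exact (Ideal.Quotient.maximal_ideal_iff_isField_quotient _).mp (maximalIdeal.isMaximal A)
    have := ringKrullDim_eq_zero_of_isField hf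
    rw [h2] at this
    norm_num at this
  · have hfr := (IsRegularLocalRing.iff_finrank_cotangentSpace (A ⧸ Ideal.span {x})).mp h1
    rw [h2] at hfr
    have h6 : Module.finrank (ResidueField (A ⧸ Ideal.span {x}))
        (CotangentSpace (A ⧸ Ideal.span {x})) = 1 := by exact_mod_cast hfr
    exact ((tfae_of_isNoetherianRing_of_isLocalRing_of_isDomain
      (A ⧸ Ideal.span {x})).out 5 0).mp h6.le

theorem exists_par_of_notMem_sq (hdim : ringKrullDim A = 2) {x : A} (hx : x ∈ maximalIdeal A)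
    (hx2 : x ∉ maximalIdeal A ^ 2) : ∃ y, maximalIdeal A = Ideal.span {x, y} := by
  have hfr := (IsRegularLocalRing.iff_finrank_cotangentSpace A).mp inferInstance
  rw [hdim] at hfr
  have h2 : Module.finrank (ResidueField A) (CotangentSpace A) = 2 := by exact_mod_cast hfr
  obtain ⟨z, hz⟩ := exists_gens_of_notMem_sq 1 (by omega) x hx hx2
  refine ⟨z 0, ?_⟩
  rw [hz, Ideal.span_insert]
  congr 2
  ext t
  simp [eq_comm, Fin.exists_fin_one]

theorem isPrincipal_of_height_eq_one (hdim : ringKrullDim A = 2) (P : Ideal A) [P.IsPrime]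
    (hP : P.height = 1) : P.IsPrincipal := by
  have hA : IsDomain A := isDomain_of_isRegularLocalRing A
  obtain ⟨x, y, h, hxP⟩ : ∃ x y : A, maximalIdeal A = Ideal.span {x, y} ∧ x ∉ P := by
    obtain ⟨X, Y, h⟩ := exists_par hdim
    by_cases hX : X ∈ P
    · by_cases hY : Y ∈ P
      · exfalso
        have h1 : maximalIdeal A = P := by
          apply le_antisymm
          · rw [h, Ideal.span_le]
            rintro z (rfl | rfl)
            · exact hX
            · exact hY
          · exact le_maximalIdeal (Ideal.IsPrime.ne_top ‹_›)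
        have h2 := maximalIdeal_height_eq_ringKrullDim (R := A)
        rw [h1, hP, hdim] at h2
        norm_cast at h2
      · exact ⟨Y, X, by rw [h, Set.pair_comm], hY⟩
    · exact ⟨X, Y, h, hX⟩
  obtain ⟨_, _, hpid⟩ := quotient_facts hdim h
  have hxm : x ∈ maximalIdeal A := by rw [h]; exact Ideal.subset_span (by simp)
  obtain ⟨g, hg⟩ := (IsPrincipalIdealRing.principal
    (P.map (Ideal.Quotient.mk (Ideal.span {x})))).principal
  have hgP : g ∈ P.map (Ideal.Quotient.mk (Ideal.span {x})) := by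
    rw [hg]; exact Submodule.mem_span_singleton_self _
  obtain ⟨f, hf, rfl⟩ := (Ideal.mem_map_iff_of_surjective _ Ideal.Quotient.mk_surjective).mp hgP
  have hle : P ≤ Ideal.span {f} ⊔ maximalIdeal A • P := by
    intro p hp
    have h1 : Ideal.Quotient.mk (Ideal.span {x}) p ∈
        P.map (Ideal.Quotient.mk (Ideal.span {x})) := Ideal.mem_map_of_mem _ hp
    rw [hg, Submodule.mem_span_singleton] at h1
    obtain ⟨a, ha⟩ := h1
    obtain ⟨a, rfl⟩ := Ideal.Quotient.mk_surjective a
    rw [smul_eq_mul, ← map_mul, Ideal.Quotient.eq, Ideal.mem_span_singleton] at ha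
    obtain ⟨b, hb⟩ := ha
    have hbP : x * b ∈ P := by
      rw [← hb]
      exact sub_mem (Ideal.mul_mem_left _ _ hf) hp
    have hb' : b ∈ P := (Ideal.IsPrime.mem_or_mem ‹_› hbP).resolve_left hxP
    have hp' : p = a * f + x * (-b) := by linear_combination -hb
    rw [hp']
    refine Submodule.add_mem_sup (Ideal.mul_mem_left _ _ (Ideal.mem_span_singleton_self f)) ?_
    exact Ideal.mul_mem_mul hxm (neg_mem hb')
  have h3 : P ≤ Ideal.span {f} :=
    Submodule.le_of_le_smul_of_le_jacobson_bot P.fg_of_isNoetherianRing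
      (maximalIdeal_le_jacobson _) hle
  exact ⟨f, le_antisymm h3 ((Ideal.span_singleton_le_iff_mem _).mpr hf)⟩

theorem isUFD (hdim : ringKrullDim A = 2) [IsDomain A] : UniqueFactorizationMonoid A :=
  UniqueFactorizationMonoid.of_forall_isPrincipal_of_height_eq_one
    fun P _ hP => isPrincipal_of_height_eq_one hdim P hP

theorem exists_prime_generator (hdim : ringKrullDim A = 2) (P : Ideal A) [P.IsPrime]
    (hP : P.height = 1) : ∃ g, Prime g ∧ P = Ideal.span {g} := by
  have hA : IsDomain A := isDomain_of_isRegularLocalRing A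
  obtain ⟨g, hg⟩ := (isPrincipal_of_height_eq_one hdim P hP).principal
  have hg' : P = Ideal.span {g} := hg
  have hg0 : g ≠ 0 := by
    rintro rfl
    rw [Ideal.span_singleton_zero] at hg'
    exact Ideal.ne_bot_of_height_eq_one hP hg'
  refine ⟨g, (Ideal.span_singleton_prime hg0).mp (by rw [← hg']; infer_instance), hg'⟩

theorem height_span_prime [IsDomain A] {g : A} (hg : Prime g) : (Ideal.span {g}).height = 1 :=
  Ideal.height_span_singleton_eq_one_of_mem_nonZeroDivisors
    (mem_nonZeroDivisors_of_ne_zero hg.ne_zero) hg.not_isUnit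

end regular

end Vale.Agent.P178.Surf
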