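import Vale.Agent.P178.H270.KM

/-!
The valuation of a principal prime and the classes of units in a residue field.
-/

universe u

noncomputable section

namespace Vale.Agent.P178M

open Vale.Agent.P178.Gersten

section

variable {A : Type u} [CommRing A] [IsDomain A]

theorem fraction_unit (x : FractionRing A) : x = 0 ∨ IsUnit x := by
  by_cases h : x = 0
  · exact Or.inl h
  · exact Or.inr (Ne.isUnit h)

theorem field_unit {K : Type u} [Field K] (x : K) : x = 0 ∨ IsUnit x := by
  by_cases h : x = 0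
  · exact Or.inl h
  · exact Or.inr (Ne.isUnit h)

theorem algebraMap_isUnit {a : A} (ha : a ≠ 0) :
    IsUnit (algebraMap A (FractionRing A) a) := by
  rcases fraction_unit (algebraMap A (FractionRing A) a) with h | h
  · exact absurd ((map_eq_zero_iff _ (IsFractionRing.injective A (FractionRing A))).mp h) ha
  · exact h

omit [IsDomain A] in
theorem toKappa_eq_zero_iff (P : PrimeSpectrum A) (a : A) :
    toKappa P a = 0 ↔ a ∈ P.asIdeal := by
  have hinj := IsFractionRing.injective (A ⧸ P.asIdeal) (FractionRing (A ⧸ P.asIdeal))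
  have h1 : (toKappa P a = 0) ↔ algebraMap (A ⧸ P.asIdeal) (FractionRing (A ⧸ P.asIdeal))
      (Ideal.Quotient.mk P.asIdeal a) = 0 := Iff.rfl
  rw [h1, map_eq_zero_iff _ hinj, Ideal.Quotient.eq_zero_iff_mem]

/-- The unit of the fraction field given by a nonzero element. -/
def fu {a : A} (ha : a ≠ 0) : (FractionRing A)ˣ := (algebraMap_isUnit ha).unit

theorem fu_val {a : A} (ha : a ≠ 0) : (fu ha : FractionRing A) = algebraMap A _ a := rfl

theorem cls_algebraMap {a : A} (ha : a ≠ 0) :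
    cls (algebraMap A (FractionRing A) a) = sym (fu ha) := cls_of_isUnit _

theorem fu_mul {a b : A} (ha : a ≠ 0) (hb : b ≠ 0) (hab : a * b ≠ 0) :
    fu hab = fu ha * fu hb := by
  ext
  rw [Units.val_mul, fu_val, fu_val, fu_val, map_mul]

theorem cls_mulF {a b : A} (ha : a ≠ 0) (hb : b ≠ 0) :
    cls (algebraMap A (FractionRing A) (a * b)) =
      cls (algebraMap A (FractionRing A) a) + cls (algebraMap A (FractionRing A) b) := by
  rw [cls_algebraMap ha, cls_algebraMap hb, cls_algebraMap (mul_ne_zero ha hb), ← sym_mul,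
    fu_mul ha hb]

end

section

variable {A : Type u} [CommRing A] {κ : Type u} [Field κ] (r : A →+* κ)

/-- The unit of the field `κ` given by an element of `A`. -/
def ru {a : A} (ha : r a ≠ 0) : κˣ := Units.mk0 (r a) ha

theorem ru_val {a : A} (ha : r a ≠ 0) : (ru r ha : κ) = r a := rfl

theorem ru_div {b c : A} (hb : r b ≠ 0) (hc : r c ≠ 0) :
    ((ru r hb * (ru r hc)⁻¹ : κˣ) : κ) * r c = r b := by
  have : ((ru r hc)⁻¹ : κˣ) * r c = 1 := by
    rw [← ru_val r hc, Units.inv_mul]
  rw [Units.val_mul, mul_assoc, this, mul_one, ru_val]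

theorem cls_ru {a : A} (ha : r a ≠ 0) : cls (r a) = sym (ru r ha) := by
  rw [← cls_unit, ru_val]

end

section

variable {A : Type u} [CommRing A] [IsDomain A] [IsNoetherianRing A] {κ : Type u} [Field κ]
  {r : A →+* κ} {g : A}

/-- `f = g ^ n * (b / c)` with `b`, `c` outside the kernel of `r`, `w` the class of `b / c`. -/
def Rep (r : A →+* κ) (g : A) (f : (FractionRing A)ˣ) (n : ℤ) (w : κˣ) : Prop :=
  ∃ (b c : A) (i j : ℕ), r b ≠ 0 ∧ r c ≠ 0 ∧ n = i - j ∧
    (f : FractionRing A) * algebraMap A _ (c * g ^ j) = algebraMap A _ (g ^ i * b) ∧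
    (w : κ) * r c = r b

omit [IsNoetherianRing A] in
theorem pow_mul_unique (hg : Prime g) {m n : ℕ} {s t : A} (hs : ¬ g ∣ s) (ht : ¬ g ∣ t)
    (h : g ^ m * s = g ^ n * t) : m = n ∧ s = t := by
  have key : ∀ {m n : ℕ} {s t : A}, ¬ g ∣ s → g ^ m * s = g ^ n * t → n ≤ m := by
    intro m n s t hs h
    by_contra hlt
    push Not at hlt
    obtain ⟨k, rfl⟩ := Nat.exists_eq_add_of_lt hlt
    apply hs
    have h1 : g ^ m * s = g ^ m * (g * (g ^ k * t)) := by rw [h]; ring
    exact ⟨_, mul_left_cancel₀ (pow_ne_zero _ hg.ne_zero) h1⟩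
  have h1 : m = n := le_antisymm (key ht h.symm) (key hs h)
  subst h1
  exact ⟨rfl, mul_left_cancel₀ (pow_ne_zero _ hg.ne_zero) h⟩

variable (hg : Prime g) (hr : ∀ a, r a = 0 ↔ g ∣ a)

include hg hr in
omit [IsNoetherianRing A] in
theorem Rep.unique {f : (FractionRing A)ˣ} {n n' : ℤ} {w w' : κˣ}
    (h : Rep r g f n w) (h' : Rep r g f n' w') : n = n' ∧ w = w' := by
  obtain ⟨b, c, i, j, hb, hc, hn, h1, h2⟩ := h
  obtain ⟨b', c', i', j', hb', hc', hn', h1', h2'⟩ := h'
  have h3 : g ^ (i + j') * (b * c') = g ^ (i' + j) * (b' * c) := by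
    apply IsFractionRing.injective A (FractionRing A)
    have e1 : algebraMap A (FractionRing A) (g ^ (i + j') * (b * c')) =
        algebraMap A _ (g ^ i * b) * algebraMap A _ (c' * g ^ j') := by
      rw [← map_mul]; congr 1; ring
    have e2 : algebraMap A (FractionRing A) (g ^ (i' + j) * (b' * c)) =
        algebraMap A _ (g ^ i' * b') * algebraMap A _ (c * g ^ j) := by
      rw [← map_mul]; congr 1; ring
    rw [e1, e2, ← h1, ← h1']
    ring
  have hnd : ∀ {x y : A}, r x ≠ 0 → r y ≠ 0 → ¬ g ∣ x * y := by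
    intro x y hx hy hxy
    rw [← hr, map_mul] at hxy
    exact mul_ne_zero hx hy hxy
  obtain ⟨h4, h5⟩ := pow_mul_unique hg (hnd hb hc') (hnd hb' hc) h3
  refine ⟨by omega, ?_⟩
  ext
  have h6 : r b * r c' = r b' * r c := by
    rw [← map_mul, ← map_mul, h5]
  rw [← h2, ← h2'] at h6
  have h7 : (w : κ) * (r c * r c') = (w' : κ) * (r c * r c') := by
    linear_combination h6
  exact mul_right_cancel₀ (mul_ne_zero hc hc') h7

omit [IsDomain A] [IsNoetherianRing A] in
theorem Rep.mul {f f' : (FractionRing A)ˣ} {n n' : ℤ} {w w' : κˣ}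
    (h : Rep r g f n w) (h' : Rep r g f' n' w') : Rep r g (f * f') (n + n') (w * w') := by
  obtain ⟨b, c, i, j, hb, hc, hn, h1, h2⟩ := h
  obtain ⟨b', c', i', j', hb', hc', hn', h1', h2'⟩ := h'
  refine ⟨b * b', c * c', i + i', j + j', ?_, ?_, by push_cast; omega, ?_, ?_⟩
  · rw [map_mul]; exact mul_ne_zero hb hb'
  · rw [map_mul]; exact mul_ne_zero hc hc'
  · have e1 : algebraMap A (FractionRing A) (c * c' * g ^ (j + j')) =
        algebraMap A _ (c * g ^ j) * algebraMap A _ (c' * g ^ j') := by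
      rw [← map_mul]; congr 1; ring
    have e2 : algebraMap A (FractionRing A) (g ^ (i + i') * (b * b')) =
        algebraMap A _ (g ^ i * b) * algebraMap A _ (g ^ i' * b') := by
      rw [← map_mul]; congr 1; ring
    rw [e1, e2, ← h1, ← h1']
    push_cast
    ring
  · rw [map_mul, map_mul, ← h2, ← h2']
    push_cast
    ring

omit [IsNoetherianRing A] in
/-- An element of `A` outside the kernel. -/
theorem Rep.of_ne {a : A} (ha : r a ≠ 0) (ha0 : a ≠ 0) :
    Rep r g (fu ha0) 0 (ru r ha) := by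
  refine ⟨a, 1, 0, 0, ha, by rw [map_one]; exact one_ne_zero, by simp, ?_, ?_⟩
  · rw [fu_val]; simp
  · rw [ru_val]; simp

include hg hr in
theorem exists_rep (f : (FractionRing A)ˣ) : ∃ n w, Rep r g f n w := by
  obtain ⟨⟨a, s⟩, h⟩ := IsLocalization.surj (nonZeroDivisors A) (f : FractionRing A)
  simp only at h
  have hs0 : (s : A) ≠ 0 := nonZeroDivisors.ne_zero s.2
  have hr0 : a ≠ 0 := by
    rintro rfl
    rw [map_zero] at h
    have h2 : IsUnit ((f : FractionRing A) * algebraMap A (FractionRing A) s) :=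
      f.isUnit.mul (algebraMap_isUnit hs0)
    rw [h] at h2
    exact not_isUnit_zero h2
  obtain ⟨i, b, hb, h1⟩ := WfDvdMonoid.max_power_factor hr0 hg.irreducible
  obtain ⟨j, c, hc, h2⟩ := WfDvdMonoid.max_power_factor hs0 hg.irreducible
  have hb' : r b ≠ 0 := fun h => hb ((hr b).mp h)
  have hc' : r c ≠ 0 := fun h => hc ((hr c).mp h)
  refine ⟨i - j, ru r hb' * (ru r hc')⁻¹, b, c, i, j, hb', hc', rfl, ?_, ?_⟩
  · rw [← h1, mul_comm c, ← h2, h]
  · exact ru_div r hb' hc'

/-- The valuation of `f`. -/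
def ev (f : (FractionRing A)ˣ) : ℤ := (exists_rep hg hr f).choose

/-- The class of `f / g ^ (ev f)`. -/
def ew (f : (FractionRing A)ˣ) : κˣ := (exists_rep hg hr f).choose_spec.choose

theorem ev_ew (f : (FractionRing A)ˣ) : Rep r g f (ev hg hr f) (ew hg hr f) :=
  (exists_rep hg hr f).choose_spec.choose_spec

theorem ev_eq {f : (FractionRing A)ˣ} {n : ℤ} {w : κˣ} (h : Rep r g f n w) :
    ev hg hr f = n := ((ev_ew hg hr f).unique hg hr h).1

theorem ew_eq {f : (FractionRing A)ˣ} {n : ℤ} {w : κˣ} (h : Rep r g f n w) :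
    ew hg hr f = w := ((ev_ew hg hr f).unique hg hr h).2

theorem ev_mul (f f' : (FractionRing A)ˣ) :
    ev hg hr (f * f') = ev hg hr f + ev hg hr f' :=
  ev_eq hg hr ((ev_ew hg hr f).mul (ev_ew hg hr f'))

theorem ew_mul (f f' : (FractionRing A)ˣ) :
    ew hg hr (f * f') = ew hg hr f * ew hg hr f' :=
  ew_eq hg hr ((ev_ew hg hr f).mul (ev_ew hg hr f'))

theorem ew_fu {a : A} (ha : r a ≠ 0) (ha0 : a ≠ 0) : ew hg hr (fu ha0) = ru r ha :=
  ew_eq hg hr (Rep.of_ne ha ha0)

theorem ev_fu {a : A} (ha : r a ≠ 0) (ha0 : a ≠ 0) : ev hg hr (fu ha0) = 0 :=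
  ev_eq hg hr (Rep.of_ne (g := g) ha ha0)

/-- The four cases for `a + b = 1`. -/
theorem sum_cases {a b : (FractionRing A)ˣ} (hab : (a : FractionRing A) + b = 1) :
    (ev hg hr b = 0 ∧ ew hg hr b = 1) ∨ (ev hg hr a = 0 ∧ ew hg hr a = 1) ∨
    (ev hg hr a = 0 ∧ ev hg hr b = 0 ∧
      ((ew hg hr a : κˣ) : κ) + (ew hg hr b : κˣ) = 1) ∨
    (ev hg hr b = ev hg hr a ∧ ew hg hr b = - ew hg hr a) := by
  obtain ⟨s, t, i, j, hs, ht, hn, h1, h2⟩ := ev_ew hg hr a
  have hg0 : algebraMap A (FractionRing A) g ≠ 0 := (algebraMap_isUnit hg.ne_zero).ne_zero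
  have hgP : r g = 0 := (hr g).mpr dvd_rfl
  have hb : (b : FractionRing A) = 1 - a := by rw [← hab]; ring
  rcases lt_trichotomy i j with hij | hij | hij
  · -- negative valuation
    obtain ⟨k, rfl⟩ := Nat.exists_eq_add_of_lt hij
    have h3 : (a : FractionRing A) * algebraMap A _ (t * g ^ (k + 1)) = algebraMap A _ s := by
      have e : algebraMap A (FractionRing A) g ^ i * ((a : FractionRing A) *
          algebraMap A _ (t * g ^ (k + 1))) = algebraMap A _ g ^ i * algebraMap A _ s := by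
        rw [← map_pow, ← map_mul, ← h1]
        rw [show t * g ^ (i + k + 1) = g ^ i * (t * g ^ (k + 1)) by ring]
        simp only [map_mul]
        ring
      exact mul_left_cancel₀ (pow_ne_zero _ hg0) e
    have h40 : r (g ^ (k + 1) * t - s) = - r s := by
      rw [map_sub, map_mul, map_pow, hgP, zero_pow (Nat.succ_ne_zero k), zero_mul, zero_sub]
    have h4 : r (g ^ (k + 1) * t - s) ≠ 0 := by
      rw [h40]; exact neg_ne_zero.mpr hs
    have hR : Rep r g b (0 - (k + 1 : ℕ)) (- ew hg hr a) := by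
      refine ⟨g ^ (k + 1) * t - s, t, 0, k + 1, h4, ht, by simp, ?_, ?_⟩
      · rw [hb, pow_zero, one_mul, sub_mul, h3, one_mul, map_sub, mul_comm t]
      · rw [h40, ← h2]
        push_cast
        ring
    refine Or.inr (Or.inr (Or.inr ⟨?_, ew_eq hg hr hR⟩))
    rw [ev_eq hg hr hR, hn]
    push_cast
    ring
  · subst hij
    have h3 : (a : FractionRing A) * algebraMap A _ t = algebraMap A _ s := by
      have e : algebraMap A (FractionRing A) g ^ i * ((a : FractionRing A) *
          algebraMap A _ t) = algebraMap A _ g ^ i * algebraMap A _ s := by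
        rw [← map_pow, ← map_mul, ← h1, map_mul]
        ring
      exact mul_left_cancel₀ (pow_ne_zero _ hg0) e
    by_cases hts : r (t - s) = 0
    · refine Or.inr (Or.inl ⟨by omega, ?_⟩)
      ext
      rw [map_sub] at hts
      rw [← sub_eq_zero.mp hts] at h2
      exact (mul_eq_right₀ ht).mp h2
    · have hR : Rep r g b 0 (ru r hts * (ru r ht)⁻¹) := by
        refine ⟨t - s, t, 0, 0, hts, ht, by simp, ?_, ?_⟩
        · rw [hb, pow_zero, one_mul, mul_one, sub_mul, h3, one_mul, map_sub]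
        · exact ru_div r hts ht
      refine Or.inr (Or.inr (Or.inl ⟨by omega, ev_eq hg hr hR, ?_⟩))
      rw [ew_eq hg hr hR]
      apply mul_right_cancel₀ ht
      rw [add_mul, h2, one_mul, ru_div r hts ht, map_sub]
      ring
  · -- positive valuation
    obtain ⟨k, rfl⟩ := Nat.exists_eq_add_of_lt hij
    have h3 : (a : FractionRing A) * algebraMap A _ t = algebraMap A _ (g ^ (k + 1) * s) := by
      have e : algebraMap A (FractionRing A) g ^ j * ((a : FractionRing A) *
          algebraMap A _ t) = algebraMap A _ g ^ j * algebraMap A _ (g ^ (k + 1) * s) := by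
        rw [← map_pow, ← map_mul, show g ^ j * (g ^ (k + 1) * s) = g ^ (j + k + 1) * s by ring,
          ← h1, map_mul]
        ring
      exact mul_left_cancel₀ (pow_ne_zero _ hg0) e
    have h40 : r (t - g ^ (k + 1) * s) = r t := by
      rw [map_sub, map_mul, map_pow, hgP, zero_pow (Nat.succ_ne_zero k), zero_mul, sub_zero]
    have h4 : r (t - g ^ (k + 1) * s) ≠ 0 := by rw [h40]; exact ht
    have hR : Rep r g b 0 1 := by
      refine ⟨t - g ^ (k + 1) * s, t, 0, 0, h4, ht, by simp, ?_, ?_⟩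
      · rw [hb, pow_zero, one_mul, mul_one, sub_mul, h3, one_mul, map_sub]
      · rw [h40]; simp
    exact Or.inl ⟨ev_eq hg hr hR, ew_eq hg hr hR⟩

end

end Vale.Agent.P178M
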